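import Mathlib

/-!
A lower bound for the probability that a Gaussian vector is long, by a change of variance.
-/

namespace Vale.Agent.P157

open MeasureTheory ProbabilityTheory
open scoped Real NNReal

/-- The fourth-moment constant. -/
noncomputable def shellC : ℝ := variance (fun x : ℝ => x ^ 2) (gaussianReal 0 1)

/-- The density of `gaussianReal 0 z` against `gaussianReal 0 1`. -/
noncomputable def tilt (z x : ℝ) : ℝ := Real.exp ((1 - 1 / z) * x ^ 2 / 2) / Real.sqrt z

lemma gaussianReal_tilt {z : ℝ≥0} (hz : z ≠ 0) :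
    (gaussianReal 0 1).withDensity (fun x => ENNReal.ofReal (tilt z x)) = gaussianReal 0 z := by
  have hzr : (0 : ℝ) < z := by exact_mod_cast hz.bot_lt
  rw [gaussianReal_of_var_ne_zero 0 one_ne_zero, gaussianReal_of_var_ne_zero 0 hz,
    ← withDensity_mul _ (measurable_gaussianPDF 0 1) (by unfold tilt; fun_prop)]
  congr 1
  funext x
  simp only [Pi.mul_apply, gaussianPDF, gaussianPDFReal, tilt, sub_zero, NNReal.coe_one, mul_one]
  rw [← ENNReal.ofReal_mul (by positivity)]
  congr 1
  rw [Real.sqrt_mul (by positivity) (z : ℝ)]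
  field_simp
  rw [← Real.exp_add]
  congr 1
  field_simp
  ring

/-- A Gaussian vector is long with probability at least the tilted bound. -/
theorem long_prob {N : ℕ} (hN : 1 ≤ N) {z ε : ℝ} (hz : 1 ≤ z) (hε : 0 < ε) :
    Real.exp ((N : ℝ) / 2 * (Real.log z - (z - 1) * (1 + ε))) * (1 - shellC / (ε ^ 2 * N)) ≤
      (Measure.pi fun _ : Fin N => gaussianReal 0 1).real {x | (1 - ε) * z * N ≤ ∑ i, x i ^ 2} := by
  set γ := gaussianReal 0 1
  set π1 := Measure.pi fun _ : Fin N => γ
  have hN0 : (0 : ℝ) < N := by exact_mod_cast hN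
  have hz0 : 0 < z := by linarith
  set zz : ℝ≥0 := z.toNNReal
  have hzc : (zz : ℝ) = z := Real.coe_toNNReal z hz0.le
  have hzz : zz ≠ 0 := by intro h; rw [h] at hzc; simp at hzc; linarith
  set S : Set (Fin N → ℝ) := {x | |∑ i, x i ^ 2 - z * N| ≤ ε * z * N} with hS
  set d : (Fin N → ℝ) → ℝ := fun x => ∏ i, tilt z (x i) with hd
  have hSm : MeasurableSet S :=
    measurableSet_le (Measurable.abs (Measurable.sub_const
      (Finset.measurable_sum _ fun i _ => (measurable_pi_apply i).pow_const 2) _)) measurable_const
  -- concentration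
  have hcheb : 1 - shellC / (ε ^ 2 * N) ≤ π1.real {x | |∑ i, x i ^ 2 - N| ≤ ε * N} := by
    set Y : Fin N → (Fin N → ℝ) → ℝ := fun i x => x i ^ 2
    have hL : MemLp (fun x : ℝ => x ^ 2) 2 γ := by
      rw [memLp_two_iff_integrable_sq (by fun_prop)]
      have h := (IsGaussian.memLp_id γ 4 (by simp)).integrable_norm_pow'
      refine h.congr (Filter.Eventually.of_forall fun x => ?_)
      simp only [id, Real.norm_eq_abs, pow_abs]
      rw [abs_of_nonneg (by positivity : 0 ≤ x ^ 4)]
      ring
    have hmp := fun i => measurePreserving_eval (fun _ : Fin N => γ) i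
    have hY : ∀ i, MemLp (Y i) 2 π1 := fun i => hL.comp_measurePreserving (hmp i)
    have hvar : ∀ i, variance (Y i) π1 = shellC := fun i => by
      have h := (variance_map (μ := π1) (Y := Function.eval i) (X := fun x : ℝ => x ^ 2)
        (by fun_prop) (measurable_pi_apply i).aemeasurable)
      rw [(hmp i).map_eq] at h
      exact h.symm
    have hmean : ∀ i, ∫ x, Y i x ∂π1 = 1 := fun i => by
      have h := integral_map (μ := π1) (measurable_pi_apply i).aemeasurable
        (f := fun x : ℝ => x ^ 2) (by fun_prop)
      rw [(hmp i).map_eq] at h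
      show ∫ x, x i ^ 2 ∂π1 = 1
      rw [← h]
      have hv := variance_id_gaussianReal (μ := 0) (v := 1)
      rw [variance_of_integral_eq_zero aemeasurable_id integral_id_gaussianReal] at hv
      simpa using hv
    have hind := iIndepFun_pi (μ := fun _ : Fin N => γ) (X := fun _ (x : ℝ) => x ^ 2)
      fun _ => by fun_prop
    have hV : variance (∑ i, Y i) π1 = N * shellC := by
      rw [IndepFun.variance_sum (fun i _ => hY i) fun i _ j _ hij => hind.indepFun hij]
      simp [hvar]
    have hE : ∫ x, (∑ i, Y i) x ∂π1 = N := by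
      simp only [Finset.sum_apply]
      rw [integral_finsetSum _ fun i _ => (hY i).integrable one_le_two]
      simp [hmean]
    have h := meas_ge_le_variance_div_sq (μ := π1) (memLp_finsetSum' Finset.univ fun i _ => hY i)
      (mul_pos hε hN0)
    rw [hE, hV] at h
    have hnn : 0 ≤ shellC := variance_nonneg _ _
    have h' : π1.real {x | ε * N ≤ |(∑ i, Y i) x - N|} ≤ N * shellC / (ε * N) ^ 2 :=
      ENNReal.toReal_le_of_le_ofReal (by positivity) h
    have hsub : {x : Fin N → ℝ | |∑ i, x i ^ 2 - (N : ℝ)| ≤ ε * N}ᶜ ⊆ {x | ε * N ≤ |(∑ i, Y i) x - N|} := fun x hx => by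
      simp only [Set.mem_compl_iff, Set.mem_ofPred_eq, not_le] at hx
      simp only [Set.mem_ofPred_eq, Finset.sum_apply, Y]
      exact hx.le
    have h2 := (measureReal_mono hsub).trans h'
    have hm : MeasurableSet {x : Fin N → ℝ | |∑ i, x i ^ 2 - (N : ℝ)| ≤ ε * N} :=
      measurableSet_le (Measurable.abs (Measurable.sub_const
        (Finset.measurable_sum _ fun i _ => (measurable_pi_apply i).pow_const 2) _)) measurable_const
    rw [probReal_compl_eq_one_sub hm] at h2
    have e : (N : ℝ) * shellC / (ε * N) ^ 2 = shellC / (ε ^ 2 * N) := by field_simp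
    linarith
  -- scaling
  have hscale : π1.map (fun x i => Real.sqrt z * x i) = Measure.pi fun _ : Fin N => gaussianReal 0 zz := by
    rw [Measure.pi_map_pi fun _ => by fun_prop]
    congr 1
    funext i
    rw [gaussianReal_map_const_mul, mul_zero, mul_one]
    congr 1
    apply NNReal.eq
    rw [hzc]; simp [Real.sq_sqrt hz0.le]
  -- tilting
  have hdens : (Measure.pi fun _ : Fin N => gaussianReal 0 zz) =
      π1.withDensity (fun x => ∏ i, ENNReal.ofReal (tilt z (x i))) := by
    refine Measure.pi_eq fun s hs => ?_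
    rw [withDensity_apply _ (MeasurableSet.univ_pi hs), ← lintegral_indicator (MeasurableSet.univ_pi hs)]
    have e : ∀ x : Fin N → ℝ, (Set.univ.pi s).indicator (fun x => ∏ i, ENNReal.ofReal (tilt z (x i))) x =
        ∏ i, (s i).indicator (fun y => ENNReal.ofReal (tilt z y)) (x i) := fun x => by
      classical
      simp only [Set.indicator_apply, Set.mem_univ_pi, Finset.prod_ite_zero, Finset.mem_univ,
        forall_const]
    have hti : Integrable (fun y => tilt z y) γ := by
      rw [← lintegral_ofReal_ne_top_iff_integrable (by unfold tilt; fun_prop)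
        (Filter.Eventually.of_forall fun y => by unfold tilt; positivity)]
      have h := congrArg (fun m : Measure ℝ => m Set.univ) (gaussianReal_tilt hzz)
      simp only [hzc, withDensity_apply _ MeasurableSet.univ, Measure.restrict_univ, measure_univ] at h
      rw [h]; exact ENNReal.one_ne_top
    set r : Fin N → ℝ → ℝ := fun i => (s i).indicator (tilt z)
    have hr : ∀ i, Integrable (r i) γ := fun i => hti.indicator (hs i)
    have hr0 : ∀ i y, 0 ≤ r i y := fun i y => Set.indicator_nonneg (fun x _ => by
      unfold tilt; positivity) y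
    have e2 : ∀ i y, (s i).indicator (fun y => ENNReal.ofReal (tilt z y)) y = ENNReal.ofReal (r i y) :=
      fun i y => by
        classical
        simp only [r, Set.indicator_apply]
        split_ifs <;> simp
    simp only [e, e2, ← ENNReal.ofReal_prod_of_nonneg fun i _ => hr0 i _]
    rw [← ofReal_integral_eq_lintegral_ofReal (Integrable.fintype_prod hr)
      (Filter.Eventually.of_forall fun x => Finset.prod_nonneg fun i _ => hr0 i _),
      integral_fintype_prod_eq_prod, ENNReal.ofReal_prod_of_nonneg fun i _ => integral_nonneg (hr0 i)]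
    refine Finset.prod_congr rfl fun i _ => ?_
    rw [ofReal_integral_eq_lintegral_ofReal (hr i) (Filter.Eventually.of_forall (hr0 i))]
    simp only [← e2]
    rw [lintegral_indicator (hs i), ← withDensity_apply _ (hs i)]
    have := gaussianReal_tilt hzz
    simp only [hzc] at this
    rw [this]
  -- combine
  have hSeq : (Measure.pi fun _ : Fin N => gaussianReal 0 zz).real S =
      π1.real {x | |∑ i, x i ^ 2 - N| ≤ ε * N} := by
    rw [← hscale, map_measureReal_apply (by fun_prop) hSm]
    congr 1
    ext x
    simp only [hS, Set.mem_preimage, Set.mem_ofPred_eq, mul_pow, Real.sq_sqrt hz0.le, ← Finset.mul_sum]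
    rw [← mul_sub, abs_mul, abs_of_pos hz0, show ε * z * N = z * (ε * N) by ring,
      mul_le_mul_iff_right₀ hz0]
  set c := Real.exp ((1 - 1 / z) * ((1 + ε) * z * N) / 2) / Real.sqrt z ^ N
  have hup : (Measure.pi fun _ : Fin N => gaussianReal 0 zz).real S ≤ c * π1.real S := by
    rw [measureReal_def, hdens, withDensity_apply _ hSm, measureReal_def]
    have hc : 0 ≤ c := by positivity
    refine le_trans (ENNReal.toReal_mono ?_ (setLIntegral_mono (g := fun _ => ENNReal.ofReal c)
      measurable_const fun x hx => ?_)) (le_of_eq ?_)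
    · rw [setLIntegral_const]
      exact ENNReal.mul_ne_top ENNReal.ofReal_ne_top (measure_ne_top _ _)
    · rw [← ENNReal.ofReal_prod_of_nonneg fun i _ => by unfold tilt; positivity]
      refine ENNReal.ofReal_le_ofReal ?_
      simp only [tilt, Finset.prod_div_distrib, Finset.prod_const, Finset.card_univ, Fintype.card_fin,
        c]
      refine div_le_div_of_nonneg_right ?_ (by positivity)
      rw [← Real.exp_sum, Real.exp_le_exp, ← Finset.sum_div, ← Finset.mul_sum]
      refine div_le_div_of_nonneg_right (mul_le_mul_of_nonneg_left ?_ ?_) two_pos.le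
      · have := (abs_le.1 (show |∑ i, x i ^ 2 - z * N| ≤ ε * z * N from hx)).2
        linarith
      · have : 1 / z ≤ 1 := by rw [div_le_one hz0]; exact hz
        linarith
    · rw [setLIntegral_const, ENNReal.toReal_mul, ENNReal.toReal_ofReal hc]
  have hcinv : Real.exp ((N : ℝ) / 2 * (Real.log z - (z - 1) * (1 + ε))) = c⁻¹ := by
    have h1 : (1 - 1 / z) * ((1 + ε) * z * N) / 2 = (N : ℝ) / 2 * ((z - 1) * (1 + ε)) := by
      field_simp
    have h2 : Real.sqrt z ^ N = Real.exp ((N : ℝ) / 2 * Real.log z) := by
      rw [← Real.exp_log (pow_pos (Real.sqrt_pos.2 hz0) N), Real.log_pow, Real.log_sqrt hz0.le]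
      congr 1; ring
    simp only [c, h1, h2]
    rw [← Real.exp_sub, ← Real.exp_neg]
    congr 1
    ring
  have hmain : 1 - shellC / (ε ^ 2 * N) ≤ c * π1.real S := hcheb.trans (hSeq.symm.le.trans hup)
  rw [hcinv]
  have hcp : 0 < c := by positivity
  refine le_trans ?_ (measureReal_mono (μ := π1) (s₁ := S) fun x hx => ?_)
  · rw [inv_mul_le_iff₀ hcp]; exact hmain
  · simp only [hS, Set.mem_ofPred_eq] at hx ⊢
    have := (abs_le.1 hx).1
    linarith

end Vale.Agent.P157
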