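import Vale.Agent.P157.Ising

/-!
The uniform measure on the sphere, random rotations, and superadditivity on spheres.
-/

namespace Vale.Agent.P157

open MeasureTheory ProbabilityTheory Metric Complex
open scoped RealInnerProductSpace Pointwise

variable (N : ℕ)

/-- The unit sphere of `ℝ^N`. -/
abbrev Sph : Type := sphere (0 : EuclideanSpace ℝ (Fin N)) 1

/-- Normalised surface measure. -/
noncomputable def sphereMeasure : Measure (Sph N) :=
  ((volume : Measure (EuclideanSpace ℝ (Fin N))).toSphere Set.univ)⁻¹ •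
    (volume : Measure (EuclideanSpace ℝ (Fin N))).toSphere

variable {N}

lemma isProbabilityMeasure_sphereMeasure (hN : 1 ≤ N) :
    IsProbabilityMeasure (sphereMeasure N) := by
  refine ⟨?_⟩
  have : Nonempty (Fin N) := ⟨⟨0, hN⟩⟩
  rw [sphereMeasure, Measure.smul_apply, smul_eq_mul]
  refine ENNReal.inv_mul_cancel ?_ (measure_ne_top _ _)
  exact Measure.measure_univ_ne_zero.2 (Measure.toSphere_ne_zero _)

/-- A linear isometry acting on the sphere. -/
noncomputable def rot (f : EuclideanSpace ℝ (Fin N) ≃ₗᵢ[ℝ] EuclideanSpace ℝ (Fin N)) (x : Sph N) : Sph N :=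
  ⟨f x, by simp [mem_sphere_zero_iff_norm]⟩

lemma continuous_rot (f : EuclideanSpace ℝ (Fin N) ≃ₗᵢ[ℝ] EuclideanSpace ℝ (Fin N)) :
    Continuous (rot f) := by
  unfold rot
  fun_prop

lemma map_rot_sphereMeasure (f : EuclideanSpace ℝ (Fin N) ≃ₗᵢ[ℝ] EuclideanSpace ℝ (Fin N)) :
    (sphereMeasure N).map (rot f) = sphereMeasure N := by
  have hm := (continuous_rot f).measurable
  rw [sphereMeasure, Measure.map_smul]
  congr 1
  refine Measure.ext fun s hs => ?_
  rw [Measure.map_apply hm hs, Measure.toSphere_apply' _ (hm hs), Measure.toSphere_apply' _ hs]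
  congr 1
  have e : Set.Ioo (0 : ℝ) 1 • ((↑) '' (rot f ⁻¹' s) : Set (EuclideanSpace ℝ (Fin N))) =
      f.toMeasurableEquiv ⁻¹' (Set.Ioo (0 : ℝ) 1 • ((↑) '' s)) := by
    ext z
    simp only [Set.mem_smul, Set.mem_image, Set.mem_preimage]
    constructor
    · rintro ⟨r, hr, _, ⟨x, hx, rfl⟩, rfl⟩
      exact ⟨r, hr, f x, ⟨rot f x, hx, rfl⟩, by simp⟩
    · rintro ⟨r, hr, _, ⟨y, hy, rfl⟩, h⟩
      refine ⟨r, hr, f.symm y, ⟨⟨f.symm y, by simp [mem_sphere_zero_iff_norm]⟩, ?_, rfl⟩, ?_⟩
      · have : rot f ⟨f.symm y, by simp [mem_sphere_zero_iff_norm]⟩ = y := by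
          apply Subtype.ext
          simp [rot]
        rwa [this]
      · apply f.injective
        simp only [map_smul, LinearIsometryEquiv.apply_symm_apply]
        simpa using h
  rw [e, ← f.toMeasurableEquiv.map_apply]
  exact congrArg (fun m : Measure (EuclideanSpace ℝ (Fin N)) =>
    m (Set.Ioo (0 : ℝ) 1 • ((↑) '' s))) f.measurePreserving.map_eq

/-- A rotation-invariant probability measure on the sphere is the uniform one. -/
lemma eq_sphereMeasure (hN : 1 ≤ N) {σ : Measure (Sph N)} [IsProbabilityMeasure σ]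
    (hσ : ∀ f, σ.map (rot f) = σ) : σ = sphereMeasure N := by
  have := isProbabilityMeasure_sphereMeasure hN
  set τ := sphereMeasure N
  -- Fourier transforms of invariant measures are radial
  have hrad : ∀ (m : Measure (Sph N)), (∀ f, m.map (rot f) = m) → ∀ (r : ℝ) (y y' : Sph N),
      ∫ x, cexp ((r * ⟪(x : EuclideanSpace ℝ (Fin N)), y⟫ : ℝ) * I) ∂m =
        ∫ x, cexp ((r * ⟪(x : EuclideanSpace ℝ (Fin N)), y'⟫ : ℝ) * I) ∂m := by
    intro m hm r y y'
    have hn : ‖(y : EuclideanSpace ℝ (Fin N))‖ = ‖(y' : EuclideanSpace ℝ (Fin N))‖ := by simp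
    set f := (ℝ ∙ ((y : EuclideanSpace ℝ (Fin N)) - y'))ᗮ.reflection
    have hf : f y = y' := Submodule.reflection_sub hn
    conv_rhs => rw [← hm f, integral_map (continuous_rot f).measurable.aemeasurable
      (Measurable.aestronglyMeasurable (by fun_prop))]
    simp only [rot, ← hf, LinearIsometryEquiv.inner_map_map]
  have hswap : ∀ (r : ℝ) (y : Sph N),
      ∫ x, cexp ((r * ⟪(x : EuclideanSpace ℝ (Fin N)), y⟫ : ℝ) * I) ∂σ =
        ∫ x, cexp ((r * ⟪(x : EuclideanSpace ℝ (Fin N)), y⟫ : ℝ) * I) ∂τ := by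
    intro r y
    have h1 : ∫ y', ∫ x, cexp ((r * ⟪(x : EuclideanSpace ℝ (Fin N)), y'⟫ : ℝ) * I) ∂σ ∂τ =
        ∫ x, cexp ((r * ⟪(x : EuclideanSpace ℝ (Fin N)), y⟫ : ℝ) * I) ∂σ := by
      rw [integral_congr_ae (Filter.Eventually.of_forall fun y' => hrad σ hσ r y' y), integral_const,
        probReal_univ, one_smul]
    have h2 : ∫ x, ∫ y', cexp ((r * ⟪(x : EuclideanSpace ℝ (Fin N)), y'⟫ : ℝ) * I) ∂τ ∂σ =
        ∫ x, cexp ((r * ⟪(x : EuclideanSpace ℝ (Fin N)), y⟫ : ℝ) * I) ∂τ := by
      have e : ∀ x : Sph N,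
          ∫ y', cexp ((r * ⟪(x : EuclideanSpace ℝ (Fin N)), y'⟫ : ℝ) * I) ∂τ =
          ∫ y', cexp ((r * ⟪(y' : EuclideanSpace ℝ (Fin N)), y⟫ : ℝ) * I) ∂τ := fun x => by
        rw [← hrad τ map_rot_sphereMeasure r x y]
        simp only [real_inner_comm (x : EuclideanSpace ℝ (Fin N))]
      rw [integral_congr_ae (Filter.Eventually.of_forall e), integral_const, probReal_univ, one_smul]
    rw [← h1, ← h2, integral_integral_swap (f := fun (x : Sph N) (y' : Sph N) =>
      cexp ((r * ⟪(x : EuclideanSpace ℝ (Fin N)), y'⟫ : ℝ) * I))]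
    exact Integrable.mono' (integrable_const (1 : ℝ)) (Measurable.aestronglyMeasurable (by fun_prop))
      (Filter.Eventually.of_forall fun z => by simp [Function.uncurry, Complex.norm_exp])
  have hemb : MeasurableEmbedding ((↑) : Sph N → EuclideanSpace ℝ (Fin N)) :=
    MeasurableEmbedding.subtype_coe isClosed_sphere.measurableSet
  have hmap : σ.map Subtype.val = τ.map Subtype.val := by
    have := Measure.isProbabilityMeasure_map (μ := σ) hemb.measurable.aemeasurable
    have := Measure.isProbabilityMeasure_map (μ := τ) hemb.measurable.aemeasurable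
    refine Measure.ext_of_charFun ?_
    funext t
    simp only [charFun_apply, hemb.integral_map]
    by_cases ht : t = 0
    · simp [ht]
    have ht' : ‖t‖ ≠ 0 := norm_ne_zero_iff.2 ht
    set y : Sph N := ⟨‖t‖⁻¹ • t, by simp [mem_sphere_zero_iff_norm, norm_smul, ht']⟩
    have e : ∀ x : EuclideanSpace ℝ (Fin N), ⟪x, t⟫ = ‖t‖ * ⟪x, (y : EuclideanSpace ℝ (Fin N))⟫ :=
      fun x => by
        simp only [y, real_inner_smul_right]
        field_simp
    simp only [e]
    exact hswap ‖t‖ y
  refine Measure.ext fun s hs => ?_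
  have h := congrArg (fun m : Measure (EuclideanSpace ℝ (Fin N)) => m (Subtype.val '' s)) hmap
  simpa [hemb.map_apply, Set.preimage_image_eq _ Subtype.val_injective] using h

/-- There is a random rotation sending every point of the sphere to a uniform one. -/
theorem exists_random_rot (hN : 1 ≤ N) :
    ∃ (Ω : Type) (_ : MeasurableSpace Ω) (γ : Measure Ω)
      (R : Ω → EuclideanSpace ℝ (Fin N) ≃ₗᵢ[ℝ] EuclideanSpace ℝ (Fin N)),
      IsProbabilityMeasure γ ∧ Measurable (Function.uncurry fun ω x => rot (R ω) x) ∧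
        ∀ x, γ.map (fun ω => rot (R ω) x) = sphereMeasure N := by
  let A := EuclideanSpace ℝ (Fin N) →L[ℝ] EuclideanSpace ℝ (Fin N)
  let G := unitary A
  have : Nonempty (Fin N) := ⟨⟨0, hN⟩⟩
  have : ProperSpace A := FiniteDimensional.proper ℝ A
  have : ContinuousStar A := ⟨(ContinuousLinearMap.adjoint : A ≃ₗᵢ⋆[ℝ] A).continuous⟩
  have hc : IsCompact (G : Set A) := by
    refine IsCompact.of_isClosed_subset (isCompact_closedBall (0 : A) 1) isClosed_unitary ?_
    intro u hu
    rw [mem_closedBall_zero_iff]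
    exact (CStarRing.norm_of_mem_unitary hu).le
  have : CompactSpace G := isCompact_iff_compactSpace.1 hc
  let _ : MeasurableSpace G := borel G
  have : BorelSpace G := ⟨rfl⟩
  let γ : Measure G := Measure.haarMeasure (⊤ : TopologicalSpace.PositiveCompacts G)
  have hγ : IsProbabilityMeasure γ := ⟨by
    have h := Measure.haarMeasure_self (G := G) (K₀ := ⊤)
    simpa [γ] using h⟩
  let R : G → EuclideanSpace ℝ (Fin N) ≃ₗᵢ[ℝ] EuclideanSpace ℝ (Fin N) := fun u =>
    Unitary.linearIsometryEquiv u
  have hcont : Continuous (Function.uncurry fun u x => rot (R u) x) := by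
    refine Continuous.subtype_mk ?_ _
    show Continuous fun z : G × Sph N => (z.1 : A) (z.2 : EuclideanSpace ℝ (Fin N))
    fun_prop
  have : γ.IsMulLeftInvariant :=
    inferInstanceAs (Measure.haarMeasure (⊤ : TopologicalSpace.PositiveCompacts G)).IsMulLeftInvariant
  refine ⟨G, inferInstance, γ, R, hγ, hcont.measurable, fun x => ?_⟩
  have hmx : Measurable fun u : G => rot (R u) x :=
    (hcont.comp (Continuous.prodMk continuous_id continuous_const)).measurable
  have := Measure.isProbabilityMeasure_map (μ := γ) hmx.aemeasurable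
  refine eq_sphereMeasure hN fun f => ?_
  obtain ⟨u0, rfl⟩ : ∃ u0 : G, Unitary.linearIsometryEquiv u0 = f :=
    ⟨_, MulEquiv.apply_symm_apply _ f⟩
  rw [Measure.map_map (continuous_rot _).measurable hmx]
  have e : (rot (Unitary.linearIsometryEquiv u0) ∘ fun u => rot (R u) x) =
      (fun u => rot (R u) x) ∘ fun u => u0 * u := by
    funext u
    apply Subtype.ext
    simp [rot, R, Function.comp]
  rw [e, ← Measure.map_map hmx (measurable_const_mul u0), map_mul_left_eq_self]

variable {f : ℝ → ℝ} {B : ℝ}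

/-- Among probability measures on the sphere the uniform one has the largest expected pressure. -/
theorem L_le_uniform (hN : 1 ≤ N) (hf : Pot f B) (ρ : Measure (Sph N)) [IsProbabilityMeasure ρ]
    (k : ℕ) :
    L ρ f Subtype.val k (fun _ => 1) ≤ L (sphereMeasure N) f Subtype.val k (fun _ => 1) := by
  have := isProbabilityMeasure_sphereMeasure hN
  obtain ⟨Ω, _, γ, R, hγ, hR, hRx⟩ := exists_random_rot hN
  rw [L_eq_integral hf (by fun_prop) k _ Wt.one, L_eq_integral hf (by fun_prop) k _ Wt.one]
  simp only [one_mul]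
  set P := Measure.pi fun _ : Fin k => stdGaussian (EuclideanSpace ℝ (Fin N))
  set H : (Fin k → EuclideanSpace ℝ (Fin N)) → Sph N → ℝ := fun g x =>
    ∑ a, f ⟪g a, (x : EuclideanSpace ℝ (Fin N))⟫
  have hHm : Measurable (Function.uncurry H) :=
    Finset.measurable_sum _ fun a _ => hf.meas.comp
      (((measurable_pi_apply a).comp measurable_fst).inner (measurable_subtype_coe.comp measurable_snd))
  have hHb : ∀ g x, |H g x| ≤ k * B := fun g x => (Finset.abs_sum_le_sum_abs _ _).trans
    ((Finset.sum_le_sum fun a _ => hf.bound _).trans_eq (by simp))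
  have hHg : ∀ g, Measurable (H g) := fun g => hHm.comp measurable_prodMk_left
  have hY : ∀ g, Measurable fun z : Ω × Sph N => Real.exp (H g (rot (R z.1) z.2)) := fun g =>
    ((hHg g).comp hR).exp
  have hZm : Measurable fun g => Real.log (∫ x, Real.exp (H g x) ∂sphereMeasure N) :=
    (hHm.exp.stronglyMeasurable.integral_prod_right' (ν := sphereMeasure N)).measurable.log
  have hWm : Measurable fun z : (Fin k → EuclideanSpace ℝ (Fin N)) × Ω =>
      Real.log (∫ x, Real.exp (H z.1 (rot (R z.2) x)) ∂ρ) := by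
    have h : Measurable fun q : ((Fin k → EuclideanSpace ℝ (Fin N)) × Ω) × Sph N =>
        Real.exp (H q.1.1 (rot (R q.1.2) q.2)) :=
      (hHm.comp ((measurable_fst.comp measurable_fst).prodMk
        (hR.comp ((measurable_snd.comp measurable_fst).prodMk measurable_snd)))).exp
    exact (h.stronglyMeasurable.integral_prod_right' (ν := ρ)).measurable.log
  have hWb : ∀ g ω, |Real.log (∫ x, Real.exp (H g (rot (R ω) x)) ∂ρ)| ≤ k * B := fun g ω =>
    abs_log_integral_exp_le ((hHg g).comp (continuous_rot _).measurable) fun x => hHb g _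
  have hWint : Integrable (Function.uncurry fun g ω =>
      Real.log (∫ x, Real.exp (H g (rot (R ω) x)) ∂ρ)) (P.prod γ) :=
    Integrable.mono' (integrable_const ((k : ℝ) * B)) hWm.aestronglyMeasurable
      (Filter.Eventually.of_forall fun z => hWb z.1 z.2)
  -- the mixture of rotated copies of `ρ` is uniform
  have hmix : ∀ g, ∫ ω, ∫ x, Real.exp (H g (rot (R ω) x)) ∂ρ ∂γ =
      ∫ x, Real.exp (H g x) ∂sphereMeasure N := fun g => by
    rw [integral_integral_swap (f := fun ω x => Real.exp (H g (rot (R ω) x)))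
      (Integrable.mono' (integrable_const (Real.exp ((k : ℝ) * B))) (hY g).aestronglyMeasurable
        (Filter.Eventually.of_forall fun z => by
          rw [Real.norm_eq_abs, Function.uncurry, Real.abs_exp, Real.exp_le_exp]
          exact (abs_le.1 (hHb g _)).2))]
    have e : ∀ x, ∫ ω, Real.exp (H g (rot (R ω) x)) ∂γ =
        ∫ x, Real.exp (H g x) ∂sphereMeasure N := fun x => by
      conv_rhs => rw [← hRx x]
      have hmx : Measurable fun ω => rot (R ω) x := hR.comp (measurable_id.prodMk measurable_const)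
      rw [integral_map hmx.aemeasurable (hHg g).exp.aestronglyMeasurable]
    simp [e]
  have hjensen : ∀ g, ∫ ω, Real.log (∫ x, Real.exp (H g (rot (R ω) x)) ∂ρ) ∂γ ≤
      Real.log (∫ x, Real.exp (H g x) ∂sphereMeasure N) := fun g => by
    set c := ∫ x, Real.exp (H g x) ∂sphereMeasure N
    set Z : Ω → ℝ := fun ω => ∫ x, Real.exp (H g (rot (R ω) x)) ∂ρ
    have hpos : ∀ ω, 0 < Z ω := fun ω =>
      (Wt.exp ((hHg g).comp (continuous_rot _).measurable) fun x => hHb g _).integral_pos
    have hc : 0 < c := (Wt.exp (hHg g) (hHb g)).integral_pos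
    have hZi : Integrable Z γ := by
      refine Integrable.mono' (integrable_const (Real.exp ((k : ℝ) * B)))
        ((hY g).stronglyMeasurable.integral_prod_right' (ν := ρ)).aestronglyMeasurable
        (Filter.Eventually.of_forall fun ω => ?_)
      rw [Real.norm_eq_abs, abs_of_pos (hpos ω)]
      exact (Real.log_le_iff_le_exp (hpos ω)).1 (abs_le.1 (hWb g ω)).2
    have hli : Integrable (fun ω => Real.log (Z ω)) γ :=
      Integrable.mono' (integrable_const ((k : ℝ) * B))
        (hWm.comp measurable_prodMk_left).aestronglyMeasurable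
        (Filter.Eventually.of_forall fun ω => hWb g ω)
    have hb : ∀ ω, Real.log (Z ω) ≤ Real.log c + Z ω / c - 1 := fun ω => by
      have := Real.log_le_sub_one_of_pos (div_pos (hpos ω) hc)
      rw [Real.log_div (hpos ω).ne' hc.ne'] at this
      linarith
    refine (integral_mono (g := fun ω => Real.log c + Z ω / c - 1) hli
      (((integrable_const _).add (hZi.div_const c)).sub (integrable_const 1)) hb).trans (le_of_eq ?_)
    rw [integral_sub ((integrable_const _).fun_add (hZi.div_const c)) (integrable_const 1),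
      integral_add (integrable_const _) (hZi.div_const c), integral_div, hmix]
    simp [div_self hc.ne', c]
  -- invariance of the Gaussian patterns
  have hinv : ∀ ω, ∫ g, Real.log (∫ x, Real.exp (H g (rot (R ω) x)) ∂ρ) ∂P =
      ∫ g, Real.log (∫ x, Real.exp (H g x) ∂ρ) ∂P := fun ω => by
    have hmp : MeasurePreserving
        (fun (g : Fin k → EuclideanSpace ℝ (Fin N)) a => (R ω).symm (g a)) P P :=
      measurePreserving_pi _ _ fun _ =>
        ⟨(R ω).symm.continuous.measurable, stdGaussian_map (R ω).symm⟩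
    have hm : Measurable fun g => Real.log (∫ x, Real.exp (H g x) ∂ρ) :=
      (hHm.exp.stronglyMeasurable.integral_prod_right' (ν := ρ)).measurable.log
    conv_rhs => rw [← hmp.map_eq, integral_map hmp.measurable.aemeasurable hm.aestronglyMeasurable]
    refine integral_congr_ae (Filter.Eventually.of_forall fun g => ?_)
    simp only [H, rot, LinearIsometryEquiv.inner_map_eq_flip, LinearIsometryEquiv.symm_symm]
  calc ∫ g, Real.log (∫ x, Real.exp (H g x) ∂ρ) ∂P
      = ∫ ω, ∫ g, Real.log (∫ x, Real.exp (H g (rot (R ω) x)) ∂ρ) ∂P ∂γ := by simp [hinv]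
    _ = ∫ g, ∫ ω, Real.log (∫ x, Real.exp (H g (rot (R ω) x)) ∂ρ) ∂γ ∂P :=
        (integral_integral_swap hWint).symm
    _ ≤ ∫ g, Real.log (∫ x, Real.exp (H g x) ∂sphereMeasure N) ∂P :=
        integral_mono hWint.integral_prod_left
          (Integrable.mono' (integrable_const ((k : ℝ) * B)) hZm.aestronglyMeasurable
            (Filter.Eventually.of_forall fun g => abs_log_integral_exp_le (hHg g) (hHb g))) hjensen

/-- Expected log-partition function of the spherical perceptron. -/
noncomputable def sphereF (f : ℝ → ℝ) (N k : ℕ) : ℝ :=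
  L (sphereMeasure N) f Subtype.val k fun _ => 1

/-- Gluing unit vectors of blocks into a unit vector. -/
noncomputable def glueVec {J : Type} {n : J → ℕ} (e : ((j : J) × Fin (n j)) ≃ Fin N)
    (x : ∀ j, EuclideanSpace ℝ (Fin (n j))) : EuclideanSpace ℝ (Fin N) :=
  WithLp.toLp 2 fun i => Real.sqrt ((n (e.symm i).1 : ℝ) / N) * (x (e.symm i).1) (e.symm i).2

lemma inner_glueVec {J : Type} [Fintype J] {n : J → ℕ} (e : ((j : J) × Fin (n j)) ≃ Fin N)
    (x y : ∀ j, EuclideanSpace ℝ (Fin (n j))) :
    ⟪glueVec e x, glueVec e y⟫ = ∑ j, ((n j : ℝ) / N) * ⟪x j, y j⟫ := by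
  simp only [glueVec, PiLp.inner_apply, RCLike.inner_apply, conj_trivial]
  rw [← e.sum_comp, Fintype.sum_sigma]
  refine Finset.sum_congr rfl fun j _ => ?_
  rw [Finset.mul_sum]
  refine Finset.sum_congr rfl fun i _ => ?_
  have h := congrArg (fun p : (j : J) × Fin (n j) =>
    Real.sqrt ((n p.1 : ℝ) / N) * (y p.1) p.2 * (Real.sqrt ((n p.1 : ℝ) / N) * (x p.1) p.2))
    (e.symm_apply_apply ⟨j, i⟩)
  refine h.trans ?_
  have hs := Real.mul_self_sqrt (by positivity : (0 : ℝ) ≤ (n j : ℝ) / N)
  linear_combination (y j i * x j i) * hs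

theorem superAdd_sphere_of {f : ℝ → ℝ} {B : ℝ} (hf : Pot f B) (hb : BlockIneq f) :
    SuperAdd (sphereF f)
      (1 + B) where
  zero N := by
    rcases Nat.eq_zero_or_pos N with rfl | hN
    · simp [sphereF, L, iter, logI, sphereMeasure]
    · have := isProbabilityMeasure_sphereMeasure hN
      simp [sphereF, L, iter, logI]
  lip N k l := by
    rcases Nat.eq_zero_or_pos N with rfl | hN
    · have e : ∀ k (w : Sph 0 → ℝ), L (sphereMeasure 0) f Subtype.val k w = 0 := fun k => by
        induction k with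
        | zero =>
          intro w
          have : IsEmpty (Sph 0) := ⟨fun x => by
            have h := mem_sphere_zero_iff_norm.1 x.2
            rw [Subsingleton.elim (x : EuclideanSpace ℝ (Fin 0)) 0, norm_zero] at h
            norm_num at h⟩
          simp [L, iter, logI, Measure.eq_zero_of_isEmpty]
        | succ k ih =>
          intro w
          show ∫ g, L (sphereMeasure 0) f Subtype.val k _ ∂_ = 0
          simp [ih]
      simp only [sphereF, e, sub_self, abs_zero]
      have := hf.nonneg
      positivity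
    · have := isProbabilityMeasure_sphereMeasure hN
      exact L_lipschitz hf (by fun_prop) Wt.one k l
  split J _ n N hn hsum hN M := by
    classical
    have := fun j => isProbabilityMeasure_sphereMeasure (hn j)
    have hN0 : (N : ℝ) ≠ 0 := by exact_mod_cast (by omega : N ≠ 0)
    have e : ((j : J) × Fin (n j)) ≃ Fin N := Fintype.equivFinOfCardEq (by simp [hsum])
    have hone : ∑ j, (n j : ℝ) / N = 1 := by rw [← Finset.sum_div, ← Nat.cast_sum, hsum, div_self hN0]
    have hmem : ∀ x : ∀ j, Sph (n j), glueVec e (fun j => (x j : EuclideanSpace ℝ (Fin (n j)))) ∈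
        sphere (0 : EuclideanSpace ℝ (Fin N)) 1 := fun x => by
      have h : ‖glueVec e (fun j => (x j : EuclideanSpace ℝ (Fin (n j))))‖ ^ 2 = 1 := by
        rw [← real_inner_self_eq_norm_sq, inner_glueVec]
        simp [real_inner_self_eq_norm_sq, hone]
      rw [mem_sphere_zero_iff_norm]
      nlinarith [norm_nonneg (glueVec e (fun j => (x j : EuclideanSpace ℝ (Fin (n j)))))]
    set φ : (∀ j, Sph (n j)) → Sph N := fun x => ⟨_, hmem x⟩ with hφ
    have hφm : Measurable φ := Measurable.subtype_mk (by unfold glueVec; fun_prop)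
    have := Measure.isProbabilityMeasure_map
      (μ := Measure.pi fun j => sphereMeasure (n j)) hφm.aemeasurable
    have h := L_block_of hf (μ := fun j => sphereMeasure (n j)) (u := fun j => Subtype.val)
      (fun j => measurable_subtype_coe) (v := Subtype.val ∘ φ) (measurable_subtype_coe.comp hφm)
      (s := fun j => (n j : ℝ) / N) (fun j => by positivity) hone
      (hb J _ _ _ (fun j => EuclideanSpace ℝ (Fin (n j))) (Subtype.val ∘ φ)
        (fun j x => (x j : EuclideanSpace ℝ (Fin (n j)))) (fun j => (n j : ℝ) / N)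
        (measurable_subtype_coe.comp hφm)
        (fun j => measurable_subtype_coe.comp (measurable_pi_apply j)) (fun j => by positivity) hone
        (fun j x => mem_sphere_zero_iff_norm.1 (x j).2)
        (fun x y => inner_glueVec e (fun j => (x j : EuclideanSpace ℝ (Fin (n j))))
          (fun j => (y j : EuclideanSpace ℝ (Fin (n j)))))) M (fun j _ => 1) fun j => Wt.one
    refine h.trans (le_trans (le_of_eq ?_)
      (L_le_uniform hN hf ((Measure.pi fun j => sphereMeasure (n j)).map φ) M))
    simp only [Finset.prod_const_one]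
    exact L_map hφm rfl hf measurable_subtype_coe M _ Wt.one

theorem superAdd_sphere {f : ℝ → ℝ} {a : ℝ} {ν : Measure ℝ} (hk : Ker f a ν) :
    SuperAdd (sphereF f)
      (1 + (|Real.log (a - ν.real Set.univ)| + |Real.log (a + ν.real Set.univ)|)) :=
  superAdd_sphere_of hk.pot hk.blockIneq

end Vale.Agent.P157
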