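import Vale.Agent.P157.RS
import Vale.Agent.P157.Shell
import Vale.Agent.P157.Sphere

/-!
The single-site entropy on the cube and the spherical entropy in a Gaussian field.
-/

namespace Vale.Agent.P157

open MeasureTheory ProbabilityTheory
open scoped RealInnerProductSpace

variable {f : ℝ → ℝ} {N : ℕ}

/-- Expectation of `log cosh` of a Gaussian. -/
noncomputable def lcE (t : ℝ) : ℝ := ∫ z, Real.log (Real.cosh (t * z)) ∂gaussianReal 0 1

lemma abs_log_cosh_le (x : ℝ) : |Real.log (Real.cosh x)| ≤ |x| := by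
  rw [abs_of_nonneg (Real.log_nonneg (Real.one_le_cosh x)), Real.log_le_iff_le_exp (Real.cosh_pos x),
    Real.cosh_eq]
  have h1 := Real.exp_le_exp.2 (le_abs_self x)
  have h2 := Real.exp_le_exp.2 (neg_le_abs x)
  linarith

/-- A coordinate of a standard Gaussian vector. -/
lemma measurePreserving_coord (i : Fin N) :
    MeasurePreserving (fun h : EuclideanSpace ℝ (Fin N) => h i)
      (stdGaussian (EuclideanSpace ℝ (Fin N))) (gaussianReal 0 1) := by
  refine ⟨by fun_prop, ?_⟩
  rw [← map_pi_eq_stdGaussian, Measure.map_map (by fun_prop) (by fun_prop)]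
  exact (measurePreserving_eval (fun _ : Fin N => gaussianReal 0 1) i).map_eq

lemma hybrid_cube (s : ℝ) :
    hybrid (cubeMeasure N) f (cubeVec N) s 0 = N * lcE (s / Real.sqrt N) := by
  set c := s / Real.sqrt N
  have e : ∀ h : EuclideanSpace ℝ (Fin N),
      logI (cubeMeasure N) (fun x => 1 * fw s (cubeVec N) h x) = ∑ i, Real.log (Real.cosh (c * h i)) := by
    intro h
    simp only [logI, fw, one_mul, integral_cube]
    rw [← Real.log_prod fun i _ => (Real.cosh_pos _).ne']
    congr 1
    have hi : ∀ σ, s * ⟪h, cubeVec N σ⟫ = ∑ i, c * h i * sgn (σ i) := fun σ => by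
      rw [cubeVec, real_inner_smul_right]
      simp only [PiLp.inner_apply, RCLike.inner_apply, conj_trivial, Finset.mul_sum, c]
      exact Finset.sum_congr rfl fun i _ => by rw [div_eq_mul_inv]; ring
    simp only [hi, Real.exp_sum]
    rw [← Fintype.piFinset_univ, ← Finset.prod_univ_sum (fun _ : Fin N => (Finset.univ : Finset Bool))
      (fun i b => Real.exp (c * h i * sgn b)),
      show (2 : ℝ) ^ N = ∏ _i : Fin N, (2 : ℝ) by simp, ← Finset.prod_div_distrib]
    refine Finset.prod_congr rfl fun i _ => ?_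
    rw [Fintype.sum_bool, Real.cosh_eq]
    simp [sgn]
  have hint : ∀ i : Fin N, Integrable (fun h : EuclideanSpace ℝ (Fin N) =>
      Real.log (Real.cosh (c * h i))) (stdGaussian _) := fun i => by
    have hz : Integrable (fun z : ℝ => Real.log (Real.cosh (c * z))) (gaussianReal 0 1) :=
      Integrable.mono' ((IsGaussian.integrable_id (μ := gaussianReal 0 1)).abs.const_mul |c|)
        (Continuous.aestronglyMeasurable
          ((Real.continuous_cosh.comp (continuous_const.mul continuous_id)).log fun z =>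
            (Real.cosh_pos _).ne'))
        (Filter.Eventually.of_forall fun z => by
          simpa [abs_mul] using abs_log_cosh_le (c * z))
    exact (measurePreserving_coord i).integrable_comp_of_integrable hz
  simp only [hybrid, avg, L, iter, e]
  rw [integral_finsetSum _ fun i _ => hint i]
  have hmap : ∀ i : Fin N, ∫ h : EuclideanSpace ℝ (Fin N), Real.log (Real.cosh (c * h i))
      ∂stdGaussian _ = lcE c := fun i => by
    have hm := measurePreserving_coord i
    have hc : Continuous fun z : ℝ => Real.log (Real.cosh (c * z)) :=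
      (Real.continuous_cosh.comp (continuous_const.mul continuous_id)).log fun z =>
        (Real.cosh_pos _).ne'
    have h2 := integral_map hm.measurable.aemeasurable
      (hc.aestronglyMeasurable (μ := (stdGaussian (EuclideanSpace ℝ (Fin N))).map fun h => h i))
    rw [hm.map_eq] at h2
    exact h2.symm
  simp [hmap]

lemma integrable_exp_norm (c : ℝ) :
    Integrable (fun g : EuclideanSpace ℝ (Fin N) => Real.exp (c * ‖g‖))
      (stdGaussian (EuclideanSpace ℝ (Fin N))) := by
  obtain ⟨C, hC, hi⟩ := IsGaussian.exists_integrable_exp_sq (stdGaussian (EuclideanSpace ℝ (Fin N)))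
  refine Integrable.mono' (hi.const_mul (Real.exp (c ^ 2 / (4 * C))))
    (Continuous.aestronglyMeasurable (by fun_prop)) (Filter.Eventually.of_forall fun g => ?_)
  rw [Real.norm_eq_abs, Real.abs_exp, ← Real.exp_add, Real.exp_le_exp]
  have : 0 ≤ (c - 2 * C * ‖g‖) ^ 2 / (4 * C) := by positivity
  have e : (c - 2 * C * ‖g‖) ^ 2 / (4 * C) = c ^ 2 / (4 * C) - c * ‖g‖ + C * ‖g‖ ^ 2 := by
    field_simp; ring
  linarith

/-- Partition function of the sphere in the field `h`. -/
noncomputable def sphZ (h : EuclideanSpace ℝ (Fin N)) (s : ℝ) : ℝ :=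
  ∫ u : Sph N, Real.exp (s * ⟪h, (u : EuclideanSpace ℝ (Fin N))⟫) ∂sphereMeasure N

lemma sphZ_pos (hN : 1 ≤ N) (h : EuclideanSpace ℝ (Fin N)) (s : ℝ) : 0 < sphZ h s := by
  have := isProbabilityMeasure_sphereMeasure hN
  exact ((mult_fw (v := (Subtype.val : Sph N → EuclideanSpace ℝ (Fin N))) measurable_subtype_coe
    (fun x => mem_sphere_zero_iff_norm.1 x.2) s).wt h).integral_pos

lemma sphZ_mono (hN : 1 ≤ N) (h : EuclideanSpace ℝ (Fin N)) {s t : ℝ} (hst : |s| ≤ |t|) :
    sphZ h s ≤ sphZ h t := by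
  have := isProbabilityMeasure_sphereMeasure hN
  set τ := sphereMeasure N
  have hi : ∀ s : ℝ, Integrable (fun u : Sph N => Real.exp (s * ⟪h, (u : EuclideanSpace ℝ (Fin N))⟫)) τ :=
    fun s => ((mult_fw (v := (Subtype.val : Sph N → EuclideanSpace ℝ (Fin N))) measurable_subtype_coe
      (fun x => mem_sphere_zero_iff_norm.1 x.2) s).wt h).integrable
  have he : ∀ s : ℝ, sphZ h s =
      ∫ u : Sph N, Real.cosh (s * ⟪h, (u : EuclideanSpace ℝ (Fin N))⟫) ∂τ := fun s => by
    have hn : sphZ h s = sphZ h (-s) := by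
      simp only [sphZ]
      conv_lhs => rw [← map_rot_sphereMeasure (LinearIsometryEquiv.neg ℝ),
        integral_map (continuous_rot _).measurable.aemeasurable (by fun_prop)]
      refine integral_congr_ae (Filter.Eventually.of_forall fun u => ?_)
      simp [rot]
    simp only [Real.cosh_eq, ← neg_mul]
    rw [integral_div, integral_add (hi s) (hi (-s))]
    simp only [sphZ] at hn ⊢
    linarith
  rw [he, he]
  refine integral_mono ?_ ?_ fun u => ?_
  · simp only [Real.cosh_eq, ← neg_mul]; exact ((hi s).add (hi (-s))).div_const 2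
  · simp only [Real.cosh_eq, ← neg_mul]; exact ((hi t).add (hi (-t))).div_const 2
  · rw [Real.cosh_le_cosh, abs_mul, abs_mul]
    exact mul_le_mul_of_nonneg_right hst (abs_nonneg _)

/-- Laplace transform of a Gaussian vector. -/
lemma integral_exp_inner (θ : ℝ) (h : EuclideanSpace ℝ (Fin N)) :
    ∫ g, Real.exp (θ * ⟪h, g⟫) ∂stdGaussian (EuclideanSpace ℝ (Fin N)) =
      Real.exp (θ ^ 2 * ‖h‖ ^ 2 / 2) := by
  set L := innerSL ℝ h
  have hmap := IsGaussian.map_eq_gaussianReal (μ := stdGaussian (EuclideanSpace ℝ (Fin N))) L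
  rw [integral_strongDual_stdGaussian, variance_dual_stdGaussian, innerSL_apply_norm] at hmap
  have h1 : mgf (fun g => L g) (stdGaussian (EuclideanSpace ℝ (Fin N))) θ =
      ∫ g, Real.exp (θ * L g) ∂stdGaussian (EuclideanSpace ℝ (Fin N)) := rfl
  -- evaluate the Gaussian transform
  rw [mgf_gaussianReal hmap θ, Real.coe_toNNReal _ (sq_nonneg _)] at h1
  simp only [L, innerSL_apply_apply] at h1
  rw [← h1]; ring_nf

/-- A long Gaussian vector bounds the spherical partition function. -/
lemma sphZ_mul_prob_le (hN : 1 ≤ N) (h : EuclideanSpace ℝ (Fin N)) {θ ρ : ℝ} (hθ : 0 ≤ θ)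
    (hρ : 0 ≤ ρ) :
    sphZ h (θ * ρ) * (stdGaussian (EuclideanSpace ℝ (Fin N))).real {g | ρ ≤ ‖g‖} ≤
      Real.exp (θ ^ 2 * ‖h‖ ^ 2 / 2) := by
  have := isProbabilityMeasure_sphereMeasure hN
  obtain ⟨Ω, _, γ, R, hγ, hR, hRx⟩ := exists_random_rot hN
  set G := stdGaussian (EuclideanSpace ℝ (Fin N))
  have : Nonempty (Fin N) := ⟨⟨0, hN⟩⟩
  obtain ⟨x0, hx0⟩ := (NormedSpace.sphere_nonempty (E := EuclideanSpace ℝ (Fin N))).2 zero_le_one
  -- radial and angular parts
  have hrad : ∀ g, ∫ ω, Real.exp (θ * ⟪h, R ω g⟫) ∂γ = sphZ h (θ * ‖g‖) := fun g => by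
    obtain ⟨x, hx⟩ : ∃ x : Sph N, g = ‖g‖ • (x : EuclideanSpace ℝ (Fin N)) := by
      rcases eq_or_ne g 0 with rfl | hg
      · exact ⟨⟨x0, hx0⟩, by simp⟩
      · refine ⟨⟨‖g‖⁻¹ • g, ?_⟩, ?_⟩
        · simp [mem_sphere_zero_iff_norm, norm_smul, hg]
        · simp [smul_smul, hg]
    have hmx : Measurable fun ω => rot (R ω) x := hR.comp (measurable_id.prodMk measurable_const)
    rw [sphZ, ← hRx x, integral_map hmx.aemeasurable (by fun_prop)]
    refine integral_congr_ae (Filter.Eventually.of_forall fun ω => ?_)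
    conv_lhs => rw [hx]
    simp only [map_smul, real_inner_smul_right, rot, mul_assoc]
  have hRm : Measurable fun z : EuclideanSpace ℝ (Fin N) × Ω => R z.2 z.1 := by
    have hc : ∀ ω, Continuous fun g => R ω g := fun ω => (R ω).continuous
    refine measurable_uncurry_of_continuous_of_measurable (u := fun g ω => R ω g) hc fun g => ?_
    obtain ⟨x, hx⟩ : ∃ x : Sph N, g = ‖g‖ • (x : EuclideanSpace ℝ (Fin N)) := by
      rcases eq_or_ne g 0 with rfl | hg
      · exact ⟨⟨x0, hx0⟩, by simp⟩
      · exact ⟨⟨‖g‖⁻¹ • g, by simp [mem_sphere_zero_iff_norm, norm_smul, hg]⟩, by simp [smul_smul, hg]⟩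
    have hmx : Measurable fun ω => rot (R ω) x := hR.comp (measurable_id.prodMk measurable_const)
    have e : (fun ω => R ω g) = fun ω => ‖g‖ • ((rot (R ω) x : Sph N) : EuclideanSpace ℝ (Fin N)) := by
      funext ω; conv_lhs => rw [hx]
      simp [rot]
    show Measurable fun ω => R ω g
    rw [e]
    exact (measurable_subtype_coe.comp hmx).const_smul ‖g‖
  have hint : Integrable (fun z : EuclideanSpace ℝ (Fin N) × Ω => Real.exp (θ * ⟪h, R z.2 z.1⟫))
      (G.prod γ) :=
    Integrable.mono' ((integrable_exp_norm (θ * ‖h‖)).comp_fst γ)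
      ((measurable_const.inner hRm).const_mul θ).exp.aestronglyMeasurable
      (Filter.Eventually.of_forall fun z => by
        rw [Real.norm_eq_abs, Real.abs_exp, Real.exp_le_exp, mul_assoc]
        refine mul_le_mul_of_nonneg_left ((real_inner_le_norm _ _).trans_eq ?_) hθ
        rw [LinearIsometryEquiv.norm_map])
  have hswap := integral_integral_swap (f := fun g ω => Real.exp (θ * ⟪h, R ω g⟫)) hint
  have hrot : ∀ ω, ∫ g, Real.exp (θ * ⟪h, R ω g⟫) ∂G = Real.exp (θ ^ 2 * ‖h‖ ^ 2 / 2) := fun ω => by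
    rw [← integral_exp_inner θ h]
    conv_rhs => rw [← stdGaussian_map (R ω), integral_map (R ω).continuous.measurable.aemeasurable
      (by fun_prop)]
  simp only [hrad, hrot, integral_const, probReal_univ, one_smul] at hswap
  rw [← hswap]
  have hZi : Integrable (fun g => sphZ h (θ * ‖g‖)) G :=
    hint.integral_prod_left.congr (Filter.Eventually.of_forall hrad)
  have hS : MeasurableSet {g : EuclideanSpace ℝ (Fin N) | ρ ≤ ‖g‖} :=
    measurableSet_le measurable_const measurable_norm
  calc sphZ h (θ * ρ) * G.real {g | ρ ≤ ‖g‖}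
      = ∫ g, ({g | ρ ≤ ‖g‖} : Set _).indicator (fun _ => sphZ h (θ * ρ)) g ∂G := by
        rw [integral_indicator_const _ hS, smul_eq_mul, mul_comm]
    _ ≤ ∫ g, sphZ h (θ * ‖g‖) ∂G := by
        refine integral_mono ((integrable_const _).indicator hS) hZi fun g => ?_
        by_cases hg : g ∈ {g : EuclideanSpace ℝ (Fin N) | ρ ≤ ‖g‖}
        · rw [Set.indicator_of_mem hg]
          refine sphZ_mono hN h ?_
          rw [abs_of_nonneg (mul_nonneg hθ hρ), abs_of_nonneg (mul_nonneg hθ (norm_nonneg g))]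
          exact mul_le_mul_of_nonneg_left hg hθ
        · rw [Set.indicator_of_notMem hg]
          exact (sphZ_pos hN h _).le

lemma integral_norm_sq_stdGaussian :
    ∫ g, ‖g‖ ^ 2 ∂stdGaussian (EuclideanSpace ℝ (Fin N)) = N := by
  have hv : ∫ z : ℝ, z ^ 2 ∂gaussianReal 0 1 = 1 := by
    have h := variance_id_gaussianReal (μ := 0) (v := 1)
    rw [variance_of_integral_eq_zero aemeasurable_id integral_id_gaussianReal] at h
    simpa using h
  have hi : Integrable (fun z : ℝ => z ^ 2) (gaussianReal 0 1) := by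
    simpa using (IsGaussian.memLp_id (gaussianReal 0 1) 2 (by simp)).integrable_sq
  simp only [EuclideanSpace.real_norm_sq_eq]
  have h1 : ∀ i : Fin N, ∫ g : EuclideanSpace ℝ (Fin N), g i ^ 2 ∂stdGaussian _ = 1 := fun i => by
    have hm := measurePreserving_coord i
    rw [← hv, ← hm.map_eq, integral_map hm.measurable.aemeasurable (by fun_prop)]
  have hgi : ∀ i : Fin N, Integrable (fun g : EuclideanSpace ℝ (Fin N) => g i ^ 2)
      (stdGaussian (EuclideanSpace ℝ (Fin N))) := fun i =>
    (measurePreserving_coord i).integrable_comp_of_integrable hi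
  rw [integral_finsetSum _ fun i _ => hgi i]
  simp [h1]

/-- The spherical entropy in a Gaussian field of strength `√(r N)`. -/
theorem hybrid_sphere (hN : 1 ≤ N) {r z ε : ℝ} (hr : 0 ≤ r) (hz : 1 ≤ z) (hε : 0 < ε) (hε1 : ε < 1)
    (hC : shellC / (ε ^ 2 * N) < 1) :
    hybrid (sphereMeasure N) f Subtype.val (Real.sqrt (r * N)) 0 ≤
      N * (r / (2 * ((1 - ε) * z)) + ((z - 1) * (1 + ε) - Real.log z) / 2) -
        Real.log (1 - shellC / (ε ^ 2 * N)) := by
  have := isProbabilityMeasure_sphereMeasure hN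
  set E := EuclideanSpace ℝ (Fin N)
  have hN0 : (0 : ℝ) < N := by exact_mod_cast hN
  have hw : 0 < (1 - ε) * z := mul_pos (by linarith) (by linarith)
  set ρ := Real.sqrt ((1 - ε) * z * N)
  set θ := Real.sqrt (r / ((1 - ε) * z))
  have hθρ : θ * ρ = Real.sqrt (r * N) := by
    rw [← Real.sqrt_mul (div_nonneg hr hw.le)]
    congr 1
    have h1 : (1 - ε) ≠ 0 := by linarith
    field_simp
  set lp := (N : ℝ) / 2 * (Real.log z - (z - 1) * (1 + ε)) + Real.log (1 - shellC / (ε ^ 2 * N))
  have hprob : Real.exp lp ≤ (stdGaussian E).real {g | ρ ≤ ‖g‖} := by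
    rw [Real.exp_add, Real.exp_log (by linarith)]
    refine (long_prob hN hz hε).trans (le_of_eq ?_)
    rw [← map_pi_eq_stdGaussian, map_measureReal_apply (by fun_prop)
      (measurableSet_le measurable_const measurable_norm)]
    congr 1
    ext x
    simp only [Set.mem_preimage, Set.mem_ofPred_eq, ρ]
    rw [Real.sqrt_le_left (norm_nonneg _), EuclideanSpace.real_norm_sq_eq]
  have hpt : ∀ h : E, Real.log (sphZ h (Real.sqrt (r * N))) ≤
      r / ((1 - ε) * z) * ‖h‖ ^ 2 / 2 - lp := fun h => by
    have h1 := sphZ_mul_prob_le hN h (θ := θ) (ρ := ρ) (Real.sqrt_nonneg _) (Real.sqrt_nonneg _)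
    rw [hθρ, Real.sq_sqrt (div_nonneg hr hw.le)] at h1
    have h2 := (mul_le_mul_of_nonneg_left hprob (sphZ_pos hN h _).le).trans h1
    rw [Real.log_le_iff_le_exp (sphZ_pos hN h _), Real.exp_sub, le_div_iff₀ (Real.exp_pos _)]
    exact h2
  have hi1 : Integrable (fun h => Real.log (sphZ h (Real.sqrt (r * N)))) (stdGaussian E) := by
    have h := integrable_avg (mult_fw (v := (Subtype.val : Sph N → E)) measurable_subtype_coe
      (fun x => mem_sphere_zero_iff_norm.1 x.2) (Real.sqrt (r * N)))
      (nice_logI (μ := sphereMeasure N)) Wt.one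
    simpa [logI, fw, sphZ] using h
  have hi2 : Integrable (fun h : E => r / ((1 - ε) * z) * ‖h‖ ^ 2 / 2 - lp) (stdGaussian E) :=
    (((integrable_norm_pow 2).const_mul _).div_const 2).sub (integrable_const lp)
  have h := integral_mono hi1 hi2 hpt
  rw [integral_sub (((integrable_norm_pow 2).const_mul _).div_const 2) (integrable_const lp),
    integral_div, integral_const_mul, integral_norm_sq_stdGaussian, integral_const, probReal_univ,
    one_smul] at h
  simp only [hybrid, avg, L, iter, logI, fw, one_mul]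
  refine h.trans (le_of_eq ?_)
  simp only [lp]
  field_simp
  ring

end Vale.Agent.P157
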