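import Vale.Agent.P157.SecondMoment
import Vale.Agent.P157.Entropy

/-!
The annealed value is exact up to the second-moment threshold.
-/

namespace Vale.Agent.P157

open MeasureTheory ProbabilityTheory Filter
open scoped RealInnerProductSpace Topology

lemma annealed_upper {X : Type} [MeasurableSpace X] {μ : Measure X} [IsProbabilityMeasure μ]
    {E : Type} [NormedAddCommGroup E] [InnerProductSpace ℝ E] [FiniteDimensional ℝ E]
    [MeasurableSpace E] [BorelSpace E] {f : ℝ → ℝ} {B : ℝ} {v : X → E} (hf : Pot f B)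
    (hv : Measurable v) (hv1 : ∀ x, ‖v x‖ = 1) :
    ∀ k w, Wt w → L μ f v k w ≤ logI μ w + k * Real.log (∫ z, Real.exp (f z) ∂gaussianReal 0 1) := by
  intro k
  induction k with
  | zero => intro w _; simp [L, iter]
  | succ k ih =>
    intro w hw
    set c0 := ∫ z, Real.exp (f z) ∂gaussianReal 0 1
    have hi : Integrable (fun z => Real.exp (f z)) (gaussianReal 0 1) :=
      Integrable.mono' (integrable_const (Real.exp B)) hf.meas.exp.aestronglyMeasurable
        (Filter.Eventually.of_forall fun x => by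
          rw [Real.norm_eq_abs, Real.abs_exp]; exact Real.exp_le_exp.2 (abs_le.1 (hf.bound x)).2)
    have hc : 0 < c0 := integral_exp_pos hi
    have hmp := mult_pw hf hv
    have := isProbabilityMeasure_gibbs (μ := μ) hw
    set ρ := gibbs μ w
    have hm : Measurable fun z : E × X => pw f v z.1 z.2 := measurable_pw hf hv
    have hb : ∀ z : E × X, ‖pw f v z.1 z.2‖ ≤ Real.exp B := fun z => by
      rw [pw, Real.norm_eq_abs, Real.abs_exp]; exact Real.exp_le_exp.2 (abs_le.1 (hf.bound _)).2
    have hpi : Integrable (fun z : E × X => pw f v z.1 z.2) ((stdGaussian E).prod ρ) :=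
      Integrable.mono' (integrable_const _) hm.aestronglyMeasurable (Filter.Eventually.of_forall hb)
    have hI : ∫ g, ∫ x, pw f v g x ∂ρ ∂stdGaussian E = c0 := by
      rw [integral_integral_swap hpi]
      have e : ∀ x, ∫ g, pw f v g x ∂stdGaussian E = c0 := fun x => by
        have hmm := measurePreserving_inner (hv1 x)
        simp only [pw, c0]
        rw [← hmm.map_eq, integral_map hmm.measurable.aemeasurable hf.meas.exp.aestronglyMeasurable]
      simp [e]
    have hF : Integrable (fun g => ∫ x, pw f v g x ∂ρ) (stdGaussian E) := hpi.integral_prod_left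
    have hlin : Integrable (fun g => (∫ x, pw f v g x ∂ρ) / c0 - 1 + Real.log c0) (stdGaussian E) :=
      ((hF.div_const c0).sub (integrable_const 1)).add (integrable_const _)
    have hlog : Integrable (fun g => Real.log (∫ x, pw f v g x ∂ρ)) (stdGaussian E) :=
      Integrable.mono' (integrable_const B)
        ((hm.stronglyMeasurable.integral_prod_right' (ν := ρ)).measurable.log).aestronglyMeasurable
        (Filter.Eventually.of_forall fun g => (Real.norm_eq_abs _).trans_le
          (abs_log_integral_exp_le (hf.meas.comp (measurable_const.inner hv)) fun x => hf.bound _))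
    have hjen : ∫ g, Real.log (∫ x, pw f v g x ∂ρ) ∂stdGaussian E ≤ Real.log c0 := by
      have hd : Integrable (fun g => (∫ x, pw f v g x ∂ρ) / c0 - 1) (stdGaussian E) :=
        (hF.div_const c0).sub (integrable_const 1)
      refine (integral_mono hlog hlin fun g => ?_).trans_eq ?_
      · have hp : 0 < ∫ x, pw f v g x ∂ρ := (hmp.wt g).integral_pos
        have := Real.log_le_sub_one_of_pos (div_pos hp hc)
        rw [Real.log_div hp.ne' hc.ne'] at this
        linarith
      · rw [integral_add hd (integrable_const _), integral_sub (hF.div_const c0) (integrable_const 1),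
          integral_div, hI, div_self hc.ne']
        simp
    have hLn : Nice (L μ f v k) 1 := nice_L hf hv k
    calc L μ f v (k + 1) w = avg (stdGaussian E) (pw f v) (L μ f v k) w := rfl
      _ ≤ avg (stdGaussian E) (pw f v) (fun w => logI μ w + k * Real.log c0) w :=
          integral_mono (integrable_avg hmp hLn hw)
            ((integrable_avg hmp nice_logI hw).add (integrable_const _))
            fun g => ih _ (hw.mul (hmp.wt g))
      _ ≤ logI μ w + (k + 1 : ℕ) * Real.log c0 := by
          rw [show avg (stdGaussian E) (pw f v) (fun w => logI μ w + k * Real.log c0) w =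
            avg (stdGaussian E) (pw f v) (logI μ) w + k * Real.log c0 by
              simp only [avg]
              rw [integral_add (integrable_avg hmp nice_logI hw) (integrable_const _)]
              simp, avg_logI hmp hw]
          push_cast
          linarith [hjen]

/-- A subgaussian overlap has a bounded exponential square moment. -/
lemma exp_sq_moment {κ lam : ℝ} (hκ : 0 < κ) (hl0 : 0 ≤ lam) (hl : lam < κ) :
    ∃ G, 0 < G ∧ ∀ {Ω : Type} [MeasurableSpace Ω] (P : Measure Ω) [IsProbabilityMeasure P]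
      (R : Ω → ℝ) (N : ℕ) (K : ℝ), Measurable R → (∀ ω, |R ω| ≤ 1) → 1 ≤ N → 0 ≤ K →
      (∀ t : ℝ, ∫ ω, Real.exp (t * R ω) ∂P ≤ K * Real.exp (t ^ 2 / (2 * κ * N))) →
      ∫ ω, Real.exp (lam * N * R ω ^ 2 / 2) ∂P ≤ K * G := by
  have hd : lam / κ < 1 := (div_lt_one hκ).2 hl
  have hint : Integrable (fun g : ℝ => Real.exp (lam / κ * g ^ 2 / 2)) (gaussianReal 0 1) := by
    rw [gaussianReal_of_var_ne_zero 0 one_ne_zero, integrable_withDensity_iff_integrable_smul'
      (measurable_gaussianPDF 0 1) (Filter.Eventually.of_forall fun x => ENNReal.ofReal_lt_top)]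
    refine ((integrable_exp_neg_mul_sq (b := (1 - lam / κ) / 2) (by linarith)).const_mul
      (Real.sqrt (2 * Real.pi))⁻¹).congr (Filter.Eventually.of_forall fun x => ?_)
    simp only [toReal_gaussianPDF, smul_eq_mul]
    simp only [gaussianPDFReal, NNReal.coe_one, mul_one, sub_zero, mul_assoc]
    rw [← Real.exp_add]
    congr 2
    ring
  refine ⟨∫ g, Real.exp (lam / κ * g ^ 2 / 2) ∂gaussianReal 0 1, integral_exp_pos hint, ?_⟩
  intro Ω _ P _ R N K hR hR1 hN hK hmgf
  have hN0 : (0 : ℝ) < N := by exact_mod_cast hN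
  set s := Real.sqrt (lam * N) with hs
  have hs2 : s ^ 2 = lam * N := Real.sq_sqrt (by positivity)
  have hm : Measurable (Function.uncurry fun (g : ℝ) (ω : Ω) => Real.exp (s * g * R ω)) :=
    ((measurable_fst.const_mul s).mul (hR.comp measurable_snd)).exp
  have hbi : Integrable (fun g : ℝ => Real.exp (s * g) + Real.exp (-s * g)) (gaussianReal 0 1) :=
    (integrable_exp_mul_gaussianReal s).add (integrable_exp_mul_gaussianReal (-s))
  have hii : Integrable (Function.uncurry fun (g : ℝ) (ω : Ω) => Real.exp (s * g * R ω))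
      ((gaussianReal 0 1).prod P) :=
    Integrable.mono' (hbi.comp_fst P) hm.aestronglyMeasurable (Filter.Eventually.of_forall fun z => by
      rw [Function.uncurry, Real.norm_eq_abs, Real.abs_exp]
      have h := abs_le.1 ((abs_mul (s * z.1) (R z.2)).trans_le
        (mul_le_of_le_one_right (abs_nonneg _) (hR1 z.2)))
      rcases le_or_gt 0 (s * z.1) with h0 | h0
      · rw [abs_of_nonneg h0] at h
        linarith [Real.exp_le_exp.2 h.2, Real.exp_pos (-s * z.1)]
      · rw [abs_of_neg h0] at h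
        rw [neg_mul]
        linarith [Real.exp_le_exp.2 h.2, Real.exp_pos (s * z.1)])
  have hlin : ∀ ω, Real.exp (lam * N * R ω ^ 2 / 2) =
      ∫ g, Real.exp (s * g * R ω) ∂gaussianReal 0 1 := fun ω => by
    have h : mgf id (gaussianReal 0 1) (s * R ω) = Real.exp (lam * N * R ω ^ 2 / 2) := by
      rw [mgf_id_gaussianReal, ← hs2]
      push_cast
      ring_nf
    rw [← h, mgf]
    exact integral_congr_ae (Filter.Eventually.of_forall fun g => by simp only [id]; ring_nf)
  simp only [hlin]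
  rw [← integral_integral_swap hii, ← integral_const_mul]
  refine integral_mono hii.integral_prod_left (hint.const_mul K) fun g => ?_
  refine (hmgf (s * g)).trans (le_of_eq ?_)
  rw [mul_pow, hs2]
  congr 2
  field_simp

/-- From a subgaussian overlap bound to the limit. -/
theorem tendsto_annealed {X : ℕ → Type} [∀ N, MeasurableSpace (X N)] (μ : ∀ N, Measure (X N))
    (v : ∀ N, X N → EuclideanSpace ℝ (Fin N)) {f : ℝ → ℝ} {B β α : ℝ} (hf : Pot f B) (hβ : 0 ≤ β)
    (hα : 0 < α) (hαβ : α * β ≤ 1)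
    (hprob : ∀ N, 1 ≤ N → IsProbabilityMeasure (μ N)) (hv : ∀ N, Measurable (v N))
    (hv1 : ∀ N, 1 ≤ N → ∀ x, ‖v N x‖ = 1)
    (hmgf : ∀ κ, 0 < κ → κ < 1 → ∃ K, 0 < K ∧ ∀ᶠ N : ℕ in atTop, ∀ x t,
      ∫ y, Real.exp (t * ⟪v N x, v N y⟫) ∂μ N ≤ K * Real.exp (t ^ 2 / (2 * κ * N)))
    (hcorr : ∀ q ∈ Set.Icc (-1 : ℝ) 1, Small.corr (fun x => Real.exp (f x)) q ≤
      (∫ z, Real.exp (f z) ∂gaussianReal 0 1) ^ 2 * Real.exp (β * q ^ 2 / 2)) :
    Tendsto (fun N : ℕ => L (μ N) f (v N) ⌊α * N⌋₊ (fun _ => 1) / N) atTop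
      (𝓝 (α * Real.log (∫ z, Real.exp (f z) ∂gaussianReal 0 1))) := by
  set l := Real.log (∫ z, Real.exp (f z) ∂gaussianReal 0 1)
  have hB := hf.nonneg
  have hfl : Tendsto (fun N : ℕ => (⌊α * N⌋₊ : ℝ) / N) atTop (𝓝 α) :=
    (tendsto_nat_floor_mul_div_atTop hα.le).comp (tendsto_natCast_atTop_atTop (R := ℝ))
  refine tendsto_order.2 ⟨fun y hy => ?_, fun y hy => ?_⟩
  · -- lower bound, just below the threshold
    obtain ⟨η, hη0, hη1, hη⟩ : ∃ η : ℝ, 0 < η ∧ η < 1 ∧
        y < α * (1 - η) * l - (1 + B) * (α * η) := by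
      have hc : Continuous fun η : ℝ => α * (1 - η) * l - (1 + B) * (α * η) := by fun_prop
      have h : ∀ᶠ η in 𝓝 (0 : ℝ), y < α * (1 - η) * l - (1 + B) * (α * η) :=
        continuousAt_const.eventually_lt hc.continuousAt (by simpa using hy)
      obtain ⟨η, ⟨h1, h2⟩, h3⟩ := ((h.filter_mono (nhdsWithin_le_nhds (s := Set.Ioi 0))).and
        ((nhdsWithin_le_nhds (s := Set.Ioi (0:ℝ))) (Iio_mem_nhds (zero_lt_one' ℝ)))).and
          eventually_mem_nhdsWithin |>.exists
      exact ⟨η, h3, h2, h1⟩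
    set α' := α * (1 - η) with hα'
    have hα'0 : 0 < α' := mul_pos hα (by linarith)
    set lam := max (α' * β) 0 with hlam
    have hlam1 : lam < 1 := max_lt (by rw [hα']; nlinarith) zero_lt_one
    set κ := (1 + lam) / 2 with hκ
    have hlam0 : 0 ≤ lam := le_max_right _ _
    obtain ⟨K, hK, hKN⟩ := hmgf κ (by linarith) (by linarith)
    obtain ⟨G, hG, hGb⟩ := exp_sq_moment (κ := κ) (lam := lam) (by linarith) hlam0 (by linarith)
    have hfl' : Tendsto (fun N : ℕ => (⌊α' * N⌋₊ : ℝ) / N) atTop (𝓝 α') :=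
      (tendsto_nat_floor_mul_div_atTop hα'0.le).comp (tendsto_natCast_atTop_atTop (R := ℝ))
    have hsq : Tendsto (fun N : ℕ => Real.sqrt (16 * B ^ 2 * (K * G) * α') / Real.sqrt N) atTop (𝓝 0) :=
      tendsto_const_nhds.div_atTop (Real.tendsto_sqrt_atTop.comp (tendsto_natCast_atTop_atTop (R := ℝ)))
    have hlow := ((hfl'.mul_const l).sub ((tendsto_const_div_atTop_nhds_zero_nat (Real.log 2)).add hsq)).sub
      ((hfl.sub hfl').const_mul (1 + B))
    rw [add_zero, sub_zero, show (1 + B) * (α - α') = (1 + B) * (α * η) by rw [hα']; ring] at hlow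
    filter_upwards [hlow.eventually (Ioi_mem_nhds hη), hKN, eventually_ge_atTop 1] with N hN1 hN2 hN
    refine lt_of_lt_of_le hN1 ?_
    have := hprob N hN
    have hN0 : (0 : ℝ) < N := by exact_mod_cast hN
    have hkl : (⌊α' * N⌋₊ : ℝ) ≤ α' * N := Nat.floor_le (by positivity)
    have hover : ∫ p : X N × X N, Real.exp (⌊α' * N⌋₊ * β * ⟪v N p.1, v N p.2⟫ ^ 2 / 2)
        ∂(μ N).prod (μ N) ≤ K * G := by
      have hR : Measurable fun p : X N × X N => ⟪v N p.1, v N p.2⟫ :=
        ((hv N).comp measurable_fst).inner ((hv N).comp measurable_snd)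
      have hR1 : ∀ p : X N × X N, |⟪v N p.1, v N p.2⟫| ≤ 1 := fun p => by
        have h := abs_real_inner_le_norm (v N p.1) (v N p.2)
        rwa [hv1 N hN, hv1 N hN, one_mul] at h
      have hbd : ∀ c : ℝ, Integrable (fun p : X N × X N => Real.exp (c * ⟪v N p.1, v N p.2⟫ ^ 2 / 2))
          ((μ N).prod (μ N)) := fun c => by
        refine Integrable.mono' (integrable_const (Real.exp (|c| / 2)))
          (((hR.pow_const 2).const_mul c).div_const 2).exp.aestronglyMeasurable
          (Filter.Eventually.of_forall fun p => ?_)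
        rw [Real.norm_eq_abs, Real.abs_exp, Real.exp_le_exp]
        have h := sq_le_one_iff_abs_le_one _ |>.2 (hR1 p)
        have h1 := mul_le_mul_of_nonneg_right (le_abs_self c) (sq_nonneg ⟪v N p.1, v N p.2⟫)
        nlinarith [abs_nonneg c]
      refine le_trans (integral_mono (hbd _) (hbd (lam * N)) fun p => ?_) ?_
      · refine Real.exp_le_exp.2 (div_le_div_of_nonneg_right ?_ two_pos.le)
        refine mul_le_mul_of_nonneg_right ?_ (sq_nonneg _)
        refine (mul_le_mul_of_nonneg_right hkl hβ).trans ?_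
        have := mul_le_mul_of_nonneg_right (le_max_left (α' * β) 0) hN0.le
        linarith
      · refine hGb _ _ N K hR hR1 hN hK.le fun t => ?_
        have hei : Integrable (fun p : X N × X N => Real.exp (t * ⟪v N p.1, v N p.2⟫))
            ((μ N).prod (μ N)) := by
          refine Integrable.mono' (integrable_const (Real.exp |t|))
            (hR.const_mul t).exp.aestronglyMeasurable (Filter.Eventually.of_forall fun p => ?_)
          rw [Real.norm_eq_abs, Real.abs_exp, Real.exp_le_exp]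
          refine (le_abs_self _).trans ?_
          rw [abs_mul]
          exact mul_le_of_le_one_right (abs_nonneg t) (hR1 p)
        rw [integral_prod _ hei]
        exact (integral_mono hei.integral_prod_left (integrable_const _) fun x => hN2 x t).trans_eq
          (by simp)
    have h1 := L_lower (μ := μ N) hf (hv N) (hv1 N hN) _ (mul_pos hK hG) hcorr hover
    have h2 := (abs_le.1 (L_lipschitz (μ := μ N) hf (hv N) Wt.one ⌊α * N⌋₊ ⌊α' * N⌋₊)).1
    have hmono : (⌊α' * N⌋₊ : ℝ) ≤ ⌊α * N⌋₊ := by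
      exact_mod_cast Nat.floor_mono (mul_le_mul_of_nonneg_right (by rw [hα']; nlinarith) hN0.le)
    rw [abs_of_nonneg (by linarith : (0 : ℝ) ≤ (⌊α * N⌋₊ : ℝ) - ⌊α' * N⌋₊)] at h2
    have h3 : Real.sqrt (16 * B ^ 2 * (K * G) * ⌊α' * N⌋₊) ≤
        Real.sqrt (16 * B ^ 2 * (K * G) * α') / Real.sqrt N * N := by
      rw [div_mul_eq_mul_div, mul_div_assoc, Real.div_sqrt, ← Real.sqrt_mul' _ hN0.le, mul_assoc _ α']
      exact Real.sqrt_le_sqrt (mul_le_mul_of_nonneg_left hkl (by positivity))
    rw [le_div_iff₀ hN0]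
    generalize Real.sqrt (16 * B ^ 2 * (K * G) * α') / Real.sqrt N = s at h3
    have e : ((⌊α' * N⌋₊ : ℝ) / N * l - (Real.log 2 / N + s) -
        (1 + B) * ((⌊α * N⌋₊ : ℝ) / N - (⌊α' * N⌋₊ : ℝ) / N)) * N =
        (⌊α' * N⌋₊ : ℝ) * l - (Real.log 2 + s * N) -
          (1 + B) * ((⌊α * N⌋₊ : ℝ) - ⌊α' * N⌋₊) := by field_simp
    rw [e]
    linarith
  · -- the annealed bound
    filter_upwards [(hfl.mul_const l).eventually (Iio_mem_nhds hy), eventually_ge_atTop 1] with N hN1 hN
    have := hprob N hN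
    refine lt_of_le_of_lt ?_ hN1
    have h := annealed_upper (μ := μ N) hf (hv N) (hv1 N hN) ⌊α * N⌋₊ _ Wt.one
    simp only [logI, integral_const, probReal_univ, one_smul, Real.log_one, zero_add] at h
    rw [div_mul_eq_mul_div]
    exact div_le_div_of_nonneg_right h (Nat.cast_nonneg N)

lemma mgf_cube {N : ℕ} (hN : 1 ≤ N) (σ : Fin N → Bool) (t : ℝ) :
    ∫ τ, Real.exp (t * ⟪cubeVec N σ, cubeVec N τ⟫) ∂cubeMeasure N ≤ Real.exp (t ^ 2 / (2 * N)) := by
  have hN0 : (0 : ℝ) < N := by exact_mod_cast hN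
  rw [integral_cube]
  simp only [inner_cubeVec, Finset.sum_div, Finset.mul_sum, Real.exp_sum]
  rw [← Finset.sum_div, ← Fintype.prod_sum (fun (i : Fin N) (b : Bool) =>
    Real.exp (t * (sgn (σ i) * sgn b / N)))]
  have e : ∀ i : Fin N, ∑ b, Real.exp (t * (sgn (σ i) * sgn b / N)) = 2 * Real.cosh (t / N) := fun i => by
    rw [Fintype.sum_bool, Real.cosh_eq]
    cases σ i <;> simp [sgn] <;> ring_nf
  rw [Finset.prod_congr rfl fun i _ => e i, Finset.prod_const, Finset.card_univ, Fintype.card_fin,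
    mul_pow, mul_div_cancel_left₀ _ (by positivity)]
  refine (pow_le_pow_left₀ (Real.cosh_pos _).le (Real.cosh_le_exp_half_sq _) N).trans (le_of_eq ?_)
  rw [← Real.exp_nat_mul]
  congr 1
  field_simp

lemma sphere_mgf {κ : ℝ} (hκ : 0 < κ) (hκ1 : κ < 1) :
    ∃ K, 0 < K ∧ ∀ᶠ N : ℕ in atTop, ∀ (u : Sph N) (t : ℝ),
      ∫ w : Sph N, Real.exp (t * ⟪(u : EuclideanSpace ℝ (Fin N)), (w : EuclideanSpace ℝ (Fin N))⟫)
        ∂sphereMeasure N ≤ K * Real.exp (t ^ 2 / (2 * κ * N)) := by
  refine ⟨2, two_pos, ?_⟩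
  have hev : ∀ᶠ N : ℕ in atTop, shellC / ((1 - κ) ^ 2 * N) ≤ 1 / 2 := by
    have h := tendsto_const_div_atTop_nhds_zero_nat (shellC / (1 - κ) ^ 2)
    filter_upwards [h.eventually (Iic_mem_nhds one_half_pos)] with N hN
    rw [← div_div]
    exact hN
  filter_upwards [hev, eventually_ge_atTop 1] with N hsh hN u t
  have hN0 : (0 : ℝ) < N := by exact_mod_cast hN
  set ρ := Real.sqrt (κ * N) with hρ
  have hρ0 : 0 < ρ := Real.sqrt_pos.2 (by positivity)
  have hsy : sphZ (u : EuclideanSpace ℝ (Fin N)) t = sphZ (u : EuclideanSpace ℝ (Fin N)) |t| :=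
    le_antisymm (sphZ_mono hN _ (by rw [abs_abs])) (sphZ_mono hN _ (by rw [abs_abs]))
  have h := sphZ_mul_prob_le hN (u : EuclideanSpace ℝ (Fin N)) (θ := |t| / ρ) (ρ := ρ)
    (by positivity) hρ0.le
  rw [mem_sphere_zero_iff_norm.1 u.2, div_mul_cancel₀ _ hρ0.ne', ← hsy, one_pow, mul_one, div_pow,
    sq_abs, hρ, Real.sq_sqrt (by positivity)] at h
  have hp : (1 : ℝ) / 2 ≤
      (stdGaussian (EuclideanSpace ℝ (Fin N))).real {g | Real.sqrt (κ * N) ≤ ‖g‖} := by
    have h1 := long_prob hN (z := 1) le_rfl (ε := 1 - κ) (by linarith)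
    simp only [Real.log_one, sub_self, zero_mul, mul_zero, Real.exp_zero, one_mul, mul_one,
      sub_sub_cancel] at h1
    refine le_trans (le_trans (by linarith) h1) (le_of_eq ?_)
    have hmap := map_pi_eq_stdGaussian (ι := Fin N)
    rw [← hmap, map_measureReal_apply (by fun_prop) (measurableSet_le measurable_const measurable_norm)]
    congr 1
    ext x
    simp only [Set.mem_preimage, Set.mem_setOf_eq]
    rw [Real.sqrt_le_left (norm_nonneg _), EuclideanSpace.real_norm_sq_eq]
  have hnn : 0 ≤ sphZ (u : EuclideanSpace ℝ (Fin N)) t := (sphZ_pos hN _ t).le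
  have h2 := mul_le_mul_of_nonneg_left hp hnn
  have e : t ^ 2 / (2 * κ * N) = t ^ 2 / (κ * N) / 2 := by rw [div_div]; ring_nf
  rw [show (∫ w : Sph N, Real.exp (t * ⟪(u : EuclideanSpace ℝ (Fin N)),
    (w : EuclideanSpace ℝ (Fin N))⟫) ∂sphereMeasure N) = sphZ (u : EuclideanSpace ℝ (Fin N)) t from rfl, e]
  linarith

/-- The annealed value is the limit up to the second-moment threshold, for every bounded Borel
potential. -/
theorem annealed_limit {f : ℝ → ℝ} {B β α : ℝ} (hf : Pot f B) (hβ : 0 ≤ β) (hα : 0 < α)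
    (hαβ : α * β ≤ 1)
    (hcorr : ∀ q ∈ Set.Icc (-1 : ℝ) 1, Small.corr (fun x => Real.exp (f x)) q ≤
      (∫ z, Real.exp (f z) ∂gaussianReal 0 1) ^ 2 * Real.exp (β * q ^ 2 / 2)) :
    Tendsto (fun N : ℕ => cubePressure f N ⌊α * N⌋₊) atTop
      (𝓝 (α * Real.log (∫ z, Real.exp (f z) ∂gaussianReal 0 1))) ∧
    Tendsto (fun N : ℕ => spherePressure f N ⌊α * N⌋₊) atTop
      (𝓝 (α * Real.log (∫ z, Real.exp (f z) ∂gaussianReal 0 1))) := by
  constructor
  · refine (tendsto_annealed (fun N => cubeMeasure N) cubeVec hf hβ hα hαβ (fun N _ => inferInstance)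
      (fun N => measurable_of_finite _) (fun N hN => norm_cubeVec hN) ?_ hcorr).congr'
      (Filter.Eventually.of_forall fun N => cubeF_eq hf N _)
    refine fun κ hκ hκ1 => ⟨1, one_pos, ?_⟩
    filter_upwards [eventually_ge_atTop 1] with N hN x t
    have hN0 : (0 : ℝ) < N := by exact_mod_cast hN
    refine (mgf_cube hN x t).trans ?_
    rw [one_mul]
    refine Real.exp_le_exp.2 (div_le_div_of_nonneg_left (sq_nonneg t) (by positivity) ?_)
    nlinarith
  · refine (tendsto_annealed (fun N => sphereMeasure N) (fun N => Subtype.val) hf hβ hα hαβ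
      (fun N hN => isProbabilityMeasure_sphereMeasure hN) (fun N => measurable_subtype_coe)
      (fun N _ x => mem_sphere_zero_iff_norm.1 x.2) (fun κ hκ hκ1 => sphere_mgf hκ hκ1) hcorr).congr' ?_
    filter_upwards [eventually_ge_atTop 1] with N hN using sphereF_eq hf hN _

end Vale.Agent.P157
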