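import Mathlib

/-!
Binomial averages, their Poisson limits, and the elementary inequalities needed for superadditivity
with a fixed or Poisson number of patterns.
-/

namespace Vale.Agent.P157

open Finset Filter
open scoped Topology Nat

/-- Average of `F` over a binomial variable with parameters `M` and `s`. -/
def binE : ℕ → ℝ → (ℕ → ℝ) → ℝ
  | 0, _, F => F 0
  | M + 1, s, F => s * binE M s (fun k => F (k + 1)) + (1 - s) * binE M s F

/-- Average of `F` over a Poisson variable with mean `lam`. -/
noncomputable def poiE (lam : ℝ) (F : ℕ → ℝ) : ℝ :=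
  ∑' k : ℕ, Real.exp (-lam) * lam ^ k / k ! * F k

variable {s t : ℝ}

lemma binE_add (M : ℕ) (F G : ℕ → ℝ) :
    binE M s (fun k => F k + G k) = binE M s F + binE M s G := by
  induction M generalizing F G with
  | zero => rfl
  | succ M ih =>
    simp only [binE, ih]
    ring

lemma binE_const_mul (M : ℕ) (c : ℝ) (F : ℕ → ℝ) :
    binE M s (fun k => c * F k) = c * binE M s F := by
  induction M generalizing F with
  | zero => rfl
  | succ M ih =>
    simp only [binE, ih]
    ring

lemma binE_sub (M : ℕ) (F G : ℕ → ℝ) :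
    binE M s (fun k => F k - G k) = binE M s F - binE M s G := by
  induction M generalizing F G with
  | zero => rfl
  | succ M ih =>
    simp only [binE, ih]
    ring

lemma binE_const (M : ℕ) (c : ℝ) : binE M s (fun _ => c) = c := by
  induction M with
  | zero => rfl
  | succ M ih => simp only [binE, ih]; ring

lemma binE_mono (h0 : 0 ≤ s) (h1 : s ≤ 1) (M : ℕ) {F G : ℕ → ℝ} (h : ∀ k, k ≤ M → F k ≤ G k) :
    binE M s F ≤ binE M s G := by
  induction M generalizing F G with
  | zero => exact h 0 le_rfl
  | succ M ih =>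
    simp only [binE]
    exact add_le_add
      (mul_le_mul_of_nonneg_left (ih fun k hk => h (k + 1) (by omega)) h0)
      (mul_le_mul_of_nonneg_left (ih fun k hk => h k (by omega)) (by linarith))

/-- Thinning a binomial variable. -/
lemma binE_thin (M : ℕ) (F : ℕ → ℝ) :
    binE M t (fun k => binE k s F) = binE M (t * s) F := by
  induction M generalizing F with
  | zero => rfl
  | succ M ih =>
    simp only [binE]
    rw [binE_add, binE_const_mul, binE_const_mul, ih, ih]
    ring

lemma binE_id (M : ℕ) : binE M s (fun k => (k : ℝ)) = M * s := by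
  induction M with
  | zero => simp [binE]
  | succ M ih =>
    simp only [binE, Nat.cast_add, Nat.cast_one]
    rw [binE_add, binE_const, ih]
    ring

lemma binE_sq (M : ℕ) : ∀ a : ℝ,
    binE M s (fun k => ((k : ℝ) - a) ^ 2) = ((M : ℝ) * s - a) ^ 2 + M * (s * (1 - s)) := by
  induction M with
  | zero => intro a; simp [binE]
  | succ M ih =>
    intro a
    simp only [binE, Nat.cast_add, Nat.cast_one]
    have e : (fun k : ℕ => ((k : ℝ) + 1 - a) ^ 2) = fun k : ℕ => ((k : ℝ) - (a - 1)) ^ 2 := by
      funext k; ring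
    rw [e, ih, ih]
    ring

/-- Deviation of a binomial variable from a point. -/
lemma binE_abs_le (h0 : 0 ≤ s) (h1 : s ≤ 1) (M : ℕ) (a : ℝ) {c : ℝ} (hc : 0 < c) :
    binE M s (fun k => |(k : ℝ) - a|) ≤
      (((M : ℝ) * s - a) ^ 2 + M * s) / (2 * c) + c / 2 := by
  have h := binE_mono (F := fun k => |(k : ℝ) - a|)
    (G := fun k => (1 / (2 * c)) * ((k : ℝ) - a) ^ 2 + c / 2) h0 h1 M fun k _ => by
      have : 0 ≤ (|(k : ℝ) - a| - c) ^ 2 := sq_nonneg _
      rw [← sq_abs ((k : ℝ) - a)]
      field_simp
      nlinarith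
  rw [binE_add, binE_const_mul, binE_const, binE_sq] at h
  refine h.trans (add_le_add ?_ le_rfl)
  rw [one_div_mul_eq_div]
  refine div_le_div_of_nonneg_right ?_ (by linarith)
  nlinarith [mul_nonneg (mul_nonneg (Nat.cast_nonneg (α := ℝ) M) h0) h0]

lemma binE_eq_sum (M : ℕ) (F : ℕ → ℝ) :
    binE M s F = ∑ k ∈ Finset.range (M + 1), (M.choose k : ℝ) * s ^ k * (1 - s) ^ (M - k) * F k := by
  induction M generalizing F with
  | zero => simp [binE]
  | succ M ih =>
    simp only [binE, ih, Finset.mul_sum]
    rw [Finset.sum_range_succ' (fun k => ((M + 1).choose k : ℝ) * s ^ k * (1 - s) ^ (M + 1 - k) * F k)]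
    have e2 : ∑ k ∈ Finset.range (M + 1), (1 - s) * ((M.choose k : ℝ) * s ^ k * (1 - s) ^ (M - k) * F k) =
        ∑ k ∈ Finset.range (M + 1),
            (M.choose (k + 1) : ℝ) * s ^ (k + 1) * (1 - s) ^ (M - k) * F (k + 1) +
          (1 - s) ^ (M + 1) * F 0 := by
      have h : ∑ k ∈ Finset.range (M + 2),
          (M.choose k : ℝ) * s ^ k * (1 - s) ^ (M + 1 - k) * F k =
          ∑ k ∈ Finset.range (M + 1), (1 - s) * ((M.choose k : ℝ) * s ^ k * (1 - s) ^ (M - k) * F k) := by
        rw [Finset.sum_range_succ, Nat.choose_succ_self]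
        simp only [Nat.cast_zero, zero_mul, add_zero]
        refine Finset.sum_congr rfl fun k hk => ?_
        rw [Finset.mem_range] at hk
        rw [show M + 1 - k = M - k + 1 by omega, pow_succ]
        ring
      rw [← h, Finset.sum_range_succ']
      simp
    rw [e2, ← add_assoc, ← Finset.sum_add_distrib]
    simp only [Nat.choose_zero_right, Nat.cast_one, pow_zero, one_mul, Nat.sub_zero]
    congr 1
    refine Finset.sum_congr rfl fun k _ => ?_
    rw [Nat.choose_succ_succ, Nat.cast_add, Nat.add_sub_add_right, pow_succ]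
    ring

/-- Weights of the Poisson average are summable against functions of linear growth. -/
lemma summable_poi {lam C : ℝ} (hl : 0 ≤ lam) {F : ℕ → ℝ} (hF : ∀ k, |F k| ≤ C * ((k : ℝ) + 1)) :
    Summable fun k : ℕ => lam ^ k / k ! * F k := by
  have hC : 0 ≤ C := by
    have := (abs_nonneg _).trans (hF 0)
    simpa using this
  refine Summable.of_norm_bounded (g := fun k : ℕ => C * ((2 * lam) ^ k / k !))
    ((Real.summable_pow_div_factorial _).mul_left C) fun k => ?_
  rw [Real.norm_eq_abs, abs_mul, abs_of_nonneg (by positivity : (0:ℝ) ≤ lam ^ k / k !)]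
  refine (mul_le_mul_of_nonneg_left (hF k) (by positivity)).trans ?_
  have h2 : (k : ℝ) + 1 ≤ 2 ^ k := by
    exact_mod_cast Nat.lt_two_pow_self
  rw [mul_pow]
  calc lam ^ k / k ! * (C * ((k : ℝ) + 1)) ≤ lam ^ k / k ! * (C * 2 ^ k) :=
        mul_le_mul_of_nonneg_left (mul_le_mul_of_nonneg_left h2 hC) (by positivity)
    _ = C * (2 ^ k * lam ^ k / k !) := by ring

/-- The Poisson limit of binomial averages. -/
theorem tendsto_binE {ι : Type*} {l : Filter ι} {M : ι → ℕ} {p : ι → ℝ} {lam C : ℝ}
    {F : ℕ → ℝ} (hM : Tendsto M l atTop) (hp : ∀ᶠ i in l, 0 ≤ p i ∧ p i ≤ 1)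
    (hlim : Tendsto (fun i => (M i : ℝ) * p i) l (𝓝 lam)) (hl : 0 ≤ lam)
    (hF : ∀ k, |F k| ≤ C * ((k : ℝ) + 1)) [l.IsCountablyGenerated] :
    Tendsto (fun i => binE (M i) (p i) F) l (𝓝 (poiE lam F)) := by
  have hsum : ∀ i, binE (M i) (p i) F =
      ∑' k : ℕ, ((M i).choose k : ℝ) * p i ^ k * (1 - p i) ^ (M i - k) * F k := fun i => by
    rw [binE_eq_sum, tsum_eq_sum]
    intro k hk
    rw [Finset.mem_range, not_lt] at hk
    rw [Nat.choose_eq_zero_of_lt (by omega)]
    simp
  simp only [hsum, poiE]
  have hMr : Tendsto (fun i => (M i : ℝ)) l atTop := tendsto_natCast_atTop_atTop.comp hM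
  have hp0 : Tendsto p l (𝓝 0) := by
    have : Tendsto (fun i => ((M i : ℝ) * p i) * (M i : ℝ)⁻¹) l (𝓝 (lam * 0)) :=
      hlim.mul (tendsto_inv_atTop_zero.comp hMr)
    rw [mul_zero] at this
    refine this.congr' ?_
    filter_upwards [hM.eventually_ge_atTop 1] with i hi
    have : (M i : ℝ) ≠ 0 := by exact_mod_cast (by omega : M i ≠ 0)
    field_simp
  refine tendsto_tsum_of_dominated_convergence
    (bound := fun k : ℕ => (lam + 1) ^ k / k ! * (|C| * ((k : ℝ) + 1))) ?_ (fun k => ?_) ?_
  · exact summable_poi (C := |C|) (by linarith) fun k => by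
      rw [abs_of_nonneg (by positivity : (0:ℝ) ≤ |C| * ((k : ℝ) + 1))]
  · refine Tendsto.mul_const _ ?_
    rw [mul_div_assoc, mul_comm (Real.exp (-lam))]
    refine Tendsto.mul ?_ ?_
    · have hc : Tendsto (fun n : ℕ => (n.choose k : ℝ) / ((n : ℝ) ^ k / k !)) atTop (𝓝 1) := by
        refine (Asymptotics.isEquivalent_iff_tendsto_one ?_).1 (isEquivalent_choose k)
        filter_upwards [eventually_ge_atTop 1] with n hn
        have : (0 : ℝ) < n := by exact_mod_cast hn
        positivity
      have := ((hlim.pow k).div_const (k ! : ℝ)).mul (hc.comp hM)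
      rw [mul_one] at this
      refine this.congr' ?_
      filter_upwards [hM.eventually_ge_atTop 1] with i hi
      have : (0 : ℝ) < (M i : ℝ) := by exact_mod_cast hi
      have : (0 : ℝ) < (M i : ℝ) ^ k := by positivity
      simp only [Function.comp]
      rw [mul_pow]
      field_simp
    · have hone : Tendsto (fun i => 1 - p i) l (𝓝 1) := by simpa using hp0.const_sub 1
      have hlog : Tendsto (fun i => (M i : ℝ) * Real.log (1 - p i)) l (𝓝 (-lam)) := by
        refine tendsto_of_tendsto_of_tendsto_of_le_of_le'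
          (g := fun i => -((M i : ℝ) * p i / (1 - p i))) (h := fun i => -((M i : ℝ) * p i)) ?_
          hlim.neg ?_ ?_
        · simpa using (hlim.div hone one_ne_zero).neg
        · filter_upwards [hp, hp0.eventually (Iio_mem_nhds (show (0:ℝ) < 1 by norm_num))] with i hi hi1
          have h1 : 0 < 1 - p i := by linarith
          have := Real.one_sub_inv_le_log_of_pos h1
          refine le_trans (le_of_eq ?_) (mul_le_mul_of_nonneg_left this (Nat.cast_nonneg _))
          field_simp
          ring
        · filter_upwards [hp, hp0.eventually (Iio_mem_nhds (show (0:ℝ) < 1 by norm_num))] with i hi hi1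
          have h1 : 0 < 1 - p i := by linarith
          nlinarith [Real.log_le_sub_one_of_pos h1, Nat.cast_nonneg (α := ℝ) (M i)]
      have h2 := ((Real.continuous_exp.tendsto _).comp hlog).mul
        ((hone.pow k).inv₀ (by norm_num))
      rw [one_pow, inv_one, mul_one] at h2
      refine h2.congr' ?_
      filter_upwards [hM.eventually_ge_atTop k,
        hp0.eventually (Iio_mem_nhds (show (0:ℝ) < 1 by norm_num))] with i hi hi1
      have h1 : 0 < 1 - p i := by linarith
      simp only [Function.comp]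
      rw [pow_sub₀ _ h1.ne' hi, ← Real.log_pow, Real.exp_log (pow_pos h1 _)]
  · filter_upwards [hp, hlim.eventually (Iio_mem_nhds (show lam < lam + 1 by linarith))]
      with i hi hlt k
    rw [Real.norm_eq_abs, abs_mul, abs_mul, abs_mul]
    rw [abs_of_nonneg (Nat.cast_nonneg _), abs_of_nonneg (pow_nonneg hi.1 k),
      abs_of_nonneg (pow_nonneg (by linarith [hi.2] : (0:ℝ) ≤ 1 - p i) _)]
    refine mul_le_mul ?_ ((hF k).trans (mul_le_mul_of_nonneg_right (le_abs_self C) (by positivity)))
      (abs_nonneg _) (by have : (0:ℝ) ≤ lam + 1 := by linarith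
                         positivity)
    refine (mul_le_of_le_one_right (mul_nonneg (Nat.cast_nonneg _) (pow_nonneg hi.1 k))
      (pow_le_one₀ (by linarith [hi.2]) (by linarith [hi.1]))).trans ?_
    refine (mul_le_mul_of_nonneg_right (Nat.choose_le_pow_div k (M i)) (pow_nonneg hi.1 k)).trans ?_
    rw [div_mul_eq_mul_div, ← mul_pow]
    exact div_le_div_of_nonneg_right
      (pow_le_pow_left₀ (mul_nonneg (Nat.cast_nonneg _) hi.1) hlt.le k) (by positivity)

/-- Binomial averages with `M` trials and mean `lam` converge to the Poisson average. -/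
lemma tendsto_binE_div {lam C : ℝ} {F : ℕ → ℝ} (hl : 0 ≤ lam)
    (hF : ∀ k, |F k| ≤ C * ((k : ℝ) + 1)) :
    Tendsto (fun M : ℕ => binE M (lam / M) F) atTop (𝓝 (poiE lam F)) := by
  refine tendsto_binE (M := fun M => M) tendsto_id ?_ ?_ hl hF
  · filter_upwards [eventually_ge_atTop (⌈lam⌉₊ + 1)] with M hM
    have : lam ≤ M := (Nat.le_ceil lam).trans (by exact_mod_cast (by omega : ⌈lam⌉₊ ≤ M))
    have hM0 : (0 : ℝ) < M := by exact_mod_cast (by omega : 0 < M)
    exact ⟨div_nonneg hl hM0.le, (div_le_one hM0).2 this⟩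
  · refine tendsto_const_nhds.congr' ?_
    filter_upwards [eventually_ge_atTop 1] with M hM
    have : (M : ℝ) ≠ 0 := by exact_mod_cast (by omega : M ≠ 0)
    field_simp

end Vale.Agent.P157
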