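import Vale.Agent.P157.Main

/-!
The annealed formula fails beyond the line `α b² = 1`: second-order expansion of Gardner's free
energies at small overlap.
-/

namespace Vale.Agent.P157

open MeasureTheory ProbabilityTheory Filter Real
open scoped Topology

/-! ### Elementary inequalities -/

private lemma nonneg_of_deriv_nonneg {f f' : ℝ → ℝ} (h0 : 0 ≤ f 0)
    (hd : ∀ x, 0 ≤ x → HasDerivAt f (f' x) x) (hf : ∀ x, 0 ≤ x → 0 ≤ f' x) {x : ℝ} (hx : 0 ≤ x) :
    0 ≤ f x := by
  have h := monotoneOn_of_hasDerivWithinAt_nonneg (f := f) (f' := f') (convex_Ici (0 : ℝ))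
    (fun y hy => (hd y hy).continuousAt.continuousWithinAt)
    (fun y hy => (hd y (interior_subset hy)).hasDerivWithinAt)
    (fun y hy => hf y (interior_subset hy))
  exact h0.trans (h Set.self_mem_Ici hx hx)

private lemma abs_cos_taylor (x : ℝ) : |cos x - 1 + x ^ 2 / 2| ≤ x ^ 4 / 24 := by
  wlog hx : 0 ≤ x generalizing x
  · have h := this (-x) (by linarith)
    simpa [Even.neg_pow (show Even 4 by decide)] using h
  have h := nonneg_of_deriv_nonneg (f := fun y => 1 - y ^ 2 / 2 + y ^ 4 / 24 - cos y)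
    (f' := fun y => -y + y ^ 3 / 6 + sin y) (by simp)
    (fun y _ => by
      have := ((((hasDerivAt_pow 2 y).div_const 2).const_sub 1).add
        ((hasDerivAt_pow 4 y).div_const 24)).sub (hasDerivAt_cos y)
      refine this.congr_deriv ?_
      simp
      ring)
    (fun y hy => by linarith [sin_ge_sub_cube hy]) hx
  have h2 := one_sub_sq_div_two_le_cos (x := x)
  rw [abs_le]
  constructor <;> nlinarith [pow_nonneg hx 4]

private lemma log_one_sub_le {u : ℝ} (hu : u < 1) :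
    log (1 - u) ≤ -u - u ^ 2 / 2 + |u| ^ 3 / 3 := by
  rcases le_total 0 u with h | h
  · have hs := hasSum_pow_div_log_of_abs_lt_one (by rwa [abs_of_nonneg h] : |u| < 1)
    have := sum_le_hasSum (Finset.range 2) (fun i _ => by positivity) hs
    simp [Finset.sum_range_succ] at this
    have : 0 ≤ |u| ^ 3 / 3 := by positivity
    norm_num at *
    linarith
  · have h' := nonneg_of_deriv_nonneg (f := fun v => v - v ^ 2 / 2 + v ^ 3 / 3 - log (1 + v))
      (f' := fun v => v ^ 3 / (1 + v)) (by simp)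
      (fun v hv => by
        have h1 : (1 + v) ≠ 0 := by linarith
        have := (((hasDerivAt_id v).sub ((hasDerivAt_pow 2 v).div_const 2)).add
          ((hasDerivAt_pow 3 v).div_const 3)).sub (((hasDerivAt_id v).const_add 1).log h1)
        refine this.congr_deriv ?_
        simp only [id]
        push_cast
        field_simp
        ring)
      (fun v hv => by positivity) (x := -u) (by linarith)
    rw [abs_of_nonpos h, sub_eq_add_neg 1 u]
    nlinarith [h']

private lemma hasDerivAt_tanh' (x : ℝ) : HasDerivAt tanh (1 - tanh x ^ 2) x := by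
  have h : tanh = fun y => sinh y / cosh y := funext fun y => tanh_eq_sinh_div_cosh y
  rw [h]
  have hc := (cosh_pos x).ne'
  refine ((hasDerivAt_sinh x).div (hasDerivAt_cosh x) hc).congr_deriv ?_
  field_simp

private lemma log_cosh_le (x : ℝ) : log (cosh x) ≤ x ^ 2 / 2 - x ^ 4 / 12 + x ^ 6 / 45 := by
  wlog hx : 0 ≤ x generalizing x
  · have h := this (-x) (by linarith)
    simpa [Even.neg_pow (show Even 4 by decide), Even.neg_pow (show Even 6 by decide)] using h
  have t0 : ∀ y : ℝ, 0 ≤ y → 0 ≤ tanh y := fun y hy => by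
    rw [tanh_eq_sinh_div_cosh]
    exact div_nonneg (sinh_nonneg_iff.2 hy) (cosh_pos y).le
  have t1 : ∀ y : ℝ, 0 ≤ y → tanh y ≤ y := fun y hy => by
    have := nonneg_of_deriv_nonneg (f := fun z => z - tanh z) (f' := fun z => tanh z ^ 2) (by simp)
      (fun z _ => ((hasDerivAt_id z).sub (hasDerivAt_tanh' z)).congr_deriv (by ring))
      (fun z _ => sq_nonneg _) hy
    linarith
  have t2 : ∀ y : ℝ, 0 ≤ y → y - y ^ 3 / 3 ≤ tanh y := fun y hy => by
    have := nonneg_of_deriv_nonneg (f := fun z => tanh z - (z - z ^ 3 / 3))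
      (f' := fun z => z ^ 2 - tanh z ^ 2) (by simp)
      (fun z _ => ((hasDerivAt_tanh' z).sub ((hasDerivAt_id z).sub
        ((hasDerivAt_pow 3 z).div_const 3))).congr_deriv (by simp))
      (fun z hz => by nlinarith [t0 z hz, t1 z hz]) hy
    linarith
  have t3 : ∀ y : ℝ, 0 ≤ y → tanh y ≤ y - y ^ 3 / 3 + 2 * y ^ 5 / 15 := fun y hy => by
    have := nonneg_of_deriv_nonneg (f := fun z => z - z ^ 3 / 3 + 2 * z ^ 5 / 15 - tanh z)
      (f' := fun z => tanh z ^ 2 - z ^ 2 + 2 * z ^ 4 / 3) (by simp)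
      (fun z _ => ((((hasDerivAt_id z).sub ((hasDerivAt_pow 3 z).div_const 3)).add
        (((hasDerivAt_pow 5 z).const_mul 2).div_const 15)).sub
          (hasDerivAt_tanh' z)).congr_deriv (by simp; ring))
      (fun z hz => by
        rcases le_total 0 (z - z ^ 3 / 3) with h | h
        · nlinarith [pow_le_pow_left₀ h (t2 z hz) 2, sq_nonneg (z ^ 3)]
        · rcases eq_or_lt_of_le hz with rfl | hz'
          · simp
          · have : 3 ≤ z ^ 2 := by nlinarith
            nlinarith [sq_nonneg (tanh z), sq_nonneg z]) hy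
    linarith
  have := nonneg_of_deriv_nonneg
    (f := fun z => z ^ 2 / 2 - z ^ 4 / 12 + z ^ 6 / 45 - log (cosh z))
    (f' := fun z => z - z ^ 3 / 3 + 2 * z ^ 5 / 15 - tanh z) (by simp)
    (fun z _ => (((((hasDerivAt_pow 2 z).div_const 2).sub ((hasDerivAt_pow 4 z).div_const 12)).add
      ((hasDerivAt_pow 6 z).div_const 45)).sub
        ((hasDerivAt_cosh z).log (cosh_pos z).ne')).congr_deriv
          (by rw [tanh_eq_sinh_div_cosh]; simp; ring))
    (fun z hz => by linarith [t3 z hz]) hx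
  linarith

/-! ### Gaussian moments -/

private lemma int_pow (k : ℕ) : Integrable (fun y : ℝ => y ^ k) (gaussianReal 0 1) := by
  refine (IsGaussian.memLp_id (gaussianReal 0 1) k (by simp)).integrable_norm_pow'.mono'
    (by fun_prop) (Filter.Eventually.of_forall fun y => ?_)
  simp

private lemma int_wt (k : ℕ) : Integrable (fun y : ℝ => (1 + y ^ 2) ^ k) (gaussianReal 0 1) := by
  simp only [add_pow, one_pow, one_mul, ← pow_mul]
  exact integrable_finsetSum _ fun i _ => (int_pow _).mul_const _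

private lemma int_of_wt {g : ℝ → ℝ} (hg : Continuous g) (C : ℝ) (k : ℕ)
    (h : ∀ y, |g y| ≤ C * (1 + y ^ 2) ^ k) : Integrable g (gaussianReal 0 1) :=
  ((int_wt k).const_mul C).mono' hg.aestronglyMeasurable (Filter.Eventually.of_forall h)

/-- Gaussian integration by parts. -/
private lemma stein {F F' : ℝ → ℝ} (hd : ∀ x, HasDerivAt F (F' x) x)
    (h0 : Integrable F (gaussianReal 0 1)) (h1 : Integrable F' (gaussianReal 0 1))
    (h2 : Integrable (fun y => F y * y) (gaussianReal 0 1)) :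
    ∫ y, F y * y ∂gaussianReal 0 1 = ∫ y, F' y ∂gaussianReal 0 1 := by
  set p := gaussianPDFReal 0 1 with hp
  have tr : ∀ g : ℝ → ℝ, Integrable g (gaussianReal 0 1) → Integrable (fun y => g y * p y) := by
    intro g hg
    rw [gaussianReal_of_var_ne_zero 0 one_ne_zero, integrable_withDensity_iff (measurable_gaussianPDF 0 1)
      (Filter.Eventually.of_forall fun _ => gaussianPDF_lt_top)] at hg
    simpa [toReal_gaussianPDF] using hg
  have hpd : ∀ x, HasDerivAt p (-(x * p x)) x := fun x => by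
    have h := ((((hasDerivAt_pow 2 x).neg).div_const 2).exp).const_mul (√(2 * π))⁻¹
    simp only [hp, gaussianPDFReal_def, sub_zero, NNReal.coe_one, mul_one]
    refine h.congr_deriv ?_
    simp
    ring
  have h := integral_mul_deriv_eq_deriv_mul_of_integrable (u := F) (v := p) (u' := F')
    (v' := fun x => -(x * p x)) (fun x _ => hd x) (fun x _ => hpd x)
    ((tr _ h2).neg.congr (Filter.Eventually.of_forall fun x => by simp; ring))
    (tr _ h1) (tr _ h0)
  have e : ∀ g : ℝ → ℝ, ∫ y, g y ∂gaussianReal 0 1 = ∫ y, g y * p y := fun g => by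
    rw [integral_gaussianReal_eq_integral_smul one_ne_zero]
    exact integral_congr_ae (Filter.Eventually.of_forall fun y => by simp [hp, mul_comm])
  rw [e, e, ← neg_inj, ← integral_neg, ← h]
  exact integral_congr_ae (Filter.Eventually.of_forall fun y => by ring)

private lemma moment_two : ∫ y, y ^ 2 ∂gaussianReal 0 1 = 1 := by
  have h := stein (F := fun y => y) (F' := fun _ => 1) hasDerivAt_id (by simpa using int_pow 1)
    (integrable_const _) (by simpa [sq] using int_pow 2)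
  simp only [← sq] at h
  rw [h]
  simp

private lemma moment_four : ∫ y, y ^ 4 ∂gaussianReal 0 1 = 3 := by
  have h := stein (F := fun y => y ^ 3) (F' := fun y => 3 * y ^ 2)
    (fun x => by simpa using hasDerivAt_pow 3 x) (int_pow 3) ((int_pow 2).const_mul 3)
    (by simpa [← pow_succ] using int_pow 4)
  simp only [← pow_succ] at h
  rw [h, integral_const_mul, moment_two]
  norm_num

private lemma integral_cos_gaussian (s : ℝ) :
    ∫ z, cos (s * z) ∂gaussianReal 0 1 = exp (-s ^ 2 / 2) := by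
  have hi : Integrable (fun z => Complex.exp ((s * z : ℝ) * Complex.I)) (gaussianReal 0 1) :=
    Integrable.mono' (integrable_const (1 : ℝ)) (Continuous.aestronglyMeasurable (by fun_prop))
      (Filter.Eventually.of_forall fun z => by simp [Complex.norm_exp])
  have h := congrArg Complex.re (integral_cexp_gaussian s)
  have hre := (Complex.reCLM.integral_comp_comm hi)
  simp only [Complex.reCLM_apply, Complex.exp_ofReal_mul_I_re] at hre
  rw [hre, h, show -(s : ℂ) ^ 2 / 2 = ((-s ^ 2 / 2 : ℝ) : ℂ) by push_cast; ring,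
    Complex.exp_ofReal_re]

lemma integral_sq_sub_one_cos (s : ℝ) :
    ∫ z, (z ^ 2 - 1) * cos (s * z) ∂gaussianReal 0 1 = -(s ^ 2 * exp (-s ^ 2 / 2)) := by
  have hc : Integrable (fun z => cos (s * z)) (gaussianReal 0 1) :=
    int_of_wt (by fun_prop) 1 0 fun z => by simpa using abs_cos_le_one _
  have hzc : Integrable (fun z => z * cos (s * z)) (gaussianReal 0 1) :=
    int_of_wt (by fun_prop) 1 1 fun z => by
      rw [abs_mul]
      nlinarith [abs_cos_le_one (s * z), abs_nonneg z, abs_nonneg (cos (s * z)), sq_abs z]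
  have hzs : Integrable (fun z => sin (s * z) * z) (gaussianReal 0 1) :=
    int_of_wt (by fun_prop) 1 1 fun z => by
      rw [abs_mul]
      nlinarith [abs_sin_le_one (s * z), abs_nonneg z, abs_nonneg (sin (s * z)), sq_abs z]
  have hzzc : Integrable (fun z => z * cos (s * z) * z) (gaussianReal 0 1) :=
    int_of_wt (by fun_prop) 1 1 fun z => by
      rw [abs_mul, abs_mul]
      nlinarith [abs_cos_le_one (s * z), abs_nonneg (cos (s * z)), sq_abs z,
        mul_nonneg (abs_nonneg z) (abs_nonneg z)]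
  have h1 := stein (F := fun z => z * cos (s * z)) (F' := fun z => cos (s * z) - s * (sin (s * z) * z))
    (fun x => ((hasDerivAt_id x).mul ((hasDerivAt_id x).const_mul s).cos).congr_deriv
      (by simp; ring)) hzc (hc.sub (hzs.const_mul s)) hzzc
  have h2 := stein (F := fun z => sin (s * z)) (F' := fun z => s * cos (s * z))
    (fun x => (((hasDerivAt_id x).const_mul s).sin).congr_deriv (by simp; ring))
    (int_of_wt (by fun_prop) 1 0 fun z => by simpa using abs_sin_le_one _) (hc.const_mul s) hzs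
  rw [integral_sub hc (hzs.const_mul s), integral_const_mul, h2, integral_const_mul] at h1
  rw [show (fun z : ℝ => (z ^ 2 - 1) * cos (s * z)) =
      fun z => z * cos (s * z) * z - cos (s * z) from funext fun z => by ring,
    integral_sub hzzc hc, h1, integral_cos_gaussian]
  ring

/-! ### The expansion -/

/-- `∫ exp(-t²/2) dν`. -/
private noncomputable def mZero (ν : Measure ℝ) : ℝ := ∫ t, exp (-t ^ 2 / 2) ∂ν

/-- `∫ t² exp(-t²/2) dν`. -/
private noncomputable def mTwo (ν : Measure ℝ) : ℝ := ∫ t, t ^ 2 * exp (-t ^ 2 / 2) ∂ν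

private lemma sq_mul_exp_le (t : ℝ) : t ^ 2 * exp (-t ^ 2 / 2) ≤ 2 := by
  have h := add_one_le_exp (t ^ 2 / 2)
  have e : exp (t ^ 2 / 2) * exp (-t ^ 2 / 2) = 1 := by rw [← exp_add]; ring_nf; simp
  nlinarith [exp_pos (-t ^ 2 / 2)]

private lemma pow_four_mul_exp_le (t : ℝ) : t ^ 4 * exp (-t ^ 2 / 4) ≤ 64 := by
  have h := add_one_le_exp (t ^ 2 / 8)
  have e : exp (t ^ 2 / 8) ^ 2 * exp (-t ^ 2 / 4) = 1 := by
    rw [sq, ← exp_add, ← exp_add]; ring_nf; simp
  have h2 : (t ^ 2 / 8) ^ 2 ≤ exp (t ^ 2 / 8) ^ 2 :=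
    pow_le_pow_left₀ (by positivity) (by linarith) 2
  nlinarith [exp_pos (-t ^ 2 / 4)]

private lemma exp_taylor {p : ℝ} (hp : 0 ≤ p) :
    0 ≤ exp p - 1 - p ∧ exp p - 1 ≤ p * exp p ∧ exp p - 1 - p ≤ p ^ 2 * exp p := by
  have h1 := add_one_le_exp p
  have h2 := add_one_le_exp (-p)
  have e : exp (-p) * exp p = 1 := by rw [← exp_add]; simp
  have h3 : exp p - 1 ≤ p * exp p := by nlinarith [exp_pos p]
  refine ⟨by linarith, h3, ?_⟩
  nlinarith [mul_le_mul_of_nonneg_left h3 hp]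

variable {q : ℝ}

private lemma damp_split (q t : ℝ) : damp q t = exp (-t ^ 2 / 2) * exp (q * t ^ 2 / 2) := by
  rw [damp, ← exp_add]; ring_nf

private lemma exp_split_le (hq : q ≤ 1 / 2) (t : ℝ) :
    exp (-t ^ 2 / 2) * exp (q * t ^ 2 / 2) ≤ exp (-t ^ 2 / 4) := by
  rw [← exp_add, exp_le_exp]
  nlinarith [sq_nonneg t]

private lemma cos_term_bound (hq0 : 0 ≤ q) (hq : q ≤ 1 / 2) (t y : ℝ) :
    |cos (t * (√q * y)) * damp q t - (exp (-t ^ 2 / 2) -
        q / 2 * (y ^ 2 - 1) * (t ^ 2 * exp (-t ^ 2 / 2)))| ≤ 16 * q ^ 2 * (1 + y ^ 2) ^ 2 := by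
  set x := t * (√q * y)
  set p := q * t ^ 2 / 2
  have hp : 0 ≤ p := by positivity
  have hx : x ^ 2 = q * t ^ 2 * y ^ 2 := by
    simp only [x, mul_pow, sq_sqrt hq0]; ring
  obtain ⟨e1, e2, e3⟩ := exp_taylor hp
  have hE := exp_pos p
  have he := exp_pos (-t ^ 2 / 2)
  have hc := abs_le.1 (abs_cos_taylor x)
  have key : |cos x * exp p - 1 - p + x ^ 2 / 2| ≤ exp p * (x ^ 4 / 24 + p ^ 2 + x ^ 2 / 2 * p) := by
    rw [abs_le]
    have hx2 : 0 ≤ x ^ 2 / 2 := by positivity
    have m1 := mul_le_mul_of_nonneg_right hc.1 hE.le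
    have m2 := mul_le_mul_of_nonneg_right hc.2 hE.le
    have m3 := mul_le_mul_of_nonneg_left e2 hx2
    have m4 : 0 ≤ x ^ 2 / 2 * (exp p - 1) := mul_nonneg hx2 (by linarith)
    have m5 : 0 ≤ p ^ 2 * exp p := by positivity
    constructor <;> nlinarith
  have hb : exp (-t ^ 2 / 2) * (exp p * (x ^ 4 / 24 + p ^ 2 + x ^ 2 / 2 * p)) ≤
      16 * q ^ 2 * (1 + y ^ 2) ^ 2 := by
    have hP : x ^ 4 / 24 + p ^ 2 + x ^ 2 / 2 * p ≤ q ^ 2 * t ^ 4 * ((1 + y ^ 2) ^ 2 / 4) := by
      rw [show x ^ 4 = (x ^ 2) ^ 2 by ring, hx]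
      simp only [p]
      nlinarith [mul_nonneg (mul_nonneg (sq_nonneg q) (sq_nonneg (t ^ 2))) (sq_nonneg y),
        mul_nonneg (mul_nonneg (sq_nonneg q) (sq_nonneg (t ^ 2))) (sq_nonneg (y ^ 2))]
    calc exp (-t ^ 2 / 2) * (exp p * (x ^ 4 / 24 + p ^ 2 + x ^ 2 / 2 * p))
        ≤ exp (-t ^ 2 / 2) * (exp p * (q ^ 2 * t ^ 4 * ((1 + y ^ 2) ^ 2 / 4))) := by gcongr
      _ = (exp (-t ^ 2 / 2) * exp p) * t ^ 4 * (q ^ 2 * (1 + y ^ 2) ^ 2 / 4) := by ring
      _ ≤ exp (-t ^ 2 / 4) * t ^ 4 * (q ^ 2 * (1 + y ^ 2) ^ 2 / 4) := by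
          gcongr
          exact exp_split_le hq t
      _ ≤ 64 * (q ^ 2 * (1 + y ^ 2) ^ 2 / 4) := by
          gcongr
          linarith [pow_four_mul_exp_le t]
      _ = _ := by ring
  refine le_trans (le_of_eq ?_) ((mul_le_mul_of_nonneg_left key he.le).trans hb)
  rw [← abs_of_pos he, ← abs_mul, abs_of_pos he]
  congr 1
  rw [damp_split, hx]
  simp only [p]
  ring

private lemma sin_term_bound (hq0 : 0 ≤ q) (hq : q ≤ 1 / 2) (t y : ℝ) :
    |t * (sin (t * (√q * y)) * damp q t) - √q * y * (t ^ 2 * exp (-t ^ 2 / 2))| ≤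
      64 * (q * √q) * (1 + y ^ 2) ^ 2 := by
  set x := t * (√q * y)
  set p := q * t ^ 2 / 2
  have hp : 0 ≤ p := by positivity
  have hs := sqrt_nonneg q
  obtain ⟨e1, e2, -⟩ := exp_taylor hp
  have hE := exp_pos p
  have key : |sin x * exp p - x| ≤ exp p * (|x| ^ 3 / 6 + |x| * p) := by
    have h1 : |sin x - x| ≤ |x| ^ 3 / 6 := by rw [abs_sub_comm]; exact abs_sub_sin_le x
    calc |sin x * exp p - x| = |(sin x - x) * exp p + x * (exp p - 1)| := by ring_nf
      _ ≤ |sin x - x| * exp p + |x| * (exp p - 1) := by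
          refine (abs_add_le _ _).trans (le_of_eq ?_)
          rw [abs_mul, abs_mul, abs_of_pos hE, abs_of_nonneg (by linarith : 0 ≤ exp p - 1)]
      _ ≤ |x| ^ 3 / 6 * exp p + |x| * (p * exp p) := by gcongr
      _ = _ := by ring
  have e : |t * (sin x * damp q t) - √q * y * (t ^ 2 * exp (-t ^ 2 / 2))| =
      |t| * exp (-t ^ 2 / 2) * |sin x * exp p - x| := by
    rw [← abs_of_pos (exp_pos (-t ^ 2 / 2)), ← abs_mul, ← abs_mul, abs_of_pos (exp_pos _),
      damp_split]
    simp only [x, p]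
    ring_nf
  rw [e]
  have hy1 : |y| ≤ (1 + y ^ 2) ^ 2 := by nlinarith [sq_nonneg (|y| - 1), sq_abs y, sq_nonneg (y ^ 2)]
  have hy3 : |y| ^ 3 ≤ (1 + y ^ 2) ^ 2 := by
    nlinarith [sq_nonneg (|y| - 1), sq_abs y, abs_nonneg y, sq_nonneg (y ^ 2 - |y|)]
  have hx : |t| * (|x| ^ 3 / 6 + |x| * p) = t ^ 4 * (q * √q) * (|y| ^ 3 / 6 + |y| / 2) := by
    simp only [x, p, abs_mul, abs_of_nonneg hs]
    rw [show t ^ 4 = |t| ^ 4 by rw [pow_abs, abs_of_nonneg (by positivity)],
      show t ^ 2 = |t| ^ 2 from (sq_abs t).symm]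
    linear_combination (|t| ^ 4 * √q * |y| ^ 3 / 6) * sq_sqrt hq0
  calc |t| * exp (-t ^ 2 / 2) * |sin x * exp p - x|
      ≤ |t| * exp (-t ^ 2 / 2) * (exp p * (|x| ^ 3 / 6 + |x| * p)) := by gcongr
    _ = (exp (-t ^ 2 / 2) * exp p) * (|t| * (|x| ^ 3 / 6 + |x| * p)) := by ring
    _ ≤ exp (-t ^ 2 / 4) * (|t| * (|x| ^ 3 / 6 + |x| * p)) := by
        gcongr
        exact exp_split_le hq t
    _ = exp (-t ^ 2 / 4) * t ^ 4 * ((q * √q) * (|y| ^ 3 / 6 + |y| / 2)) := by rw [hx]; ring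
    _ ≤ 64 * ((q * √q) * (1 + y ^ 2) ^ 2) := by
        gcongr
        · linarith [pow_four_mul_exp_le t]
        · linarith [abs_nonneg y]
    _ = _ := by ring

variable {ν : Measure ℝ} [IsFiniteMeasure ν]

private lemma int_bdd {g : ℝ → ℝ} (hg : Continuous g) (C : ℝ) (h : ∀ t, |g t| ≤ C) :
    Integrable g ν :=
  Integrable.mono' (integrable_const C) hg.aestronglyMeasurable (Filter.Eventually.of_forall h)

private lemma int_e0 : Integrable (fun t => exp (-t ^ 2 / 2)) ν :=
  int_bdd (by fun_prop) 1 fun t => by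
    rw [abs_exp, exp_le_one_iff]; nlinarith [sq_nonneg t]

private lemma int_e2 : Integrable (fun t => t ^ 2 * exp (-t ^ 2 / 2)) ν :=
  int_bdd (by fun_prop) 2 fun t => by
    rw [abs_of_nonneg (by positivity)]; exact sq_mul_exp_le t

private lemma rsW_expand (hq0 : 0 ≤ q) (hq : q ≤ 1 / 2) (y : ℝ) :
    |rsW ν q y - mZero ν + q / 2 * (y ^ 2 - 1) * mTwo ν| ≤
      16 * ν.real Set.univ * q ^ 2 * (1 + y ^ 2) ^ 2 := by
  have hi : Integrable (fun t => cos (t * (√q * y)) * damp q t) ν :=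
    int_bdd (by unfold damp; fun_prop) 1 fun t => by
      rw [abs_mul, abs_of_nonneg (damp_nonneg q t)]
      exact mul_le_one₀ (abs_cos_le_one _) (damp_nonneg q t) (damp_le_one (by linarith) t)
  have e : rsW ν q y - mZero ν + q / 2 * (y ^ 2 - 1) * mTwo ν =
      ∫ t, cos (t * (√q * y)) * damp q t - (exp (-t ^ 2 / 2) -
        q / 2 * (y ^ 2 - 1) * (t ^ 2 * exp (-t ^ 2 / 2))) ∂ν := by
    rw [integral_sub hi, integral_sub int_e0 (int_e2.const_mul _), integral_const_mul, mZero, mTwo,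
      rsW]
    · ring
    · exact int_e0.sub (int_e2.const_mul _)
  rw [e, ← norm_eq_abs]
  refine (norm_integral_le_of_norm_le_const (μ := ν) (C := 16 * q ^ 2 * (1 + y ^ 2) ^ 2)
    (Filter.Eventually.of_forall fun t => cos_term_bound hq0 hq t y)).trans_eq ?_
  ring

private lemma rsS_expand (hq0 : 0 ≤ q) (hq : q ≤ 1 / 2) (y : ℝ) :
    |rsS ν q y - √q * y * mTwo ν| ≤ 64 * ν.real Set.univ * (q * √q) * (1 + y ^ 2) ^ 2 := by
  have hi : Integrable (fun t => t * (sin (t * (√q * y)) * damp q t)) ν :=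
    int_bdd (by unfold damp; fun_prop) (dampC q) fun t => by
      rw [show t * (sin (t * (√q * y)) * damp q t) = sin (t * (√q * y)) * (t * damp q t) by ring,
        abs_mul]
      exact (mul_le_of_le_one_left (abs_nonneg _) (abs_sin_le_one _)).trans
        (abs_mul_damp (by linarith) t)
  have e : rsS ν q y - √q * y * mTwo ν =
      ∫ t, t * (sin (t * (√q * y)) * damp q t) - √q * y * (t ^ 2 * exp (-t ^ 2 / 2)) ∂ν := by
    rw [integral_sub hi (int_e2.const_mul _), integral_const_mul, mTwo, rsS]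
  rw [e, ← norm_eq_abs]
  refine (norm_integral_le_of_norm_le_const (μ := ν) (C := 64 * (q * √q) * (1 + y ^ 2) ^ 2)
    (Filter.Eventually.of_forall fun t => sin_term_bound hq0 hq t y)).trans_eq ?_
  ring

private lemma integral_rsW (hq0 : 0 ≤ q) (hq : q ≤ 1) :
    ∫ y, rsW ν q y ∂gaussianReal 0 1 = mZero ν := by
  have hin : Integrable (Function.uncurry fun y t => cos (t * (√q * y)) * damp q t)
      ((gaussianReal 0 1).prod ν) :=
    Integrable.mono' (integrable_const (1 : ℝ))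
      (Continuous.aestronglyMeasurable (by unfold damp; fun_prop))
      (Filter.Eventually.of_forall fun p => by
        rw [Function.uncurry, norm_eq_abs, abs_mul, abs_of_nonneg (damp_nonneg q _)]
        exact mul_le_one₀ (abs_cos_le_one _) (damp_nonneg q _) (damp_le_one hq _))
  simp only [rsW]
  rw [integral_integral_swap hin, mZero]
  refine integral_congr_ae (Filter.Eventually.of_forall fun t => ?_)
  simp only
  rw [integral_mul_const]
  simp only [← mul_assoc]
  rw [integral_cos_gaussian, damp, ← exp_add, mul_pow, sq_sqrt hq0]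
  ring_nf

variable {f : ℝ → ℝ} {a : ℝ}

omit [IsFiniteMeasure ν] in
private lemma annealed_eq (hk : Ker f a ν) :
    ∫ z, exp (f z) ∂gaussianReal 0 1 = a - mZero ν ∧
    ∫ z, (z ^ 2 - 1) * exp (f z) ∂gaussianReal 0 1 = mTwo ν := by
  have := hk.fin
  have hin : Integrable (Function.uncurry fun z t => cos (t * z)) ((gaussianReal 0 1).prod ν) :=
    Integrable.mono' (integrable_const (1 : ℝ)) (Continuous.aestronglyMeasurable (by fun_prop))
      (Filter.Eventually.of_forall fun p => by simpa [Function.uncurry] using abs_cos_le_one _)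
  have hi : Integrable (fun z => ∫ t, cos (t * z) ∂ν) (gaussianReal 0 1) := hin.integral_prod_left
  have hz2 : Integrable (fun z : ℝ => z ^ 2 - 1) (gaussianReal 0 1) :=
    (int_pow 2).sub (integrable_const 1)
  have hin2 : Integrable (Function.uncurry fun z t => (z ^ 2 - 1) * cos (t * z))
      ((gaussianReal 0 1).prod ν) :=
    Integrable.mono' (hz2.abs.comp_fst ν) (Continuous.aestronglyMeasurable (by fun_prop))
      (Filter.Eventually.of_forall fun p => by
        rw [Function.uncurry, norm_eq_abs, abs_mul]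
        exact mul_le_of_le_one_right (abs_nonneg _) (abs_cos_le_one _))
  have hi2 : Integrable (fun z => ∫ t, (z ^ 2 - 1) * cos (t * z) ∂ν) (gaussianReal 0 1) :=
    hin2.integral_prod_left
  constructor
  · simp only [hk.eq]
    rw [integral_sub (integrable_const a) hi, integral_integral_swap hin]
    simp [integral_cos_gaussian, mZero]
  · simp only [hk.eq, mul_sub, ← integral_const_mul]
    rw [integral_sub (hz2.mul_const a) hi2, integral_integral_swap hin2, integral_mul_const,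
      integral_sub (int_pow 2) (integrable_const 1), moment_two]
    simp only [integral_sq_sub_one_cos, integral_neg, mTwo]
    simp

private lemma kerConst_pos (hk : Ker f a ν) : 0 < a - mZero ν := by
  have h1 : mZero ν ≤ ν.real Set.univ := by
    refine (integral_mono int_e0 (integrable_const (1 : ℝ)) fun t => ?_).trans_eq (by simp)
    simp only
    rw [exp_le_one_iff]; nlinarith [sq_nonneg t]
  linarith [hk.lt]

private lemma rsW_bounds (hk : Ker f a ν) (hq0 : 0 < q) (hq : q ≤ 1 / 2) :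
    let c := a - mZero ν
    let b := mTwo ν / c
    let K := 16 * ν.real Set.univ / c
    ∀ y, |(rsW ν q y - mZero ν) / c + q / 2 * b * (y ^ 2 - 1)| ≤ K * q ^ 2 * (1 + y ^ 2) ^ 2 ∧
      |q / 2 * b * (y ^ 2 - 1)| ≤ q * b * (1 + y ^ 2) ∧
      |(rsW ν q y - mZero ν) / c| ≤ q * (b + K) * (1 + y ^ 2) ^ 2 ∧
      (rsW ν q y - mZero ν) / c < 1 ∧
      a - rsW ν q y = c * (1 - (rsW ν q y - mZero ν) / c) := by
  intro c b K
  have hc : 0 < c := kerConst_pos hk
  set N := ν.real Set.univ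
  have hN : 0 ≤ N := measureReal_nonneg
  set δ := a - N
  have hδ : 0 < δ := by have := hk.lt; linarith
  have hb0 : 0 ≤ b := div_nonneg (integral_nonneg fun t => by positivity) hc.le
  have hK : 0 ≤ K := by positivity
  have hq1 : q < 1 := by linarith
  have hFpos : ∀ y, δ ≤ a - rsW ν q y := fun y => by
    linarith [(abs_le.1 (abs_rsW_le (ν := ν) hq1.le y)).2]
  -- the relative fluctuation
  set u : ℝ → ℝ := fun y => (rsW ν q y - mZero ν) / c
  set l : ℝ → ℝ := fun y => q / 2 * b * (y ^ 2 - 1)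
  have hP1 : ∀ y : ℝ, 1 ≤ 1 + y ^ 2 := fun y => by linarith [sq_nonneg y]
  have hul : ∀ y, |u y + l y| ≤ K * q ^ 2 * (1 + y ^ 2) ^ 2 := fun y => by
    rw [show u y + l y = (rsW ν q y - mZero ν + q / 2 * (y ^ 2 - 1) * mTwo ν) / c by
      simp only [u, l, b]; ring, abs_div, abs_of_pos hc, div_le_iff₀ hc]
    refine (rsW_expand hq0.le hq y).trans_eq ?_
    simp only [K]; field_simp
  have hl : ∀ y, |l y| ≤ q * b * (1 + y ^ 2) := fun y => by
    have h : |y ^ 2 - 1| ≤ 2 * (1 + y ^ 2) := by rw [abs_le]; constructor <;> nlinarith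
    simp only [l]
    rw [abs_mul, abs_of_nonneg (by positivity : 0 ≤ q / 2 * b)]
    nlinarith [mul_le_mul_of_nonneg_left h (by positivity : 0 ≤ q / 2 * b)]
  have hu : ∀ y, |u y| ≤ q * (b + K) * (1 + y ^ 2) ^ 2 := fun y => by
    have h1 : |u y| ≤ |u y + l y| + |l y| := by
      simpa using abs_sub (u y + l y) (l y)
    have h2 : q * b * (1 + y ^ 2) ≤ q * b * (1 + y ^ 2) ^ 2 :=
      mul_le_mul_of_nonneg_left (le_self_pow₀ (hP1 y) two_ne_zero) (by positivity)
    have h3 : K * q ^ 2 * (1 + y ^ 2) ^ 2 ≤ K * q * (1 + y ^ 2) ^ 2 :=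
      mul_le_mul_of_nonneg_right (mul_le_mul_of_nonneg_left (by nlinarith) hK) (by positivity)
    nlinarith [hul y, hl y]
  have hu1 : ∀ y, u y < 1 := fun y => by
    simp only [u, c]; rw [div_lt_one hc]; linarith [hFpos y]
  have hF : ∀ y, a - rsW ν q y = c * (1 - u y) := fun y => by
    simp only [u]; field_simp; ring
  exact fun y => ⟨hul y, hl y, hu y, hu1 y, hF y⟩

/-- Gardner's entropy term to second order in the overlap. -/
private lemma entropy_second_order (hk : Ker f a ν) :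
    ∃ C, 0 ≤ C ∧ ∀ q, 0 < q → q ≤ 1 / 2 →
      rsA a ν q ≤ log (a - mZero ν) - q ^ 2 * (mTwo ν / (a - mZero ν)) ^ 2 / 4 + C * q ^ 3 := by
  set γ := gaussianReal 0 1
  set N := ν.real Set.univ
  set c := a - mZero ν
  have hN : 0 ≤ N := measureReal_nonneg
  set δ := a - N
  have hδ : 0 < δ := by have := hk.lt; linarith
  have hc : 0 < c := kerConst_pos hk
  set b := mTwo ν / c
  have hb0 : 0 ≤ b := div_nonneg (integral_nonneg fun t => by positivity) hc.le
  set K := 16 * N / c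
  have hK : 0 ≤ K := by positivity
  have hI : ∀ k : ℕ, 0 ≤ ∫ y, (1 + y ^ 2) ^ k ∂γ := fun k => integral_nonneg fun y => by positivity
  have hI3 := hI 3
  have hI6 := hI 6
  refine ⟨b * K * (∫ y, (1 + y ^ 2) ^ 3 ∂γ) + (b + K) ^ 3 / 3 * ∫ y, (1 + y ^ 2) ^ 6 ∂γ,
    by positivity, fun q hq0 hq => ?_⟩
  have hq1 : q < 1 := by linarith
  have hFpos : ∀ y, δ ≤ a - rsW ν q y := fun y => by
    linarith [(abs_le.1 (abs_rsW_le (ν := ν) hq1.le y)).2]
  set u : ℝ → ℝ := fun y => (rsW ν q y - mZero ν) / c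
  set l : ℝ → ℝ := fun y => q / 2 * b * (y ^ 2 - 1)
  have hP1 : ∀ y : ℝ, 1 ≤ 1 + y ^ 2 := fun y => by linarith [sq_nonneg y]
  have hb := rsW_bounds hk hq0 hq
  have hul : ∀ y, |u y + l y| ≤ K * q ^ 2 * (1 + y ^ 2) ^ 2 := fun y => (hb y).1
  have hl : ∀ y, |l y| ≤ q * b * (1 + y ^ 2) := fun y => (hb y).2.1
  have hu : ∀ y, |u y| ≤ q * (b + K) * (1 + y ^ 2) ^ 2 := fun y => (hb y).2.2.1
  have hu1 : ∀ y, u y < 1 := fun y => (hb y).2.2.2.1
  have hF : ∀ y, a - rsW ν q y = c * (1 - u y) := fun y => (hb y).2.2.2.2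
  have hWc := continuous_rsW (ν := ν) hq1.le
  have huc : Continuous u := by fun_prop
  have hpt : ∀ y, log (a - rsW ν q y) ≤ log c - u y - l y ^ 2 / 2 +
      q ^ 3 * (b * K * (1 + y ^ 2) ^ 3 + (b + K) ^ 3 / 3 * (1 + y ^ 2) ^ 6) := fun y => by
    rw [hF, log_mul hc.ne' (by linarith [hu1 y])]
    have h1 := log_one_sub_le (hu1 y)
    have h2 : l y ^ 2 - 2 * (|l y| * |u y + l y|) ≤ u y ^ 2 := by
      rw [← abs_mul]
      nlinarith [sq_nonneg (u y + l y), le_abs_self (l y * (u y + l y))]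
    have h3 : |l y| * |u y + l y| ≤ q ^ 3 * (b * K) * (1 + y ^ 2) ^ 3 :=
      (mul_le_mul (hl y) (hul y) (abs_nonneg _) (by positivity)).trans_eq (by ring)
    have h4 : |u y| ^ 3 ≤ q ^ 3 * (b + K) ^ 3 * (1 + y ^ 2) ^ 6 :=
      (pow_le_pow_left₀ (abs_nonneg _) (hu y) 3).trans_eq (by ring)
    nlinarith
  have hW : Integrable (fun y => rsW ν q y) γ :=
    int_of_wt hWc N 0 fun y => by simpa using abs_rsW_le hq1.le y
  have hiu : Integrable u γ := (hW.sub (integrable_const _)).div_const c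
  have hil : Integrable (fun y => l y ^ 2 / 2) γ :=
    int_of_wt (by fun_prop) ((q * b) ^ 2) 2 fun y => by
      rw [abs_div, abs_pow, abs_two, ← mul_pow]
      linarith [pow_le_pow_left₀ (abs_nonneg _) (hl y) 2, sq_nonneg (|l y|)]
  have hir : Integrable (fun y : ℝ => q ^ 3 * (b * K * (1 + y ^ 2) ^ 3 +
      (b + K) ^ 3 / 3 * (1 + y ^ 2) ^ 6)) γ :=
    (((int_wt 3).const_mul _).add ((int_wt 6).const_mul _)).const_mul _
  have hlog : Integrable (fun y => log (a - rsW ν q y)) γ :=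
    int_of_wt ((continuous_const.sub hWc).log fun y => (hδ.trans_le (hFpos y)).ne')
      (|log δ| + |log (a + N)|) 0 fun y => by
      obtain ⟨l1, l2⟩ := abs_le.1 (abs_rsW_le (ν := ν) hq1.le y)
      have m1 := log_le_log hδ (hFpos y)
      have m2 := log_le_log (hδ.trans_le (hFpos y)) (show a - rsW ν q y ≤ a + N by linarith)
      rw [pow_zero, mul_one, abs_le]
      constructor
      · linarith [neg_abs_le (log δ), abs_nonneg (log (a + N))]
      · linarith [le_abs_self (log (a + N)), abs_nonneg (log δ)]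
  have h := integral_mono hlog
    ((((integrable_const (log c)).sub hiu).sub hil).add hir) hpt
  have eu : ∫ y, u y ∂γ = 0 := by
    simp only [u]
    rw [integral_div, integral_sub hW (integrable_const _), integral_rsW hq0.le hq1.le]
    simp
  have el : ∫ y, l y ^ 2 / 2 ∂γ = q ^ 2 * b ^ 2 / 4 := by
    have e : ∀ y : ℝ, l y ^ 2 / 2 = q ^ 2 * b ^ 2 / 8 * (y ^ 4 - 2 * y ^ 2 + 1) := fun y => by
      simp only [l]; ring
    have i1 : Integrable (fun y : ℝ => y ^ 4 - 2 * y ^ 2) γ :=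
      (int_pow 4).sub ((int_pow 2).const_mul 2)
    simp only [e]
    rw [integral_const_mul, integral_add i1 (integrable_const 1), integral_sub (int_pow 4) ((int_pow 2).const_mul 2),
      integral_const_mul, moment_four, moment_two]
    simp
    ring
  rw [integral_add' (((integrable_const (log c)).sub hiu).sub hil) hir,
    integral_sub' ((integrable_const (log c)).sub hiu) hil,
    integral_sub' (integrable_const (log c)) hiu, eu, el, integral_const, probReal_univ, one_smul,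
    integral_const_mul, integral_add ((int_wt 3).const_mul _)
      ((int_wt 6).const_mul _), integral_const_mul, integral_const_mul] at h
  simp only [rsA]
  linarith

/-- Gardner's conjugate overlap to first order in the overlap. -/
private lemma overlap_first_order (hk : Ker f a ν) :
    ∃ C, 0 ≤ C ∧ ∀ q, 0 < q → q ≤ 1 / 2 →
      q * (mTwo ν / (a - mZero ν)) ^ 2 - C * q ^ 2 ≤ rsR a ν q ∧ rsR a ν q ≤ C * q := by
  set γ := gaussianReal 0 1
  set N := ν.real Set.univ
  set c := a - mZero ν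
  have hN : 0 ≤ N := measureReal_nonneg
  set δ := a - N
  have hδ : 0 < δ := by have := hk.lt; linarith
  have hc : 0 < c := kerConst_pos hk
  set b := mTwo ν / c
  have hb0 : 0 ≤ b := div_nonneg (integral_nonneg fun t => by positivity) hc.le
  set K := 16 * N / c
  have hK : 0 ≤ K := by positivity
  have hI : ∀ k : ℕ, 0 ≤ ∫ y, (1 + y ^ 2) ^ k ∂γ := fun k => integral_nonneg fun y => by positivity
  set L := (64 * N + b * c * (b + K)) / δ
  have hL : 0 ≤ L := by positivity
  set C2 := 2 * b * L * ∫ y, (1 + y ^ 2) ^ 4 ∂γ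
  set C3 := 2 * b ^ 2 + 2 * L ^ 2 * ∫ y, (1 + y ^ 2) ^ 6 ∂γ
  have hC2 : 0 ≤ C2 := by have := hI 4; positivity
  have hC3 : 0 ≤ C3 := by have := hI 6; positivity
  refine ⟨C2 + C3, by positivity, fun q hq0 hq => ?_⟩
  have hq1 : q < 1 := by linarith
  have hFpos : ∀ y, δ ≤ a - rsW ν q y := fun y => by
    linarith [(abs_le.1 (abs_rsW_le (ν := ν) hq1.le y)).2]
  set u : ℝ → ℝ := fun y => (rsW ν q y - mZero ν) / c
  set l : ℝ → ℝ := fun y => q / 2 * b * (y ^ 2 - 1)
  have hP1 : ∀ y : ℝ, 1 ≤ 1 + y ^ 2 := fun y => by linarith [sq_nonneg y]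
  have hb := rsW_bounds hk hq0 hq
  have hul : ∀ y, |u y + l y| ≤ K * q ^ 2 * (1 + y ^ 2) ^ 2 := fun y => (hb y).1
  have hl : ∀ y, |l y| ≤ q * b * (1 + y ^ 2) := fun y => (hb y).2.1
  have hu : ∀ y, |u y| ≤ q * (b + K) * (1 + y ^ 2) ^ 2 := fun y => (hb y).2.2.1
  have hu1 : ∀ y, u y < 1 := fun y => (hb y).2.2.2.1
  have hF : ∀ y, a - rsW ν q y = c * (1 - u y) := fun y => (hb y).2.2.2.2
  have hWc := continuous_rsW (ν := ν) hq1.le
  have huc : Continuous u := by fun_prop
  set g : ℝ → ℝ := fun y => rsS ν q y / (a - rsW ν q y)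
  have hgc : Continuous g := (continuous_rsS hq1).div (continuous_const.sub hWc)
    fun y => (hδ.trans_le (hFpos y)).ne'
  have hg : ∀ y, |g y - √q * y * b| ≤ q * √q * L * (1 + y ^ 2) ^ 3 := fun y => by
    have hFy := hδ.trans_le (hFpos y)
    have e : g y - √q * y * b =
        ((rsS ν q y - √q * y * mTwo ν) + √q * y * b * (c * u y)) / (a - rsW ν q y) := by
      have hmb : mTwo ν = b * c := by simp only [b]; field_simp
      rw [eq_div_iff hFy.ne', sub_mul, hmb]
      simp only [g, div_mul_cancel₀ _ hFy.ne']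
      rw [hF]; ring
    rw [e, abs_div, abs_of_pos hFy, div_le_iff₀ hFy]
    refine (abs_add_le _ _).trans ?_
    have hy : |y| ≤ 1 + y ^ 2 := by nlinarith [sq_nonneg (|y| - 1), sq_abs y]
    have h2 : |√q * y * b * (c * u y)| ≤ q * √q * (b * c * (b + K)) * (1 + y ^ 2) ^ 3 := by
      rw [abs_mul, abs_mul, abs_mul, abs_mul, abs_of_nonneg (sqrt_nonneg q),
        abs_of_nonneg hb0, abs_of_pos hc]
      calc √q * |y| * b * (c * |u y|)
          ≤ √q * (1 + y ^ 2) * b * (c * (q * (b + K) * (1 + y ^ 2) ^ 2)) := by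
            gcongr; exact hu y
        _ = _ := by ring
    have h1 : |rsS ν q y - √q * y * mTwo ν| ≤ q * √q * (64 * N) * (1 + y ^ 2) ^ 3 :=
      (rsS_expand hq0.le hq y).trans (by
        rw [show 64 * N * (q * √q) = q * √q * (64 * N) by ring]
        exact mul_le_mul_of_nonneg_left (pow_le_pow_right₀ (hP1 y) (by norm_num)) (by positivity))
    have h3 : q * √q * L * (1 + y ^ 2) ^ 3 * δ ≤
        q * √q * L * (1 + y ^ 2) ^ 3 * (a - rsW ν q y) :=
      mul_le_mul_of_nonneg_left (hFpos y) (by positivity)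
    have h4 : L * δ = 64 * N + b * c * (b + K) := div_mul_cancel₀ _ hδ.ne'
    linear_combination h1 + h2 + h3 - q * √q * (1 + y ^ 2) ^ 3 * h4
  have hsq : √q * √q = q := mul_self_sqrt hq0.le
  have hlo : ∀ y, q * b ^ 2 * y ^ 2 - 2 * b * L * q ^ 2 * (1 + y ^ 2) ^ 4 ≤ g y ^ 2 := fun y => by
    have h1 : |√q * y * b| * |g y - √q * y * b| ≤ b * L * q ^ 2 * (1 + y ^ 2) ^ 4 := by
      rw [abs_mul, abs_mul, abs_of_nonneg (sqrt_nonneg q), abs_of_nonneg hb0]
      have hy : |y| ≤ 1 + y ^ 2 := by nlinarith [sq_nonneg (|y| - 1), sq_abs y]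
      calc √q * |y| * b * |g y - √q * y * b|
          ≤ √q * (1 + y ^ 2) * b * (q * √q * L * (1 + y ^ 2) ^ 3) := by gcongr; exact hg y
        _ = (√q * √q) * q * (b * L * (1 + y ^ 2) ^ 4) := by ring
        _ = _ := by rw [hsq]; ring
    have h2 : (√q * y * b) ^ 2 = q * b ^ 2 * y ^ 2 := by
      linear_combination (y ^ 2 * b ^ 2) * hsq
    rw [← abs_mul] at h1
    have e : g y ^ 2 = (√q * y * b) ^ 2 + 2 * (√q * y * b * (g y - √q * y * b)) +
        (g y - √q * y * b) ^ 2 := by ring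
    linarith [sq_nonneg (g y - √q * y * b), (abs_le.1 h1).1]
  have hhi : ∀ y, g y ^ 2 ≤ 2 * q * b ^ 2 * y ^ 2 + 2 * q * L ^ 2 * (1 + y ^ 2) ^ 6 := fun y => by
    have h1 : (g y - √q * y * b) ^ 2 ≤ q * L ^ 2 * (1 + y ^ 2) ^ 6 := by
      rw [← sq_abs]
      refine (pow_le_pow_left₀ (abs_nonneg _) (hg y) 2).trans ?_
      rw [show (q * √q * L * (1 + y ^ 2) ^ 3) ^ 2 =
        (√q * √q) * q ^ 2 * (L ^ 2 * (1 + y ^ 2) ^ 6) by ring, hsq]
      have : q * q ^ 2 ≤ q := by nlinarith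
      nlinarith [mul_le_mul_of_nonneg_right this (by positivity : 0 ≤ L ^ 2 * (1 + y ^ 2) ^ 6)]
    have h2 : (√q * y * b) ^ 2 = q * b ^ 2 * y ^ 2 := by
      linear_combination (y ^ 2 * b ^ 2) * hsq
    nlinarith [sq_nonneg (g y - 2 * (√q * y * b))]
  have hgi : Integrable (fun y => g y ^ 2) γ :=
    int_of_wt (by fun_prop) (2 * q * b ^ 2 + 2 * q * L ^ 2) 6 fun y => by
      rw [abs_of_nonneg (sq_nonneg _)]
      have : y ^ 2 ≤ (1 + y ^ 2) ^ 6 :=
        (le_add_of_nonneg_left zero_le_one).trans (le_self_pow₀ (hP1 y) (by norm_num))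
      nlinarith [hhi y, mul_le_mul_of_nonneg_left this (by positivity : 0 ≤ 2 * q * b ^ 2)]
  constructor
  · have h := integral_mono (((int_pow 2).const_mul _).sub ((int_wt 4).const_mul _)) hgi hlo
    rw [integral_sub' ((int_pow 2).const_mul _) ((int_wt 4).const_mul _), integral_const_mul,
      integral_const_mul, moment_two] at h
    simp only [rsR]
    have : 0 ≤ C3 * q ^ 2 := by positivity
    simp only [g, C2] at *
    linarith
  · have h := integral_mono hgi (((int_pow 2).const_mul _).add ((int_wt 6).const_mul _)) hhi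
    rw [integral_add' ((int_pow 2).const_mul _) ((int_wt 6).const_mul _), integral_const_mul,
      integral_const_mul, moment_two] at h
    simp only [rsR]
    have : 0 ≤ C2 * q := by positivity
    simp only [g, C3] at *
    linarith

private lemma log_cosh_gaussian_le {s : ℝ} (hs : 0 ≤ s) :
    ∫ x, log (cosh (√s * x)) ∂gaussianReal 0 1 ≤
      s / 2 - s ^ 2 / 4 + s ^ 3 * (∫ x, x ^ 6 ∂gaussianReal 0 1) / 45 := by
  have i1 : Integrable (fun x : ℝ => s / 2 * x ^ 2 - s ^ 2 / 12 * x ^ 4) (gaussianReal 0 1) :=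
    ((int_pow 2).const_mul _).sub ((int_pow 4).const_mul _)
  have hl : Integrable (fun x : ℝ => log (cosh (√s * x))) (gaussianReal 0 1) :=
    int_of_wt (Continuous.log (by fun_prop) fun x => (cosh_pos _).ne') s 1 fun x => by
      rw [abs_of_nonneg (log_nonneg (one_le_cosh _))]
      have h1 := log_le_log (cosh_pos _) (cosh_le_exp_half_sq (√s * x))
      rw [log_exp, mul_pow, sq_sqrt hs] at h1
      nlinarith [mul_nonneg hs (sq_nonneg x)]
  refine (integral_mono hl (i1.add ((int_pow 6).const_mul (s ^ 3 / 45))) fun x => ?_).trans_eq ?_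
  · refine (log_cosh_le _).trans_eq ?_
    have e := sq_sqrt hs
    simp only [Pi.add_apply]
    rw [mul_pow, mul_pow, mul_pow, show √s ^ 4 = (√s ^ 2) ^ 2 by ring,
      show √s ^ 6 = (√s ^ 2) ^ 3 by ring, e]
    ring
  · rw [integral_add' i1 ((int_pow 6).const_mul _), integral_sub ((int_pow 2).const_mul _)
        ((int_pow 4).const_mul _), integral_const_mul, integral_const_mul, integral_const_mul,
      moment_two, moment_four]
    ring

private lemma ising_algebra {α β C M q A r E L : ℝ} (hα : 0 < α) (hβ : 1 < β) (hC : 0 ≤ C)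
    (hM : 0 ≤ M) (hq : 0 < q) (hr : 0 ≤ r)
    (hA : α * A ≤ α * L - q ^ 2 * β / 4 + α * C * q ^ 3)
    (hlo : β * q - α * C * q ^ 2 ≤ α * r) (hhi : r ≤ C * q)
    (hE : E ≤ α * r / 2 - (α * r) ^ 2 / 4 + (α * r) ^ 3 * M / 45)
    (hsmall : (α * C + α * C * (1 / 2 + β / 2) + (α * C) ^ 3 * M / 45) * q < β * (β - 1) / 4) :
    α * A - α * r * (1 - q) / 2 + E < α * L := by
  have hs : 0 ≤ α * r := mul_nonneg hα.le hr
  have hphi : α * r * q / 2 - (α * r) ^ 2 / 4 ≤ q ^ 2 * (β / 2 - β ^ 2 / 4) +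
      α * C * (1 / 2 + β / 2) * q ^ 3 := by
    have e : α * r * q / 2 - (α * r) ^ 2 / 4 = q ^ 2 * (β / 2 - β ^ 2 / 4) +
        (α * r - β * q) * (q / 2 - (α * r + β * q) / 4) := by ring
    have hβq : q ≤ β * q := le_mul_of_one_le_left hq.le hβ.le
    rw [e, add_le_add_iff_left]
    rcases le_total (β * q) (α * r) with hge | hle
    · exact (mul_nonpos_of_nonneg_of_nonpos (by linarith)
        (by linarith : q / 2 - (α * r + β * q) / 4 ≤ 0)).trans (by positivity)
    · calc (α * r - β * q) * (q / 2 - (α * r + β * q) / 4)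
          = (β * q - α * r) * ((α * r + β * q) / 4 - q / 2) := by ring
        _ ≤ (β * q - α * r) * (q * (1 / 2 + β / 2)) :=
            mul_le_mul_of_nonneg_left (by linarith) (by linarith)
        _ ≤ α * C * q ^ 2 * (q * (1 / 2 + β / 2)) :=
            mul_le_mul_of_nonneg_right (by linarith) (by positivity)
        _ = _ := by ring
  have h3 : (α * r) ^ 3 * M / 45 ≤ (α * C) ^ 3 * M / 45 * q ^ 3 := by
    calc (α * r) ^ 3 * M / 45 ≤ (α * (C * q)) ^ 3 * M / 45 := by gcongr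
      _ = _ := by ring
  have h4 := mul_lt_mul_of_pos_right hsmall (pow_pos hq 2)
  linarith

private lemma sphere_algebra {α β C q A L : ℝ} (hq : 0 < q) (hq2 : q ≤ 1 / 2)
    (hA : α * A ≤ α * L - q ^ 2 * β / 4 + α * C * q ^ 3)
    (hsmall : (α * C + 2) * q < (β - 1) / 4) :
    α * A + (log (1 - q) + q / (1 - q)) / 2 < α * L := by
  have hq1 : q < 1 := by linarith
  have hl : log (1 - q) ≤ -q - q ^ 2 / 2 + q ^ 3 / 3 := by
    simpa [abs_of_pos hq] using log_one_sub_le hq1
  have hd : q / (1 - q) ≤ q + q ^ 2 + 5 / 3 * q ^ 3 + q ^ 3 * (1 / 3) := by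
    rw [div_le_iff₀ (by linarith)]
    nlinarith [mul_le_mul_of_nonneg_left hq2 (pow_nonneg hq.le 3)]
  have h4 := mul_lt_mul_of_pos_right hsmall (pow_pos hq 2)
  linarith [pow_pos hq 3]

/-- Beyond `α b² = 1` some overlap beats the annealed formula, on the cube and on the sphere. -/
theorem gardner_lt_annealed {α : ℝ} (hk : Ker f a ν) (hα : 0 < α)
    (h : 1 < α * ((∫ z, (z ^ 2 - 1) * exp (f z) ∂gaussianReal 0 1) /
      ∫ z, exp (f z) ∂gaussianReal 0 1) ^ 2) :
    (∃ q, 0 ≤ q ∧ q < 1 ∧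
      gardnerIsing f α q < α * log (∫ z, exp (f z) ∂gaussianReal 0 1)) ∧
    (∃ q, 0 ≤ q ∧ q < 1 ∧
      gardnerSphere f α q < α * log (∫ z, exp (f z) ∂gaussianReal 0 1)) := by
  obtain ⟨e1, e2⟩ := annealed_eq hk
  rw [e1, e2] at h
  rw [e1]
  obtain ⟨CA, hCA, hbA⟩ := entropy_second_order hk
  obtain ⟨CR, hCR, hbR⟩ := overlap_first_order hk
  obtain ⟨C, hC, hA0, hR0⟩ : ∃ C, 0 ≤ C ∧ CA ≤ C ∧ CR ≤ C :=
    ⟨CA + CR, add_nonneg hCA hCR, le_add_of_nonneg_right hCR, le_add_of_nonneg_left hCA⟩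
  generalize hb : mTwo ν / (a - mZero ν) = b at h hbA hbR
  obtain ⟨β, hβ⟩ : ∃ β, β = α * b ^ 2 := ⟨_, rfl⟩
  rw [← hβ] at h
  obtain ⟨M, hM⟩ : ∃ M, M = ∫ x, x ^ 6 ∂gaussianReal 0 1 := ⟨_, rfl⟩
  have hM0 : 0 ≤ M := hM ▸ integral_nonneg fun x => by positivity
  have hlim : ∀ D ε : ℝ, 0 < ε → ∀ᶠ q in 𝓝[>] (0 : ℝ), D * q < ε := fun D ε hε =>
    (((continuous_const_mul D).tendsto' 0 0 (mul_zero D)).mono_left nhdsWithin_le_nhds).eventually
      (Iio_mem_nhds hε)
  have hhalf : ∀ᶠ q in 𝓝[>] (0 : ℝ), q ≤ 1 / 2 :=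
    nhdsWithin_le_nhds (Iic_mem_nhds (by norm_num))
  obtain ⟨q, ⟨⟨hs1, hs2⟩, hq2⟩, hq0⟩ :=
    ((((hlim (α * C + α * C * (1 / 2 + β / 2) + (α * C) ^ 3 * M / 45) (β * (β - 1) / 4)
      (by nlinarith)).and (hlim (α * C + 2) ((β - 1) / 4) (by linarith))).and hhalf).and
        eventually_mem_nhdsWithin).exists
  rw [Set.mem_Ioi] at hq0
  have hq1 : q < 1 := by linarith
  have hA : α * rsA a ν q ≤ α * log (a - mZero ν) - q ^ 2 * β / 4 + α * C * q ^ 3 := by
    have h1 := mul_le_mul_of_nonneg_left (hbA q hq0 hq2) hα.le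
    have h2 := mul_le_mul_of_nonneg_left
      (mul_le_mul_of_nonneg_right hA0 (pow_nonneg hq0.le 3)) hα.le
    rw [hβ]
    linarith
  refine ⟨⟨q, hq0.le, hq1, ?_⟩, ⟨q, hq0.le, hq1, ?_⟩⟩
  · rw [gardnerIsing, gardnerEnergy_eq hk hq0.le hq1, gardnerOverlap_eq hk hq0.le hq1]
    refine ising_algebra hα h hC hM0 hq0 rsR_nonneg hA ?_
      ((hbR q hq0 hq2).2.trans (mul_le_mul_of_nonneg_right hR0 hq0.le))
      (hM ▸ log_cosh_gaussian_le (mul_nonneg hα.le rsR_nonneg)) hs1
    have h1 := mul_le_mul_of_nonneg_left (hbR q hq0 hq2).1 hα.le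
    have h2 := mul_le_mul_of_nonneg_left
      (mul_le_mul_of_nonneg_right hR0 (pow_nonneg hq0.le 2)) hα.le
    rw [hβ]
    linarith
  · rw [gardnerSphere, gardnerEnergy_eq hk hq0.le hq1]
    exact sphere_algebra hq0 hq2 hA hs2

/-- Beyond `α b² = 1` both limiting free energies are strictly below the annealed value. -/
theorem free_energy_lt_annealed {α : ℝ} (hlt : ν.real Set.univ < a)
    (heq : ∀ x, exp (f x) = a - ∫ t, cos (t * x) ∂ν) (hα : 0 < α)
    (h : 1 < α * ((∫ z, (z ^ 2 - 1) * exp (f z) ∂gaussianReal 0 1) /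
      ∫ z, exp (f z) ∂gaussianReal 0 1) ^ 2) :
    (∃ p, Tendsto (fun N : ℕ => cubePressure f N ⌊α * N⌋₊) atTop (𝓝 p) ∧
      p < α * log (∫ z, exp (f z) ∂gaussianReal 0 1)) ∧
    ∃ p, Tendsto (fun N : ℕ => spherePressure f N ⌊α * N⌋₊) atTop (𝓝 p) ∧
      p < α * log (∫ z, exp (f z) ∂gaussianReal 0 1) := by
  have hk := ker_symmetrise hlt heq
  obtain ⟨⟨q, hq0, hq1, hq⟩, ⟨q', hq0', hq1', hq'⟩⟩ :=
    haveI := hk.fin
    gardner_lt_annealed hk hα h
  obtain ⟨⟨p, hp, -, -, -, hub⟩, ⟨p', hp', -, -, -, hub'⟩⟩ := free_energy hlt heq hα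
  exact ⟨⟨p, hp, (hub q hq0 hq1).trans_lt hq⟩, ⟨p', hp', (hub' q' hq0' hq1').trans_lt hq'⟩⟩

end Vale.Agent.P157
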