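import Vale.Agent.P157.Annealed
import Vale.Agent.P157.Strict
import Vale.Agent.P157.Small.Even

/-!
The exact critical density of the annealed phase.
-/

namespace Vale.Agent.P157

open MeasureTheory ProbabilityTheory Filter
open scoped Topology Nat

/-- The normalised second Hermite coefficient of `exp f`. -/
noncomputable def hermiteRatio (f : ℝ → ℝ) : ℝ :=
  (∫ z, (z ^ 2 - 1) * Real.exp (f z) ∂gaussianReal 0 1) / ∫ z, Real.exp (f z) ∂gaussianReal 0 1

lemma pot_of_class {f : ℝ → ℝ} {a : ℝ} {ν : Measure ℝ} [IsFiniteMeasure ν]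
    (hlt : ν.real Set.univ < a) (heq : ∀ x, Real.exp (f x) = a - ∫ t, Real.cos (t * x) ∂ν) :
    ∃ B, Pot f B :=
  ⟨_, (ker_symmetrise hlt heq).pot⟩

lemma cosh_sub_one_le {m : ℝ} (hm : 1 ≤ 3 * m) (x : ℝ) :
    1 + m * (Real.cosh x - 1) ≤ Real.exp (m * x ^ 2 / 2) := by
  have hm0 : 0 ≤ m := by linarith
  have hk : ∀ j : ℕ, m * (2 ^ (j + 1) * (j + 1)!) ≤ (2 * (j + 1))! * m ^ (j + 1) := fun j => by
    induction j with
    | zero => norm_num [Nat.factorial]; ring_nf; rfl
    | succ j ih =>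
      have e : ((2 * (j + 1 + 1))! : ℝ) =
          (2 * (j : ℝ) + 4) * ((2 * j + 3) * (2 * (j + 1))!) := by
        rw [show 2 * (j + 1 + 1) = 2 * (j + 1) + 1 + 1 by ring, Nat.factorial_succ,
          Nat.factorial_succ]
        push_cast; ring
      rw [e, pow_succ (2 : ℝ), pow_succ m, Nat.factorial_succ (j + 1)]
      push_cast
      have hj : 1 ≤ (2 * (j : ℝ) + 3) * m := by nlinarith [Nat.cast_nonneg (α := ℝ) j]
      calc m * (2 ^ (j + 1) * 2 * (((j : ℝ) + 1 + 1) * (j + 1)!))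
          = (2 * (j : ℝ) + 4) * (m * (2 ^ (j + 1) * (j + 1)!)) := by ring
        _ ≤ (2 * (j : ℝ) + 4) * ((2 * (j + 1))! * m ^ (j + 1)) :=
            mul_le_mul_of_nonneg_left ih (by positivity)
        _ ≤ (2 * (j : ℝ) + 4) * ((2 * (j + 1))! * m ^ (j + 1)) * ((2 * (j : ℝ) + 3) * m) :=
            le_mul_of_one_le_right (by positivity) hj
        _ = _ := by ring
  have hc := ((Real.hasSum_cosh x).mul_left m).add (hasSum_ite_eq 0 (1 - m))
  have he := NormedSpace.exp_series_hasSum_exp' (𝕂 := ℝ) (m * x ^ 2 / 2)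
  rw [← Real.exp_eq_exp_ℝ] at he
  refine le_trans (le_of_eq (by ring)) (hasSum_le (fun k => ?_) hc he)
  rcases k with _ | j
  · simp
  · simp only [Nat.succ_ne_zero, if_false, add_zero, smul_eq_mul, div_pow, mul_pow, ← pow_mul]
    rw [← mul_div_assoc, ← div_eq_inv_mul, div_div, div_le_div_iff₀ (by positivity) (by positivity)]
    have h := mul_le_mul_of_nonneg_right (hk j)
      (by rw [pow_mul]; positivity : (0 : ℝ) ≤ x ^ (2 * (j + 1)))
    linarith

/-- The explicit family `exp f = 1 - l cos(t z)`. -/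
lemma corr_cos {l t q : ℝ} (hl0 : 0 ≤ l) (hl : l < 1) (hq : q ∈ Set.Icc (-1 : ℝ) 1) :
    let U := fun x => Real.exp (Real.log (1 - l * Real.cos (t * x)))
    (∫ z, U z ∂gaussianReal 0 1) = 1 - l * Real.exp (-t ^ 2 / 2) ∧
      (∫ z, (z ^ 2 - 1) * U z ∂gaussianReal 0 1) = l * (t ^ 2 * Real.exp (-t ^ 2 / 2)) ∧
      Small.corr U q = 1 - 2 * (l * Real.exp (-t ^ 2 / 2)) +
        (l * Real.exp (-t ^ 2 / 2)) ^ 2 * Real.cosh (q * t ^ 2) := by
  intro U
  have hU : U = fun x => 1 - l * Real.cos (t * x) := funext fun x => by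
    have h := mul_le_mul_of_nonneg_left (Real.cos_le_one (t * x)) hl0
    exact Real.exp_log (by linarith)
  have hm1 : ∀ s : ℝ, ∫ p : ℝ × ℝ, Real.cos (t * (q * p.1 + Real.sqrt (1 - q ^ 2) * p.2)) *
      Real.cos (s * p.1) ∂(gaussianReal 0 1).prod (gaussianReal 0 1) =
      Real.exp (-s ^ 2 / 2) * Real.exp (-t ^ 2 / 2) * Real.cosh (q * s * t) := fun s => by
    rw [← Small.gauss_pair hq s t]
    exact integral_congr_ae (Filter.Eventually.of_forall fun p => mul_comm _ _)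
  have hone : ∫ z, Real.cos (t * z) ∂gaussianReal 0 1 = Real.exp (-t ^ 2 / 2) := by
    have h := Small.gauss_pair (q := 0) ⟨by norm_num, by norm_num⟩ t 0
    have h2 := integral_prod_mul (μ := gaussianReal 0 1) (ν := gaussianReal 0 1)
      (fun z : ℝ => Real.cos (t * z)) fun _ : ℝ => (1 : ℝ)
    simp at h h2
    rwa [h2] at h
  have hb : ∀ {P : Measure (ℝ × ℝ)} [IsProbabilityMeasure P] {g : ℝ × ℝ → ℝ}, Continuous g →
      (∀ p, |g p| ≤ 1) → Integrable g P := fun {P} _ {g} hg h =>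
    Integrable.mono' (integrable_const (1 : ℝ)) hg.aestronglyMeasurable
      (Filter.Eventually.of_forall fun p => (Real.norm_eq_abs _).trans_le (h p))
  have hci : Integrable (fun z : ℝ => Real.cos (t * z)) (gaussianReal 0 1) :=
    Integrable.mono' (integrable_const (1 : ℝ)) (Continuous.aestronglyMeasurable (by fun_prop))
      (Filter.Eventually.of_forall fun p => by simpa using Real.abs_cos_le_one _)
  refine ⟨?_, ?_, ?_⟩
  · simp only [hU]
    rw [integral_sub (integrable_const _) (hci.const_mul l), integral_const_mul, hone]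
    simp
  · simp only [hU, mul_sub, mul_one, mul_left_comm _ l]
    have hz : Integrable (fun z : ℝ => z ^ 2 - 1) (gaussianReal 0 1) :=
      ((IsGaussian.memLp_id (gaussianReal 0 1) 2 (by simp)).integrable_sq).sub (integrable_const 1)
    have hzc : Integrable (fun z : ℝ => (z ^ 2 - 1) * Real.cos (t * z)) (gaussianReal 0 1) :=
      hz.mono (Continuous.aestronglyMeasurable (by fun_prop)) (Filter.Eventually.of_forall fun z => by
        rw [norm_mul]
        exact mul_le_of_le_one_right (norm_nonneg _) (by simpa using Real.abs_cos_le_one _))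
    rw [integral_sub hz (hzc.const_mul l), integral_const_mul, integral_sq_sub_one_cos]
    have h0 := integral_sq_sub_one_cos (0 : ℝ)
    simp at h0
    rw [h0]
    ring
  · set r := Real.sqrt (1 - q ^ 2) with hr
    simp only [Small.corr, hU, ← hr]
    have e : ∀ p : ℝ × ℝ, (1 - l * Real.cos (t * p.1)) * (1 - l * Real.cos (t * (q * p.1 + r * p.2))) =
        (1 - l * Real.cos (t * p.1) - l * Real.cos (t * (q * p.1 + r * p.2))) +
          l ^ 2 * (Real.cos (t * p.1) * Real.cos (t * (q * p.1 + r * p.2))) := fun p => by ring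
    have i1 := hb (P := (gaussianReal 0 1).prod (gaussianReal 0 1))
      (g := fun p => Real.cos (t * p.1)) (by fun_prop) fun p => Real.abs_cos_le_one _
    have i2 := hb (P := (gaussianReal 0 1).prod (gaussianReal 0 1))
      (g := fun p => Real.cos (t * (q * p.1 + r * p.2))) (by fun_prop) fun p => Real.abs_cos_le_one _
    have i3 := hb (P := (gaussianReal 0 1).prod (gaussianReal 0 1))
      (g := fun p => Real.cos (t * p.1) * Real.cos (t * (q * p.1 + r * p.2))) (by fun_prop)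
      fun p => Small.abs_cos_cos_le _ _
    have i0 : Integrable (fun p : ℝ × ℝ => 1 - l * Real.cos (t * p.1))
        ((gaussianReal 0 1).prod (gaussianReal 0 1)) := (integrable_const 1).sub (i1.const_mul l)
    have i01 : Integrable (fun p : ℝ × ℝ => 1 - l * Real.cos (t * p.1) -
        l * Real.cos (t * (q * p.1 + r * p.2))) ((gaussianReal 0 1).prod (gaussianReal 0 1)) :=
      i0.sub (i2.const_mul l)
    have v1 : ∫ p : ℝ × ℝ, Real.cos (t * p.1) ∂(gaussianReal 0 1).prod (gaussianReal 0 1) =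
        Real.exp (-t ^ 2 / 2) := by
      rw [integral_fun_fst (fun z => Real.cos (t * z)), hone]
      simp
    have v2 : ∫ p : ℝ × ℝ, Real.cos (t * (q * p.1 + r * p.2))
        ∂(gaussianReal 0 1).prod (gaussianReal 0 1) = Real.exp (-t ^ 2 / 2) := by
      have h := hm1 0
      simpa [hr] using h
    simp only [e]
    rw [integral_add i01 (i3.const_mul _), integral_sub i0 (i2.const_mul l),
      integral_sub (integrable_const _) (i1.const_mul l), integral_const_mul, integral_const_mul,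
      integral_const_mul, v1, v2, hr, Small.gauss_pair hq]
    simp only [integral_const, probReal_univ, one_smul]
    rw [show q * t * t = q * t ^ 2 by ring]
    ring

/-- Existence, the variational formula, the replica-symmetric bound and the exact extent of the
annealed phase. -/
theorem free_energy_phase {f : ℝ → ℝ} {a : ℝ} {ν : Measure ℝ} [IsFiniteMeasure ν] {α : ℝ}
    (hlt : ν.real Set.univ < a) (heq : ∀ x, Real.exp (f x) = a - ∫ t, Real.cos (t * x) ∂ν)
    (hα : 0 < α) :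
    (∃ p, Tendsto (fun N : ℕ => cubePressure f N ⌊α * N⌋₊) atTop (𝓝 p) ∧
      IsLUB (Set.range fun N : ℕ => poissonMean (α * (N + 1)) (cubePressure f (N + 1))) p ∧
      (∀ η, 0 < η → ∀ᶠ N : ℕ in atTop, ∀ d ρ ε, IsProbabilityMeasure ρ → 0 < ε → ε < 1 →
        p - η ≤ cubeCavity f α N d ρ ε) ∧
      (∀ N, 1 ≤ N → ∀ η, 0 < η → ∃ d ρ ε, IsProbabilityMeasure ρ ∧ 0 < ε ∧ ε < 1 ∧
        cubeCavity f α N d ρ ε ≤ p + η) ∧
      (∀ q, 0 ≤ q → q < 1 → p ≤ gardnerIsing f α q) ∧
      (1 < α * hermiteRatio f ^ 2 → p < α * Real.log (∫ z, Real.exp (f z) ∂gaussianReal 0 1))) ∧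
    ∃ p, Tendsto (fun N : ℕ => spherePressure f N ⌊α * N⌋₊) atTop (𝓝 p) ∧
      IsLUB (Set.range fun N : ℕ => poissonMean (α * (N + 1)) (spherePressure f (N + 1))) p ∧
      (∀ η, 0 < η → ∀ᶠ N : ℕ in atTop, ∀ d ρ ε, IsProbabilityMeasure ρ → 0 < ε → ε < 1 →
        p - η ≤ sphereCavity f α N d ρ ε) ∧
      (∀ N, 1 ≤ N → ∀ η, 0 < η → ∃ d ρ ε, IsProbabilityMeasure ρ ∧ 0 < ε ∧ ε < 1 ∧
        sphereCavity f α N d ρ ε ≤ p + η) ∧
      (∀ q, 0 ≤ q → q < 1 → p ≤ gardnerSphere f α q) ∧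
      (1 < α * hermiteRatio f ^ 2 → p < α * Real.log (∫ z, Real.exp (f z) ∂gaussianReal 0 1)) := by
  obtain ⟨⟨p, h1, h2, h3, h4, h5⟩, ⟨p', g1, g2, g3, g4, g5⟩⟩ := free_energy hlt heq hα
  refine ⟨⟨p, h1, h2, h3, h4, h5, fun h => ?_⟩, ⟨p', g1, g2, g3, g4, g5, fun h => ?_⟩⟩
  · obtain ⟨⟨r, hr, hlt'⟩, -⟩ := free_energy_lt_annealed hlt heq hα h
    rwa [tendsto_nhds_unique h1 hr]
  · obtain ⟨-, ⟨r, hr, hlt'⟩⟩ := free_energy_lt_annealed hlt heq hα h
    rwa [tendsto_nhds_unique g1 hr]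

/-- For `exp f = 1 - l cos(t z)` with `1 ≤ (1 + √3) l exp(-t²/2)` the annealed value is the limit
exactly up to `α b² = 1`. -/
theorem cos_critical {l t α : ℝ} (hl : l < 1) (hlt : 1 ≤ (1 + Real.sqrt 3) * (l * Real.exp (-t ^ 2 / 2)))
    (hα : 0 < α) :
    let f := fun x => Real.log (1 - l * Real.cos (t * x))
    let c0 := 1 - l * Real.exp (-t ^ 2 / 2)
    (Tendsto (fun N : ℕ => cubePressure f N ⌊α * N⌋₊) atTop (𝓝 (α * Real.log c0)) ↔
        α * (l * t ^ 2 * Real.exp (-t ^ 2 / 2) / c0) ^ 2 ≤ 1) ∧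
      (Tendsto (fun N : ℕ => spherePressure f N ⌊α * N⌋₊) atTop (𝓝 (α * Real.log c0)) ↔
        α * (l * t ^ 2 * Real.exp (-t ^ 2 / 2) / c0) ^ 2 ≤ 1) := by
  intro f c0
  have hl0 : 0 ≤ l := by
    by_contra h
    have : (1 + Real.sqrt 3) * (l * Real.exp (-t ^ 2 / 2)) ≤ 0 :=
      mul_nonpos_of_nonneg_of_nonpos (by positivity)
        (mul_nonpos_of_nonpos_of_nonneg (not_le.1 h).le (Real.exp_pos _).le)
    linarith
  set w := l * Real.exp (-t ^ 2 / 2) with hw
  have hw1 : w < 1 := by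
    refine lt_of_le_of_lt (mul_le_of_le_one_right hl0 (Real.exp_le_one_iff.2 ?_)) hl
    nlinarith [sq_nonneg t]
  have hc0 : 0 < c0 := by simp only [c0]; linarith
  set ν : Measure ℝ := ENNReal.ofReal l • Measure.dirac t with hν
  have : IsFiniteMeasure ν := Measure.smul_finite _ ENNReal.ofReal_ne_top
  have hνu : ν.real Set.univ = l := by simp [hν, measureReal_def, ENNReal.toReal_ofReal hl0]
  have heq : ∀ x, Real.exp (f x) = 1 - ∫ s, Real.cos (s * x) ∂ν := fun x => by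
    have h := mul_le_mul_of_nonneg_left (Real.cos_le_one (t * x)) hl0
    simp only [f, hν, integral_smul_measure, integral_dirac, ENNReal.toReal_ofReal hl0, smul_eq_mul]
    exact Real.exp_log (by linarith)
  have hν1 : ν.real Set.univ < 1 := hνu ▸ hl
  obtain ⟨B, hf⟩ := pot_of_class hν1 heq
  obtain ⟨hA, hT, -⟩ := corr_cos (t := t) (q := 0) hl0 hl ⟨by norm_num, by norm_num⟩
  have hA' : ∫ z, Real.exp (f z) ∂gaussianReal 0 1 = c0 := hA
  have hb : hermiteRatio f = l * t ^ 2 * Real.exp (-t ^ 2 / 2) / c0 := by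
    rw [hermiteRatio, hA', show (∫ z, (z ^ 2 - 1) * Real.exp (f z) ∂gaussianReal 0 1) =
      l * (t ^ 2 * Real.exp (-t ^ 2 / 2)) from hT, mul_assoc]
  set m := (w / c0) ^ 2 with hm
  have hm3 : 1 ≤ 3 * m := by
    have h1 : c0 ≤ Real.sqrt 3 * w := by simp only [c0]; nlinarith
    rw [hm, div_pow, mul_div_assoc', one_le_div (by positivity)]
    calc c0 ^ 2 ≤ (Real.sqrt 3 * w) ^ 2 := pow_le_pow_left₀ hc0.le h1 2
      _ = _ := by rw [mul_pow, Real.sq_sqrt (by norm_num)]
  have hcorr : ∀ q ∈ Set.Icc (-1 : ℝ) 1, Small.corr (fun x => Real.exp (f x)) q ≤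
      (∫ z, Real.exp (f z) ∂gaussianReal 0 1) ^ 2 * Real.exp (hermiteRatio f ^ 2 * q ^ 2 / 2) := fun q hq => by
    obtain ⟨-, -, hC⟩ := corr_cos (t := t) hl0 hl hq
    rw [hA', hb, show Small.corr (fun x => Real.exp (f x)) q = _ from hC]
    have h := mul_le_mul_of_nonneg_left (cosh_sub_one_le hm3 (q * t ^ 2)) (sq_nonneg c0)
    have e1 : (l * t ^ 2 * Real.exp (-t ^ 2 / 2) / c0) ^ 2 * q ^ 2 / 2 = m * (q * t ^ 2) ^ 2 / 2 := by
      simp only [hm, hw]; ring
    rw [e1]
    refine le_trans (le_of_eq ?_) h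
    have e2 : c0 ^ 2 * m = w ^ 2 := by rw [hm]; field_simp
    have e3 : c0 ^ 2 * (1 + m * (Real.cosh (q * t ^ 2) - 1)) =
        c0 ^ 2 + w ^ 2 * (Real.cosh (q * t ^ 2) - 1) := by rw [← e2]; ring
    rw [e3]
    simp only [c0, hw]
    ring
  have hann := fun h => annealed_limit hf (sq_nonneg (hermiteRatio f)) hα h hcorr
  obtain ⟨⟨p, hp, -, -, -, -, hps⟩, ⟨p', hp', -, -, -, -, hps'⟩⟩ := free_energy_phase hν1 heq hα
  rw [hb] at hps hps' hann
  rw [hA'] at hps hps' hann
  refine ⟨⟨fun h => ?_, fun h => (hann h).1⟩, ⟨fun h => ?_, fun h => (hann h).2⟩⟩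
  · by_contra hc
    exact (hps (not_le.1 hc)).ne (tendsto_nhds_unique hp h)
  · by_contra hc
    exact (hps' (not_le.1 hc)).ne (tendsto_nhds_unique hp' h)

end Vale.Agent.P157
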