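import Mathlib

/-!
The expected pressures of the Gaussian perceptron on the cube and on the sphere.
-/

namespace Vale.Agent.P157

open MeasureTheory ProbabilityTheory
open scoped RealInnerProductSpace Nat

/-- Uniform probability measure on the Euclidean unit sphere of `ℝ^N`. -/
noncomputable def unitSphereUniform (N : ℕ) :
    Measure (Metric.sphere (0 : EuclideanSpace ℝ (Fin N)) 1) :=
  ((volume : Measure (EuclideanSpace ℝ (Fin N))).toSphere Set.univ)⁻¹ •
    (volume : Measure (EuclideanSpace ℝ (Fin N))).toSphere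

/-- Expected pressure on the cube `{-1,1}^N` with `M` standard Gaussian patterns. -/
noncomputable def cubePressure (f : ℝ → ℝ) (N M : ℕ) : ℝ :=
  (∫ g : Fin M → EuclideanSpace ℝ (Fin N), Real.log ((∑ σ : Fin N → Bool,
      Real.exp (∑ a, f ((∑ i, g a i * (if σ i then 1 else -1)) / Real.sqrt N))) / 2 ^ N)
    ∂Measure.pi fun _ => stdGaussian (EuclideanSpace ℝ (Fin N))) / N

/-- Expected pressure on the sphere of radius `√N` with `M` standard Gaussian patterns. -/
noncomputable def spherePressure (f : ℝ → ℝ) (N M : ℕ) : ℝ :=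
  (∫ g : Fin M → EuclideanSpace ℝ (Fin N), Real.log (∫ u,
      Real.exp (∑ a, f (⟪g a, Real.sqrt N • (u : EuclideanSpace ℝ (Fin N))⟫ / Real.sqrt N))
        ∂unitSphereUniform N)
    ∂Measure.pi fun _ => stdGaussian (EuclideanSpace ℝ (Fin N))) / N

/-- Mean of `F` under the Poisson law with mean `lam`. -/
noncomputable def poissonMean (lam : ℝ) (F : ℕ → ℝ) : ℝ :=
  ∑' k : ℕ, Real.exp (-lam) * lam ^ k / k ! * F k

/-- Gardner's energy term at overlap `q`. -/
noncomputable def gardnerEnergy (f : ℝ → ℝ) (q : ℝ) : ℝ :=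
  ∫ y, Real.log (∫ z, Real.exp (f (Real.sqrt q * y + Real.sqrt (1 - q) * z)) ∂gaussianReal 0 1)
    ∂gaussianReal 0 1

/-- Gardner's conjugate overlap per pattern at overlap `q`. -/
noncomputable def gardnerOverlap (f : ℝ → ℝ) (q : ℝ) : ℝ :=
  ∫ y, ((∫ z, z * Real.exp (f (Real.sqrt q * y + Real.sqrt (1 - q) * z)) ∂gaussianReal 0 1) /
    Real.sqrt (1 - q) /
    ∫ z, Real.exp (f (Real.sqrt q * y + Real.sqrt (1 - q) * z)) ∂gaussianReal 0 1) ^ 2
    ∂gaussianReal 0 1

/-- Gardner's replica-symmetric free energy of the Ising perceptron at overlap `q`, with the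
conjugate overlap given by the saddle-point equation. -/
noncomputable def gardnerIsing (f : ℝ → ℝ) (α q : ℝ) : ℝ :=
  α * gardnerEnergy f q - α * gardnerOverlap f q * (1 - q) / 2 +
    ∫ x, Real.log (Real.cosh (Real.sqrt (α * gardnerOverlap f q) * x)) ∂gaussianReal 0 1

/-- Gardner's replica-symmetric free energy of the spherical perceptron at overlap `q`. -/
noncomputable def gardnerSphere (f : ℝ → ℝ) (α q : ℝ) : ℝ :=
  α * gardnerEnergy f q + (Real.log (1 - q) + q / (1 - q)) / 2

/-- Cavity functional of the Ising perceptron: `N` new spins of weight `ε` coupled to an outer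
configuration distributed as `ρ`. -/
noncomputable def cubeCavity (f : ℝ → ℝ) (α : ℝ) (N d : ℕ)
    (ρ : Measure (EuclideanSpace ℝ (Fin d))) (ε : ℝ) : ℝ :=
  (poissonMean (α * N / ε) (fun M => ∫ g : Fin M → EuclideanSpace ℝ (Fin N ⊕ Fin d),
        Real.log (∫ x, (∑ σ : Fin N → Bool, Real.exp (∑ b, f (Real.sqrt ε *
            ((∑ i, g b (Sum.inl i) * (if σ i then 1 else -1)) / Real.sqrt N) +
          Real.sqrt (1 - ε) * ∑ j, g b (Sum.inr j) * x j))) / 2 ^ N ∂ρ)
        ∂Measure.pi fun _ => stdGaussian (EuclideanSpace ℝ (Fin N ⊕ Fin d))) -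
    poissonMean (α * N * (1 - ε) / ε) (fun M => ∫ g : Fin M → EuclideanSpace ℝ (Fin d),
        Real.log (∫ x, Real.exp (∑ b, f ⟪g b, x⟫) ∂ρ)
        ∂Measure.pi fun _ => stdGaussian (EuclideanSpace ℝ (Fin d)))) / N

/-- Cavity functional of the spherical perceptron. -/
noncomputable def sphereCavity (f : ℝ → ℝ) (α : ℝ) (N d : ℕ)
    (ρ : Measure (EuclideanSpace ℝ (Fin d))) (ε : ℝ) : ℝ :=
  (poissonMean (α * N / ε) (fun M => ∫ g : Fin M → EuclideanSpace ℝ (Fin N ⊕ Fin d),
        Real.log (∫ x, (∫ u, Real.exp (∑ b, f (Real.sqrt ε *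
            ((∑ i, g b (Sum.inl i) * (Real.sqrt N *
              (u : EuclideanSpace ℝ (Fin N)) i)) / Real.sqrt N) +
          Real.sqrt (1 - ε) * ∑ j, g b (Sum.inr j) * x j)) ∂unitSphereUniform N) ∂ρ)
        ∂Measure.pi fun _ => stdGaussian (EuclideanSpace ℝ (Fin N ⊕ Fin d))) -
    poissonMean (α * N * (1 - ε) / ε) (fun M => ∫ g : Fin M → EuclideanSpace ℝ (Fin d),
        Real.log (∫ x, Real.exp (∑ b, f ⟪g b, x⟫) ∂ρ)
        ∂Measure.pi fun _ => stdGaussian (EuclideanSpace ℝ (Fin d)))) / N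

end Vale.Agent.P157
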