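import Vale.Agent.P157.Kernel

/-!
A small Gaussian external field, and merging of independent fields.
-/

namespace Vale.Agent.P157

open MeasureTheory ProbabilityTheory
open scoped RealInnerProductSpace

variable {X : Type} [MeasurableSpace X]
variable {E : Type} [NormedAddCommGroup E] [InnerProductSpace ℝ E] [FiniteDimensional ℝ E]
  [MeasurableSpace E] [BorelSpace E]

/-- The weight of an external field `s • h`. -/
noncomputable def fw (s : ℝ) (v : X → E) (h : E) (x : X) : ℝ := Real.exp (s * ⟪h, v x⟫)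

variable {v : X → E}

lemma abs_inner_le (hv1 : ∀ x, ‖v x‖ = 1) (h : E) (x : X) : |⟪h, v x⟫| ≤ ‖h‖ := by
  simpa [hv1] using abs_real_inner_le_norm h (v x)

lemma mult_fw (hv : Measurable v) (hv1 : ∀ x, ‖v x‖ = 1) (s : ℝ) :
    Mult (stdGaussian E) (fw s v) (fun h => |s| * ‖h‖) where
  meas := by
    have h : Measurable fun z : E × X => s * ⟪z.1, v z.2⟫ :=
      (measurable_fst.inner (hv.comp measurable_snd)).const_mul s
    exact h.exp
  wt h := Wt.exp (β := |s| * ‖h‖) ((measurable_const.inner hv).const_mul s) fun x => by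
    rw [abs_mul]; exact mul_le_mul_of_nonneg_left (abs_inner_le hv1 h x) (abs_nonneg s)
  nonneg h := mul_nonneg (abs_nonneg s) (norm_nonneg h)
  bound h x := by
    rw [fw, Real.log_exp, abs_mul]
    exact mul_le_mul_of_nonneg_left (abs_inner_le hv1 h x) (abs_nonneg s)
  int := by
    have h := integrable_norm_pow (E := E) 1
    simpa using h.const_mul |s|

lemma avg_fw_zero {Φ : (X → ℝ) → ℝ} {w : X → ℝ} :
    avg (stdGaussian E) (fw 0 v) Φ w = Φ w := by
  simp [avg, fw]

/-- Two independent fields merge into one. -/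
lemma avg_fw_avg (hv : Measurable v) (hv1 : ∀ x, ‖v x‖ = 1) {σ s σ' : ℝ}
    (h : σ ^ 2 + s ^ 2 = σ' ^ 2) {Φ : (X → ℝ) → ℝ} {K : ℝ} (hΦ : Nice Φ K) {w : X → ℝ} (hw : Wt w) :
    avg (stdGaussian E) (fw σ v) (avg (stdGaussian E) (fw s v) Φ) w =
      avg (stdGaussian E) (fw σ' v) Φ w := by
  set γ := stdGaussian E
  set G : E → ℝ := fun g => Φ fun x => w x * Real.exp (⟪g, v x⟫) with hG
  have hGm : Measurable G := by
    refine hΦ.meas E (fun g x => w x * Real.exp ⟪g, v x⟫) ?_ fun g =>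
      hw.mul (Wt.exp (β := ‖g‖) (measurable_const.inner hv) fun x => abs_inner_le hv1 g x)
    exact (hw.meas.comp measurable_snd).mul (measurable_fst.inner (hv.comp measurable_snd)).exp
  have hGi : Integrable (fun p : E × E => G (σ • p.1 + s • p.2)) (γ.prod γ) := by
    refine Integrable.mono' (g := fun p => |Φ w| + K * (1 + (|σ| * ‖p.1‖ + |s| * ‖p.2‖))) ?_
      (hGm.comp (by fun_prop)).aestronglyMeasurable (Filter.Eventually.of_forall fun p => ?_)
    · exact (integrable_const _).add (((integrable_const _).add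
        (((mult_fw hv hv1 σ).int.comp_fst γ).add ((mult_fw hv hv1 s).int.comp_snd γ))).const_mul K)
    · have hn : ∀ x, |⟪σ • p.1 + s • p.2, v x⟫| ≤ |σ| * ‖p.1‖ + |s| * ‖p.2‖ := fun x => by
        refine (abs_inner_le hv1 _ x).trans ((norm_add_le _ _).trans ?_)
        simp [norm_smul]
      have hl := hΦ.lip w (fun x => Real.exp ⟪σ • p.1 + s • p.2, v x⟫)
        (|σ| * ‖p.1‖ + |s| * ‖p.2‖) hw
        (Wt.exp (measurable_const.inner hv) hn) (by positivity) (fun x => by
          rw [Real.log_exp]; exact hn x)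
      rw [Real.norm_eq_abs]
      simp only [hG]
      linarith [abs_sub_abs_le_abs_sub (Φ fun x => w x * Real.exp ⟪σ • p.1 + s • p.2, v x⟫) (Φ w)]
  calc avg γ (fw σ v) (avg γ (fw s v) Φ) w
      = ∫ h₁, ∫ h₂, G (σ • h₁ + s • h₂) ∂γ ∂γ := by
        simp only [avg, hG, fw, inner_add_left, real_inner_smul_left, Real.exp_add, mul_assoc]
    _ = ∫ p, G (σ • p.1 + s • p.2) ∂γ.prod γ := (integral_prod _ hGi).symm
    _ = ∫ g, G g ∂(γ.prod γ).map (fun p => σ • p.1 + s • p.2) := by
        rw [integral_map (Measurable.aemeasurable (by fun_prop)) hGm.aestronglyMeasurable]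
    _ = ∫ g, G g ∂γ.map (fun g => σ' • g) := by rw [gauss_add h]
    _ = avg γ (fw σ' v) Φ w := by
        rw [integral_map (Measurable.aemeasurable (by fun_prop)) hGm.aestronglyMeasurable]
        simp only [avg, hG, fw, real_inner_smul_left]

/-- The cubic Taylor polynomial is below the exponential. -/
lemma exp_cubic (u : ℝ) : 1 + u + u ^ 2 / 2 + u ^ 3 / 6 ≤ Real.exp u := by
  have hsmall : ∀ x : ℝ, |x| ≤ 1 → 1 + x + x ^ 2 / 2 + x ^ 3 / 6 ≤ Real.exp x := fun x hx => by
    have h := (abs_le.1 (Real.exp_bound hx (n := 5) (by norm_num))).1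
    simp only [Finset.sum_range_succ, Finset.sum_range_zero, Nat.factorial] at h
    norm_num at h
    have h5 : |x| ^ 5 ≤ x ^ 4 := by
      rw [show x ^ 4 = |x| ^ 4 by rw [pow_abs, abs_of_nonneg (by positivity : 0 ≤ x ^ 4)]]
      exact pow_le_pow_of_le_one (abs_nonneg x) hx (by norm_num)
    have h4 : 0 ≤ x ^ 4 := by positivity
    linarith
  rcases le_or_gt 0 u with hu | hu
  · have h := Real.sum_le_exp_of_nonneg hu 4
    simp only [Finset.sum_range_succ, Finset.sum_range_zero, Nat.factorial] at h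
    norm_num at h
    linarith
  · rcases le_or_gt (-2) u with h2 | h2
    · have h := hsmall (u / 2) (abs_le.2 ⟨by linarith, by linarith⟩)
      have hP : 0 ≤ 1 + u / 2 + (u / 2) ^ 2 / 2 + (u / 2) ^ 3 / 6 := by nlinarith [sq_nonneg u]
      refine le_trans ?_ ((mul_self_le_mul_self hP h).trans_eq (by rw [← Real.exp_add, add_halves]))
      nlinarith [sq_nonneg u, sq_nonneg (u + 2), mul_nonneg (sq_nonneg u) (sq_nonneg (u + 2)),
        pow_nonneg (sq_nonneg u) 2, pow_nonneg (sq_nonneg u) 3]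
    · refine le_trans ?_ (Real.exp_pos u).le
      nlinarith [sq_nonneg (u + 2), sq_nonneg u]

/-- The constant of the field bound. -/
noncomputable def fieldC (E : Type) [NormedAddCommGroup E] [InnerProductSpace ℝ E]
    [FiniteDimensional ℝ E] [MeasurableSpace E] [BorelSpace E] : ℝ :=
  ∫ h : E, (2 * ‖h‖ ^ 3 + 12 * (‖h‖ ^ 4 + ‖h‖ ^ 6)) ∂stdGaussian E

/-- Lower bound for a small field. -/
theorem field_step {ρ : Measure X} [IsProbabilityMeasure ρ] (hv : Measurable v)
    (hv1 : ∀ x, ‖v x‖ = 1) {δ : ℝ} (hδ0 : 0 ≤ δ) (hδ1 : δ ≤ 1) :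
    δ / 2 * (1 - ‖∫ x, v x ∂ρ‖ ^ 2) - δ * Real.sqrt δ * fieldC E ≤
      ∫ h, Real.log (∫ x, Real.exp (Real.sqrt δ * ⟪h, v x⟫) ∂ρ) ∂stdGaussian E := by
  set s := Real.sqrt δ
  set m := ∫ x, v x ∂ρ
  set γ := stdGaussian E
  have hs0 : 0 ≤ s := Real.sqrt_nonneg δ
  have hss : s ^ 2 = δ := Real.sq_sqrt hδ0
  have hs1 : s ≤ 1 := by nlinarith
  have hvi : Integrable v ρ := Integrable.mono' (integrable_const (1 : ℝ)) hv.aestronglyMeasurable
    (Filter.Eventually.of_forall fun x => (hv1 x).le)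
  have hm1 : ‖m‖ ≤ 1 := (norm_integral_le_of_norm_le_const (μ := ρ) (C := 1)
    (Filter.Eventually.of_forall fun x => (hv1 x).le)).trans_eq (by simp)
  have hwm : Measurable fun z : E × X => ⟪z.1, v z.2 - m⟫ :=
    measurable_fst.inner ((hv.comp measurable_snd).sub_const m)
  have hwb : ∀ h x, |⟪h, v x - m⟫| ≤ 2 * ‖h‖ := fun h x => by
    refine (abs_real_inner_le_norm h _).trans ?_
    rw [mul_comm 2]
    exact mul_le_mul_of_nonneg_left ((norm_sub_le _ _).trans (by linarith [hv1 x])) (norm_nonneg h)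
  have hk : ∀ h (k : ℕ), Integrable (fun x => ⟪h, v x - m⟫ ^ k) ρ := fun h k =>
    Integrable.mono' (integrable_const ((2 * ‖h‖) ^ k))
      ((hwm.comp measurable_prodMk_left).pow_const k).aestronglyMeasurable
      (Filter.Eventually.of_forall fun x => by
        rw [Real.norm_eq_abs, abs_pow]; exact pow_le_pow_left₀ (abs_nonneg _) (hwb h x) k)
  set M2 : E → ℝ := fun h => ∫ x, ⟪h, v x - m⟫ ^ 2 ∂ρ
  set P : E → ℝ := fun h => s * ⟪h, m⟫ + δ / 2 * M2 h -
    δ * s * (2 * ‖h‖ ^ 3 + 12 * (‖h‖ ^ 4 + ‖h‖ ^ 6))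
  have hpt : ∀ h, P h ≤ Real.log (∫ x, Real.exp (s * ⟪h, v x⟫) ∂ρ) := fun h => by
    set Z := ∫ x, Real.exp (s * ⟪h, v x - m⟫) ∂ρ
    have hZi : Integrable (fun x => Real.exp (s * ⟪h, v x - m⟫)) ρ :=
      (Wt.exp (β := s * (2 * ‖h‖)) ((hwm.comp measurable_prodMk_left).const_mul s) fun x => by
        rw [abs_mul, abs_of_nonneg hs0]; exact mul_le_mul_of_nonneg_left (hwb h x) hs0).integrable
    have hsplit : Real.log (∫ x, Real.exp (s * ⟪h, v x⟫) ∂ρ) = s * ⟪h, m⟫ + Real.log Z := by
      have e : ∀ x, Real.exp (s * ⟪h, v x⟫) =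
          Real.exp (s * ⟪h, m⟫) * Real.exp (s * ⟪h, v x - m⟫) := fun x => by
        rw [← Real.exp_add, inner_sub_right]; ring_nf
      simp only [e]
      rw [integral_const_mul, Real.log_mul (Real.exp_pos _).ne'
        (integral_exp_pos hZi).ne', Real.log_exp]
    have h1 : ∫ x, ⟪h, v x - m⟫ ∂ρ = 0 := by
      rw [_root_.integral_inner (f := fun x => v x - m) (hvi.sub (integrable_const m)),
        integral_sub hvi (integrable_const m)]
      simp [m]
    have hk1 : Integrable (fun x => ⟪h, v x - m⟫) ρ := by simpa using hk h 1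
    have hZ1 : 1 + δ / 2 * M2 h + s ^ 3 / 6 * ∫ x, ⟪h, v x - m⟫ ^ 3 ∂ρ ≤ Z := by
      have hb : ∀ u : ℝ, 1 + u + u ^ 2 / 2 + u ^ 3 / 6 ≤ Real.exp u := exp_cubic
      have hi := ((integrable_const (1 : ℝ)).add (hk1.const_mul s)).add
        (((hk h 2).const_mul (δ / 2)).add ((hk h 3).const_mul (s ^ 3 / 6)))
      refine le_trans (le_of_eq ?_) (integral_mono hi hZi fun x => ?_)
      · simp only [Pi.add_apply]
        rw [integral_add ((integrable_const (1 : ℝ)).fun_add (hk1.const_mul s))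
            (((hk h 2).const_mul (δ / 2)).fun_add ((hk h 3).const_mul (s ^ 3 / 6))),
          integral_add (integrable_const (1 : ℝ)) (hk1.const_mul s),
          integral_add ((hk h 2).const_mul (δ / 2)) ((hk h 3).const_mul (s ^ 3 / 6)),
          integral_const_mul, integral_const_mul, integral_const_mul, h1]
        simp [M2]
        ring
      · have := hb (s * ⟪h, v x - m⟫)
        simp only [Pi.add_apply]
        rw [← hss]
        nlinarith
    have hZ0 : 1 ≤ Z := by
      refine le_trans (le_of_eq ?_) (integral_mono ((hk1.const_mul s).add (integrable_const 1))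
        hZi fun x => Real.add_one_le_exp _)
      simp only [Pi.add_apply]
      rw [integral_add (hk1.const_mul s) (integrable_const 1), integral_const_mul, h1]
      simp
    have hM2 : |M2 h| ≤ (2 * ‖h‖) ^ 2 := by
      rw [← Real.norm_eq_abs]
      refine (norm_integral_le_of_norm_le_const (μ := ρ) (C := (2 * ‖h‖) ^ 2)
        (Filter.Eventually.of_forall fun x => ?_)).trans_eq (by simp)
      rw [Real.norm_eq_abs, abs_pow]
      exact pow_le_pow_left₀ (abs_nonneg _) (hwb h x) 2
    have hM3 : |∫ x, ⟪h, v x - m⟫ ^ 3 ∂ρ| ≤ (2 * ‖h‖) ^ 3 := by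
      rw [← Real.norm_eq_abs]
      refine (norm_integral_le_of_norm_le_const (μ := ρ) (C := (2 * ‖h‖) ^ 3)
        (Filter.Eventually.of_forall fun x => ?_)).trans_eq (by simp)
      rw [Real.norm_eq_abs, abs_pow]
      exact pow_le_pow_left₀ (abs_nonneg _) (hwb h x) 3
    set t := δ / 2 * M2 h + s ^ 3 / 6 * ∫ x, ⟪h, v x - m⟫ ^ 3 ∂ρ
    have hlog : t - t ^ 2 ≤ Real.log Z := by
      rcases le_or_gt t 0 with ht | ht
      · have := Real.log_nonneg hZ0
        nlinarith [sq_nonneg t]
      · refine le_trans ?_ (Real.log_le_log (by linarith) (show 1 + t ≤ Z by simp only [t]; linarith))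
        have := Real.one_sub_inv_le_log_of_pos (show (0 : ℝ) < 1 + t by linarith)
        refine le_trans ?_ this
        rw [← sub_nonneg]
        have e : 1 - (1 + t)⁻¹ - (t - t ^ 2) = t ^ 3 / (1 + t) := by field_simp; ring
        rw [e]; positivity
    rw [hsplit]
    simp only [P]
    -- the quadratic correction
    have hs3 : s ^ 3 = δ * s := by rw [← hss]; ring
    have habs : |t| ≤ δ * (2 * ‖h‖ ^ 2 + 2 * ‖h‖ ^ 3) := by
      refine (abs_add_le _ _).trans ?_
      rw [abs_mul, abs_mul, abs_of_nonneg (by positivity : (0:ℝ) ≤ δ / 2),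
        abs_of_nonneg (by positivity : (0:ℝ) ≤ s ^ 3 / 6)]
      have hs3' : s ^ 3 ≤ δ := by rw [hs3]; nlinarith
      have := norm_nonneg h
      have hn3 : 0 ≤ ‖h‖ ^ 3 := by positivity
      nlinarith [mul_le_mul_of_nonneg_left hM2 (by positivity : (0:ℝ) ≤ δ / 2),
        mul_le_mul_of_nonneg_left hM3 (by positivity : (0:ℝ) ≤ s ^ 3 / 6),
        mul_le_mul_of_nonneg_right hs3' hn3]
    have hδs : δ ^ 2 ≤ δ * s := by
      rw [sq]; exact mul_le_mul_of_nonneg_left (by nlinarith) hδ0
    have ht2 : t ^ 2 ≤ δ * s * (8 * (‖h‖ ^ 4 + ‖h‖ ^ 6)) := by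
      rw [← sq_abs]
      refine (pow_le_pow_left₀ (abs_nonneg _) habs 2).trans ?_
      rw [mul_pow]
      refine mul_le_mul hδs ?_ (sq_nonneg _) (by positivity)
      nlinarith [sq_nonneg (2 * ‖h‖ ^ 2 - 2 * ‖h‖ ^ 3)]
    have h3low : -(δ * s * (2 * ‖h‖ ^ 3)) ≤ s ^ 3 / 6 * ∫ x, ⟪h, v x - m⟫ ^ 3 ∂ρ := by
      rw [hs3]
      have := (abs_le.1 hM3).1
      have hds : 0 ≤ δ * s := mul_nonneg hδ0 hs0
      have hn : 0 ≤ δ * s * ‖h‖ ^ 3 := by positivity
      nlinarith [mul_le_mul_of_nonneg_left this hds]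
    have hpos : 0 ≤ δ * s * (‖h‖ ^ 4 + ‖h‖ ^ 6) := by positivity
    simp only [t] at hlog ht2
    linarith
  have hM2i : Integrable M2 γ := by
    refine Integrable.mono' ((integrable_norm_pow (E := E) 2).const_mul 4)
      ((hwm.pow_const 2).stronglyMeasurable.integral_prod_right' (ν := ρ)).aestronglyMeasurable
      (Filter.Eventually.of_forall fun h => ?_)
    refine (norm_integral_le_of_norm_le_const (μ := ρ) (C := (2 * ‖h‖) ^ 2)
      (Filter.Eventually.of_forall fun x => ?_)).trans_eq (by simp; ring)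
    rw [Real.norm_eq_abs, abs_pow]
    exact pow_le_pow_left₀ (abs_nonneg _) (hwb h x) 2
  have hM2v : ∫ h, M2 h ∂γ = 1 - ‖m‖ ^ 2 := by
    simp only [M2]
    rw [integral_integral_swap (f := fun h x => ⟪h, v x - m⟫ ^ 2) (Integrable.mono'
      (((integrable_norm_pow (E := E) 2).const_mul 4).comp_fst ρ)
      (hwm.pow_const 2).aestronglyMeasurable (Filter.Eventually.of_forall fun z => by
        rw [Function.uncurry, Real.norm_eq_abs, abs_pow]
        exact (pow_le_pow_left₀ (abs_nonneg _) (hwb z.1 z.2) 2).trans_eq (by ring)))]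
    simp only [γ, integral_inner_sq, norm_sub_sq_real, hv1]
    have hi : Integrable (fun x => ⟪v x, m⟫) ρ := hvi.inner_const m
    rw [integral_add ((integrable_const ((1 : ℝ) ^ 2)).sub' (hi.const_mul 2))
        (integrable_const (‖m‖ ^ 2)),
      integral_sub (integrable_const _) (hi.const_mul 2), integral_const_mul]
    simp only [real_inner_comm m, _root_.integral_inner hvi, integral_const, probReal_univ, one_smul]
    rw [show ⟪m, ∫ x, v x ∂ρ⟫ = ‖m‖ ^ 2 from real_inner_self_eq_norm_sq m]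
    ring
  have hNi : Integrable (fun h : E => 2 * ‖h‖ ^ 3 + 12 * (‖h‖ ^ 4 + ‖h‖ ^ 6)) γ :=
    ((integrable_norm_pow 3).const_mul 2).add
      (((integrable_norm_pow 4).add (integrable_norm_pow 6)).const_mul 12)
  have hPi : Integrable P γ :=
    (((integrable_inner m).const_mul s).add (hM2i.const_mul (δ / 2))).sub (hNi.const_mul (δ * s))
  have hLi : Integrable (fun h => Real.log (∫ x, Real.exp (s * ⟪h, v x⟫) ∂ρ)) γ := by
    have h := integrable_avg (mult_fw hv hv1 s) (nice_logI (μ := ρ)) (Wt.one)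
    simpa [logI, fw] using h
  refine le_trans (le_of_eq ?_) (integral_mono hPi hLi hpt)
  simp only [P]
  rw [integral_sub (((integrable_inner m).const_mul s).fun_add (hM2i.const_mul (δ / 2)))
      (hNi.const_mul (δ * s)),
    integral_add ((integrable_inner m).const_mul s) (hM2i.const_mul (δ / 2)), integral_const_mul,
    integral_const_mul, integral_const_mul, hM2v, integral_inner, fieldC]
  simp only [γ, s]
  ring

end Vale.Agent.P157
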