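import Vale.Agent.P157.Defs
import Vale.Agent.P157.Sphere

/-!
From the recursion to the pressures of the model.
-/

namespace Vale.Agent.P157

open MeasureTheory ProbabilityTheory Filter
open scoped RealInnerProductSpace Topology

variable {f : ℝ → ℝ} {B a : ℝ} {ν : Measure ℝ}

/-- The symmetrisation of a finite measure gives the same kernel. -/
lemma ker_symmetrise [IsFiniteMeasure ν] (hlt : ν.real Set.univ < a)
    (heq : ∀ x, Real.exp (f x) = a - ∫ t, Real.cos (t * x) ∂ν) :
    Ker f a ((2 : ENNReal)⁻¹ • (ν + ν.map Neg.neg)) := by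
  have h2 : (2 : ENNReal)⁻¹ ≠ ⊤ := by simp
  have hm : (ν.map Neg.neg).map Neg.neg = ν := by
    rw [Measure.map_map measurable_neg measurable_neg]
    have : (Neg.neg ∘ Neg.neg : ℝ → ℝ) = id := funext fun x => neg_neg x
    rw [this, Measure.map_id]
  refine ⟨?_, ?_, ?_, fun x => ?_⟩
  · exact Measure.smul_finite _ h2
  · rw [Measure.map_smul, Measure.map_add _ _ measurable_neg, hm, add_comm]
  · refine lt_of_eq_of_lt ?_ hlt
    have hu : (ν.map Neg.neg) Set.univ = ν Set.univ := by
      rw [Measure.map_apply measurable_neg MeasurableSet.univ, Set.preimage_univ]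
    simp only [measureReal_def, Measure.smul_apply, Measure.add_apply, hu, smul_eq_mul,
      ENNReal.toReal_mul, ENNReal.toReal_inv, ENNReal.toReal_ofNat,
      ENNReal.toReal_add (measure_ne_top ν _) (measure_ne_top ν _)]
    ring
  · rw [heq x]
    congr 1
    have hi : ∀ m : Measure ℝ, IsFiniteMeasure m → Integrable (fun t => Real.cos (t * x)) m :=
      fun m _ => Integrable.mono' (integrable_const (1 : ℝ)) (Continuous.aestronglyMeasurable (by fun_prop))
        (Filter.Eventually.of_forall fun t => by simpa using Real.abs_cos_le_one (t * x))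
    rw [integral_smul_measure, integral_add_measure (hi ν inferInstance) (hi _ inferInstance),
      integral_map measurable_neg.aemeasurable (Continuous.aestronglyMeasurable (by fun_prop))]
    simp only [neg_mul, Real.cos_neg, ENNReal.toReal_inv, ENNReal.toReal_ofNat, smul_eq_mul]
    ring

lemma cubeF_eq (hf : Pot f B) (N k : ℕ) : cubeF f N k / N = cubePressure f N k := by
  rw [cubeF, L_eq_integral hf (measurable_of_finite _) k _ Wt.one, cubePressure]
  congr 1
  refine integral_congr_ae (Filter.Eventually.of_forall fun g => ?_)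
  simp only [one_mul, integral_cube]
  congr 1
  congr 1
  refine Finset.sum_congr rfl fun σ _ => congrArg Real.exp (Finset.sum_congr rfl fun b _ => congrArg f ?_)
  rw [cubeVec, real_inner_smul_right, div_eq_inv_mul]
  congr 1
  simp [PiLp.inner_apply, sgn, mul_comm]

lemma sphereF_eq (hf : Pot f B) {N : ℕ} (hN : 1 ≤ N) (k : ℕ) :
    sphereF f N k / N = spherePressure f N k := by
  have := isProbabilityMeasure_sphereMeasure hN
  rw [sphereF, L_eq_integral hf measurable_subtype_coe k _ Wt.one, spherePressure]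
  congr 1
  refine integral_congr_ae (Filter.Eventually.of_forall fun g => ?_)
  have hs : Real.sqrt N ≠ 0 := Real.sqrt_ne_zero'.2 (by exact_mod_cast hN)
  simp only [one_mul, real_inner_smul_right, mul_div_cancel_left₀ _ hs]
  rfl

lemma poiE_div (lam c : ℝ) (F : ℕ → ℝ) : poiE lam F / c = poiE lam fun k => F k / c := by
  rw [poiE, poiE, ← tsum_div_const]
  exact tsum_congr fun k => by ring

lemma poiE_eq_poissonMean (lam : ℝ) (F : ℕ → ℝ) : poiE lam F = poissonMean lam F := rfl

/-- The limit, identified as the least upper bound of the Poisson pressures. -/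
lemma SuperAdd.limit_spec {F : ℕ → ℕ → ℝ} {C : ℝ} (hF : SuperAdd F C) {α : ℝ} (hα : 0 < α)
    {P : ℕ → ℕ → ℝ} (hP : ∀ N, 1 ≤ N → ∀ k, F N k / N = P N k) :
    Tendsto (fun N : ℕ => P N ⌊α * N⌋₊) atTop (𝓝 (hF.limit α)) ∧
      IsLUB (Set.range fun N : ℕ => poissonMean (α * (N + 1)) (P (N + 1))) (hF.limit α) := by
  refine ⟨(hF.tendsto_limit hα).congr' ?_, ?_⟩
  · filter_upwards [eventually_ge_atTop 1] with N hN using hP N hN _
  · have e : (fun N : ℕ => poissonMean (α * (N + 1)) (P (N + 1))) =
        fun m : ℕ => poiE (α * ((m : ℝ) + 1)) (F (m + 1)) / ((m : ℝ) + 1) := by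
      funext m
      rw [poiE_div, ← poiE_eq_poissonMean]
      congr 1
      funext k
      rw [← hP (m + 1) (by omega) k]
      push_cast
      rfl
    rw [e]
    exact isLUB_ciSup (hF.bddAbove hα.le)

/-- Existence of the limit on both configuration spaces. -/
theorem exists_limit [IsFiniteMeasure ν] (hlt : ν.real Set.univ < a)
    (heq : ∀ x, Real.exp (f x) = a - ∫ t, Real.cos (t * x) ∂ν) {α : ℝ} (hα : 0 < α) :
    (∃ p, Tendsto (fun N : ℕ => cubePressure f N ⌊α * N⌋₊) atTop (𝓝 p) ∧
      IsLUB (Set.range fun N : ℕ => poissonMean (α * (N + 1)) (cubePressure f (N + 1))) p) ∧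
    ∃ p, Tendsto (fun N : ℕ => spherePressure f N ⌊α * N⌋₊) atTop (𝓝 p) ∧
      IsLUB (Set.range fun N : ℕ => poissonMean (α * (N + 1)) (spherePressure f (N + 1))) p := by
  have hk := ker_symmetrise hlt heq
  exact ⟨⟨_, (superAdd_cube hk).limit_spec hα fun N _ k => cubeF_eq hk.pot N k⟩,
    ⟨_, (superAdd_sphere hk).limit_spec hα fun N hN k => sphereF_eq hk.pot hN k⟩⟩

end Vale.Agent.P157
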