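import Vale.Agent.P157.Entropy
import Vale.Agent.P157.Model

/-!
The replica-symmetric upper bounds for the limits.
-/

namespace Vale.Agent.P157

open MeasureTheory ProbabilityTheory Filter Complex
open scoped RealInnerProductSpace Topology

variable {f : ℝ → ℝ} {a : ℝ} {ν : Measure ℝ} {q α : ℝ}

lemma gardner_inner (hk : Ker f a ν) (hq0 : 0 ≤ q) (hq1 : q < 1) (y : ℝ) :
    (∫ z, Real.exp (f (Real.sqrt q * y + Real.sqrt (1 - q) * z)) ∂gaussianReal 0 1 = a - rsW ν q y) ∧
    (∫ z, z * Real.exp (f (Real.sqrt q * y + Real.sqrt (1 - q) * z)) ∂gaussianReal 0 1 =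
      Real.sqrt (1 - q) * rsS ν q y) := by
  have := hk.fin
  set γ := gaussianReal 0 1
  set c := Real.sqrt q * y
  set b := Real.sqrt (1 - q)
  have hb : b ^ 2 = 1 - q := Real.sq_sqrt (by linarith)
  have hzint : Integrable (fun z : ℝ => z) γ := IsGaussian.integrable_id
  have hcos : ∀ t, ∫ z, Real.cos (t * (c + b * z)) ∂γ = Real.cos (t * c) * damp q t := fun t => by
    have hi : Integrable (fun z => cexp ((t * (c + b * z) : ℝ) * I)) γ :=
      Integrable.mono' (integrable_const (1 : ℝ)) (Continuous.aestronglyMeasurable (by fun_prop))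
        (Filter.Eventually.of_forall fun z => by simp [Complex.norm_exp])
    have h := congrArg Complex.re (show ∫ z, cexp ((t * (c + b * z) : ℝ) * I) ∂γ =
        cexp ((t * c : ℝ) * I) * cexp (-((t * b : ℝ) : ℂ) ^ 2 / 2) by
      rw [← integral_cexp_gaussian, ← integral_const_mul]
      refine integral_congr_ae (Filter.Eventually.of_forall fun z => ?_)
      simp only
      rw [← Complex.exp_add]; congr 1; push_cast; ring)
    have hre : (∫ z, cexp ((t * (c + b * z) : ℝ) * I) ∂γ).re = ∫ z, Real.cos (t * (c + b * z)) ∂γ :=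
      ((Complex.reCLM.integral_comp_comm hi).symm).trans (integral_congr_ae
        (Filter.Eventually.of_forall fun z => Complex.exp_ofReal_mul_I_re _))
    rw [hre, show -((t * b : ℝ) : ℂ) ^ 2 / 2 = ((-(1 - q) * t ^ 2 / 2 : ℝ) : ℂ) by
        rw [← hb]; push_cast; ring, ← Complex.ofReal_exp, Complex.re_mul_ofReal,
      Complex.exp_ofReal_mul_I_re] at h
    exact h
  have hzcos : ∀ t, ∫ z, z * Real.cos (t * (c + b * z)) ∂γ =
      -(t * b) * (Real.sin (t * c) * damp q t) := fun t => by
    have hi : Integrable (fun z : ℝ => (z : ℂ) * cexp ((t * (c + b * z) : ℝ) * I)) γ :=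
      Integrable.mono' hzint.abs (Continuous.aestronglyMeasurable (by fun_prop))
        (Filter.Eventually.of_forall fun z => by simp [Complex.norm_exp])
    have h := congrArg Complex.re (show ∫ z : ℝ, (z : ℂ) * cexp ((t * (c + b * z) : ℝ) * I) ∂γ =
        cexp ((t * c : ℝ) * I) * (((t * b : ℝ) : ℂ) * I * cexp (-((t * b : ℝ) : ℂ) ^ 2 / 2)) by
      rw [← integral_mul_cexp_gaussian, ← integral_const_mul]
      refine integral_congr_ae (Filter.Eventually.of_forall fun z => ?_)
      simp only
      rw [mul_left_comm, ← Complex.exp_add]; congr 2; push_cast; ring)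
    have hre : (∫ z : ℝ, (z : ℂ) * cexp ((t * (c + b * z) : ℝ) * I) ∂γ).re =
        ∫ z, z * Real.cos (t * (c + b * z)) ∂γ :=
      ((Complex.reCLM.integral_comp_comm hi).symm).trans (integral_congr_ae
        (Filter.Eventually.of_forall fun z => by
          show ((z : ℂ) * cexp ((t * (c + b * z) : ℝ) * I)).re = _
          rw [Complex.re_ofReal_mul, Complex.exp_ofReal_mul_I_re]))
    rw [hre, show -((t * b : ℝ) : ℂ) ^ 2 / 2 = ((-(1 - q) * t ^ 2 / 2 : ℝ) : ℂ) by
        rw [← hb]; push_cast; ring, ← Complex.ofReal_exp] at h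
    rw [h, Complex.mul_re, Complex.exp_ofReal_mul_I_re, Complex.exp_ofReal_mul_I_im]
    simp only [Complex.mul_re, Complex.mul_im, Complex.ofReal_re, Complex.ofReal_im, Complex.I_re,
      Complex.I_im, damp]
    ring
  have hV : ∀ z, Real.exp (f (c + b * z)) = a - ∫ t, Real.cos (t * (c + b * z)) ∂ν := fun z => hk.eq _
  have hin : Integrable (Function.uncurry fun z t => Real.cos (t * (c + b * z))) (γ.prod ν) :=
    Integrable.mono' (integrable_const (1 : ℝ)) (Continuous.aestronglyMeasurable (by fun_prop))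
      (Filter.Eventually.of_forall fun p => by simpa [Function.uncurry] using Real.abs_cos_le_one _)
  have hin2 : Integrable (Function.uncurry fun z t => z * Real.cos (t * (c + b * z))) (γ.prod ν) :=
    Integrable.mono' (hzint.abs.comp_fst ν) (Continuous.aestronglyMeasurable (by fun_prop))
      (Filter.Eventually.of_forall fun p => by
        rw [Function.uncurry, Real.norm_eq_abs, abs_mul]
        exact mul_le_of_le_one_right (abs_nonneg _) (Real.abs_cos_le_one _))
  have hi1 : Integrable (fun z => ∫ t, Real.cos (t * (c + b * z)) ∂ν) γ := hin.integral_prod_left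
  have hi2 : Integrable (fun z => ∫ t, z * Real.cos (t * (c + b * z)) ∂ν) γ := hin2.integral_prod_left
  simp only [hV, mul_sub, ← integral_const_mul]
  constructor
  · rw [integral_sub (integrable_const a) hi1, integral_integral_swap hin]
    simp [hcos, rsW, c]
  · rw [integral_sub (hzint.mul_const a) hi2, integral_integral_swap hin2,
      integral_mul_const, integral_id_gaussianReal]
    simp only [hzcos, zero_mul, zero_sub, rsS, ← integral_neg, ← integral_const_mul]
    refine integral_congr_ae (Filter.Eventually.of_forall fun t => ?_)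
    simp only [c]; ring

lemma gardnerEnergy_eq (hk : Ker f a ν) (hq0 : 0 ≤ q) (hq1 : q < 1) :
    gardnerEnergy f q = rsA a ν q :=
  integral_congr_ae (Filter.Eventually.of_forall fun y => by
    simp only [(gardner_inner hk hq0 hq1 y).1])

lemma gardnerOverlap_eq (hk : Ker f a ν) (hq0 : 0 ≤ q) (hq1 : q < 1) :
    gardnerOverlap f q = rsR a ν q :=
  integral_congr_ae (Filter.Eventually.of_forall fun y => by
    have hb : Real.sqrt (1 - q) ≠ 0 := Real.sqrt_ne_zero'.2 (by linarith)
    simp only [(gardner_inner hk hq0 hq1 y).1, (gardner_inner hk hq0 hq1 y).2,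
      mul_div_cancel_left₀ _ hb])

/-- The limit on the cube is below Gardner's replica-symmetric value at every overlap. -/
theorem limit_le_gardnerIsing (hk : Ker f a ν) (hα : 0 < α) (hq0 : 0 ≤ q) (hq1 : q < 1) :
    (superAdd_cube hk).limit α ≤ gardnerIsing f α q := by
  have hF := superAdd_cube hk
  rw [gardnerIsing, gardnerEnergy_eq hk hq0 hq1, gardnerOverlap_eq hk hq0 hq1]
  refine le_of_tendsto (hF.tendsto_poiE hα) ?_
  filter_upwards [eventually_ge_atTop 1] with N hN
  have hN0 : (0 : ℝ) < N := by exact_mod_cast hN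
  have h := rs_bound (μ := cubeMeasure N) hk (measurable_of_finite _) (norm_cubeVec hN) hq0 hq1
    (mul_nonneg hα.le hN0.le)
  rw [hybrid_cube, show Real.sqrt (α * N * rsR a ν q) / Real.sqrt N = Real.sqrt (α * rsR a ν q) by
    rw [← Real.sqrt_div' _ hN0.le]; congr 1; field_simp] at h
  rw [div_le_iff₀ hN0]
  refine le_trans (le_of_eq rfl) (h.trans (le_of_eq ?_))
  simp only [lcE]
  ring

/-- The limit on the sphere is below the replica-symmetric value at every overlap and multiplier. -/
theorem limit_le_sphere (hk : Ker f a ν) (hα : 0 < α) (hq0 : 0 ≤ q) (hq1 : q < 1) {z : ℝ}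
    (hz : 1 ≤ z) :
    (superAdd_sphere hk).limit α ≤ α * rsA a ν q - α * rsR a ν q * (1 - q) / 2 +
      (z - 1 - Real.log z + α * rsR a ν q / z) / 2 := by
  have hF := superAdd_sphere hk
  set r := α * rsR a ν q
  have hr : 0 ≤ r := mul_nonneg hα.le rsR_nonneg
  have hz0 : 0 < z := by linarith
  set U : ℝ → ℝ := fun ε => α * rsA a ν q - r * (1 - q) / 2 +
    (r / (2 * ((1 - ε) * z)) + ((z - 1) * (1 + ε) - Real.log z) / 2)
  have hε : ∀ ε, 0 < ε → ε < 1 → hF.limit α ≤ U ε := fun ε he he1 => by
    have hC : Tendsto (fun N : ℕ => shellC / (ε ^ 2 * N)) atTop (𝓝 0) := by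
      simp only [← div_div]
      exact tendsto_const_div_atTop_nhds_zero_nat _
    have hlog : Tendsto (fun N : ℕ => Real.log (1 - shellC / (ε ^ 2 * N)) / N) atTop (𝓝 0) := by
      have h1 : Tendsto (fun N : ℕ => Real.log (1 - shellC / (ε ^ 2 * N))) atTop (𝓝 0) := by
        have := ((tendsto_const_nhds (x := (1 : ℝ))).sub hC).log (by norm_num)
        simpa using this
      simpa [div_eq_mul_inv] using h1.mul (tendsto_inv_atTop_nhds_zero_nat (𝕜 := ℝ))
    have hlim : Tendsto (fun N : ℕ => U ε - Real.log (1 - shellC / (ε ^ 2 * N)) / N) atTop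
        (𝓝 (U ε)) := by simpa using (tendsto_const_nhds (x := U ε)).sub hlog
    refine le_of_tendsto_of_tendsto (hF.tendsto_poiE hα) hlim ?_
    filter_upwards [eventually_ge_atTop 1, hC.eventually (Iio_mem_nhds one_pos)] with N hN hC1
    have hN0 : (0 : ℝ) < N := by exact_mod_cast hN
    have := isProbabilityMeasure_sphereMeasure hN
    have h := rs_bound (μ := sphereMeasure N) (v := (Subtype.val : Sph N → _)) hk measurable_subtype_coe
      (fun x => mem_sphere_zero_iff_norm.1 x.2) hq0 hq1
      (mul_nonneg hα.le hN0.le)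
    have h2 := hybrid_sphere (f := f) hN hr hz he he1 hC1
    rw [show r * (N : ℝ) = α * N * rsR a ν q by simp only [r]; ring] at h2
    rw [div_le_iff₀ hN0, sub_mul, div_mul_cancel₀ _ hN0.ne']
    refine le_trans (le_of_eq rfl) (h.trans ((add_le_add h2 le_rfl).trans (le_of_eq ?_)))
    simp only [U, r]
    ring
  have hc : ContinuousAt U 0 := by
    refine continuousAt_const.add ((ContinuousAt.div continuousAt_const (by fun_prop) ?_).add
      (by fun_prop))
    simp [hz0.ne']
  have hev : ∀ᶠ ε in 𝓝[>] (0 : ℝ), hF.limit α ≤ U ε := by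
    filter_upwards [self_mem_nhdsWithin, nhdsWithin_le_nhds (Iio_mem_nhds (zero_lt_one' ℝ))]
      with ε h1 h2 using hε ε h1 h2
  refine (ge_of_tendsto (hc.tendsto.mono_left nhdsWithin_le_nhds) hev).trans (le_of_eq ?_)
  simp only [U, sub_zero, add_zero, one_mul, mul_one]
  field_simp
  ring

/-- The limit on the sphere is below Gardner's replica-symmetric value at every overlap. -/
theorem limit_le_gardnerSphere (hk : Ker f a ν) (hα : 0 < α) (hq0 : 0 ≤ q) (hq1 : q < 1) :
    (superAdd_sphere hk).limit α ≤ gardnerSphere f α q := by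
  have h1 : 0 < 1 - q := by linarith
  refine (limit_le_sphere hk hα hq0 hq1 (z := (1 - q)⁻¹) (one_le_inv_iff₀.2 ⟨h1, by linarith⟩)).trans
    (le_of_eq ?_)
  rw [gardnerSphere, gardnerEnergy_eq hk hq0 hq1, Real.log_inv]
  field_simp
  ring

end Vale.Agent.P157
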