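import Mathlib

/-!
Facts about standard Gaussian vectors used in the interpolations.
-/

namespace Vale.Agent.P157

open MeasureTheory ProbabilityTheory Complex WithLp
open scoped RealInnerProductSpace

variable {E : Type*} [NormedAddCommGroup E] [InnerProductSpace ℝ E] [FiniteDimensional ℝ E]
  [MeasurableSpace E] [BorelSpace E]

lemma integral_cexp_inner (t : E) :
    ∫ g, cexp ((⟪g, t⟫ : ℝ) * I) ∂stdGaussian E = cexp (-((‖t‖ : ℂ) ^ 2) / 2) := by
  have h := charFun_stdGaussian t
  rw [charFun_apply] at h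
  exact h

lemma integral_cexp_gaussian (s : ℝ) :
    ∫ z, cexp ((s * z : ℝ) * I) ∂gaussianReal 0 1 = cexp (-(s : ℂ) ^ 2 / 2) := by
  have h := charFun_gaussianReal (μ := 0) (v := 1) s
  rw [charFun_apply_real] at h
  push_cast
  rw [h]
  congr 1
  push_cast
  ring

lemma integrable_norm_pow (k : ℕ) : Integrable (fun g : E => ‖g‖ ^ k) (stdGaussian E) :=
  (IsGaussian.memLp_id (stdGaussian E) k (by simp)).integrable_norm_pow'

lemma integrable_inner (u : E) : Integrable (fun g : E => ⟪g, u⟫) (stdGaussian E) := by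
  refine Integrable.mono' (g := fun g : E => ‖g‖ * ‖u‖) ?_
    (Continuous.aestronglyMeasurable (by fun_prop))
    (Filter.Eventually.of_forall fun g => by simpa using abs_real_inner_le_norm g u)
  simpa using (integrable_norm_pow (E := E) 1).mul_const ‖u‖

lemma integral_inner (u : E) : ∫ g, ⟪g, u⟫ ∂stdGaussian E = 0 := by
  have h : ∀ g : E, ⟪g, u⟫ = innerSL ℝ u g := fun g => by
    rw [innerSL_apply_apply, real_inner_comm]
  simp only [h]
  exact integral_strongDual_stdGaussian (innerSL ℝ u)

lemma integral_inner_sq (u : E) : ∫ g, ⟪g, u⟫ ^ 2 ∂stdGaussian E = ‖u‖ ^ 2 := by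
  have h : ∀ g : E, ⟪g, u⟫ = innerSL ℝ u g := fun g => by
    rw [innerSL_apply_apply, real_inner_comm]
  have hv := variance_dual_stdGaussian (E := E) (innerSL ℝ u)
  rw [variance_of_integral_eq_zero (ContinuousLinearMap.continuous _).aemeasurable
    (integral_strongDual_stdGaussian _)] at hv
  simp only [h]
  rw [hv, innerSL_apply_norm]

/-- A linear combination of two independent standard Gaussian vectors. -/
lemma gauss_add {a b c : ℝ} (h : a ^ 2 + b ^ 2 = c ^ 2) :
    ((stdGaussian E).prod (stdGaussian E)).map (fun p => a • p.1 + b • p.2) =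
      (stdGaussian E).map (fun g => c • g) := by
  have : IsProbabilityMeasure
      (((stdGaussian E).prod (stdGaussian E)).map (fun p : E × E => a • p.1 + b • p.2)) :=
    Measure.isProbabilityMeasure_map (Measurable.aemeasurable (by fun_prop))
  have : IsProbabilityMeasure ((stdGaussian E).map (fun g : E => c • g)) :=
    Measure.isProbabilityMeasure_map (Measurable.aemeasurable (by fun_prop))
  refine Measure.ext_of_charFun ?_
  funext t
  rw [charFun_apply, charFun_apply, integral_map (Measurable.aemeasurable (by fun_prop))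
      (Continuous.aestronglyMeasurable (by fun_prop)),
    integral_map (Measurable.aemeasurable (by fun_prop))
      (Continuous.aestronglyMeasurable (by fun_prop))]
  have e : ∀ p : E × E, cexp ((⟪a • p.1 + b • p.2, t⟫ : ℝ) * I) =
      cexp ((⟪p.1, a • t⟫ : ℝ) * I) * cexp ((⟪p.2, b • t⟫ : ℝ) * I) := fun p => by
    rw [← Complex.exp_add, inner_add_left, real_inner_smul_left, real_inner_smul_left,
      real_inner_smul_right, real_inner_smul_right]
    push_cast
    ring_nf
  have e2 : ∀ g : E, cexp ((⟪c • g, t⟫ : ℝ) * I) = cexp ((⟪g, c • t⟫ : ℝ) * I) := fun g => by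
    rw [real_inner_smul_left, real_inner_smul_right]
  simp only [e, e2]
  rw [integral_prod_mul (fun g : E => cexp ((⟪g, a • t⟫ : ℝ) * I))
    (fun g : E => cexp ((⟪g, b • t⟫ : ℝ) * I)), integral_cexp_inner, integral_cexp_inner,
    integral_cexp_inner, ← Complex.exp_add]
  congr 1
  have hn : ∀ r : ℝ, ((‖r • t‖ : ℝ) : ℂ) ^ 2 = (r : ℂ) ^ 2 * (‖t‖ : ℂ) ^ 2 := fun r => by
    rw [norm_smul, Real.norm_eq_abs, Complex.ofReal_mul, mul_pow, ← Complex.ofReal_pow, sq_abs,
      Complex.ofReal_pow]
  rw [hn, hn, hn]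
  have : (a : ℂ) ^ 2 + (b : ℂ) ^ 2 = (c : ℂ) ^ 2 := by exact_mod_cast h
  linear_combination (-((‖t‖ : ℂ) ^ 2) / 2) * this

/-- The first moment of a Gaussian against a character. -/
lemma integral_mul_cexp_gaussian (s : ℝ) :
    ∫ z, (z : ℂ) * cexp ((s * z : ℝ) * I) ∂gaussianReal 0 1 =
      (s : ℂ) * I * cexp (-(s : ℂ) ^ 2 / 2) := by
  have hint : Integrable (fun z : ℝ => |z|) (gaussianReal 0 1) :=
    (IsGaussian.integrable_id (μ := gaussianReal 0 1)).abs
  have hd := hasDerivAt_integral_of_dominated_loc_of_deriv_le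
    (μ := gaussianReal 0 1) (F := fun (x : ℝ) (z : ℝ) => cexp ((x * z : ℝ) * I))
    (F' := fun (x : ℝ) (z : ℝ) => cexp ((x * z : ℝ) * I) * ((z : ℂ) * I))
    (x₀ := s) (s := Set.univ) (bound := fun z => |z|) Filter.univ_mem
    (Filter.Eventually.of_forall fun x => Continuous.aestronglyMeasurable (by fun_prop))
    (Integrable.mono' (integrable_const (1 : ℝ)) (Continuous.aestronglyMeasurable (by fun_prop))
      (Filter.Eventually.of_forall fun z => by simp [Complex.norm_exp]))
    (Continuous.aestronglyMeasurable (by fun_prop))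
    (Filter.Eventually.of_forall fun z x _ => by simp [Complex.norm_exp])
    hint
    (Filter.Eventually.of_forall fun z x _ => by
      have h : HasDerivAt (fun x : ℝ => ((x * z : ℝ) : ℂ) * I) ((z : ℂ) * I) x := by
        have := ((hasDerivAt_id x).mul_const z).ofReal_comp.mul_const I
        simpa using this
      exact h.cexp)
  have heq : (fun x : ℝ => ∫ z, cexp ((x * z : ℝ) * I) ∂gaussianReal 0 1) =
      fun x : ℝ => cexp (-(x : ℂ) ^ 2 / 2) := funext integral_cexp_gaussian
  have hd2 : HasDerivAt (fun x : ℝ => cexp (-(x : ℂ) ^ 2 / 2))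
      (cexp (-(s : ℂ) ^ 2 / 2) * (-(s : ℂ))) s := by
    have h1 : HasDerivAt (fun x : ℝ => (x : ℂ)) 1 s := by
      simpa using (hasDerivAt_id s).ofReal_comp
    have h2 : HasDerivAt (fun x : ℝ => -(x : ℂ) ^ 2 / 2) (-(s : ℂ)) s := by
      have := ((h1.pow 2).neg).div_const (2 : ℂ)
      refine this.congr_deriv ?_
      simp
      ring
    exact h2.cexp
  have h := hd.2
  rw [heq] at h
  have huniq := h.unique hd2
  have e : ∫ z, cexp ((s * z : ℝ) * I) * ((z : ℂ) * I) ∂gaussianReal 0 1 =
      (∫ z, (z : ℂ) * cexp ((s * z : ℝ) * I) ∂gaussianReal 0 1) * I := by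
    rw [← integral_mul_const]
    exact integral_congr_ae (Filter.Eventually.of_forall fun z => by ring)
  rw [e] at huniq
  have hI := congrArg (fun w => w * (-I)) huniq
  have hII : I * (-I) = (1 : ℂ) := by rw [mul_neg, Complex.I_mul_I, neg_neg]
  simp only [mul_assoc, hII, mul_one] at hI
  rw [hI]
  ring

end Vale.Agent.P157
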