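import Vale.Agent.P157.Super

/-!
The recursion against the product of Gaussian patterns, changes of variables, and the Ising cube.
-/

namespace Vale.Agent.P157

open MeasureTheory ProbabilityTheory
open scoped RealInnerProductSpace

variable {X : Type} [MeasurableSpace X] {E : Type} [NormedAddCommGroup E] [InnerProductSpace ℝ E]
  [FiniteDimensional ℝ E] [MeasurableSpace E] [BorelSpace E]

lemma abs_log_integral_exp_le {μ : Measure X} [IsProbabilityMeasure μ] {H : X → ℝ}
    (hH : Measurable H) {B : ℝ} (hB : ∀ x, |H x| ≤ B) :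
    |Real.log (∫ x, Real.exp (H x) ∂μ)| ≤ B := by
  have hi : Integrable (fun x => Real.exp (H x)) μ :=
    Integrable.mono' (integrable_const (Real.exp B)) hH.exp.aestronglyMeasurable
      (Filter.Eventually.of_forall fun x => by
        rw [Real.norm_eq_abs, Real.abs_exp, Real.exp_le_exp]; exact (abs_le.1 (hB x)).2)
  have h1 : Real.exp (-B) ≤ ∫ x, Real.exp (H x) ∂μ := by
    simpa using integral_mono (integrable_const (Real.exp (-B))) hi fun x =>
      Real.exp_le_exp.2 (abs_le.1 (hB x)).1
  have h2 : ∫ x, Real.exp (H x) ∂μ ≤ Real.exp B := by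
    simpa using integral_mono hi (integrable_const (Real.exp B)) fun x =>
      Real.exp_le_exp.2 (abs_le.1 (hB x)).2
  have hpos := (Real.exp_pos (-B)).trans_le h1
  exact abs_le.2 ⟨(Real.le_log_iff_exp_le hpos).2 h1, (Real.log_le_iff_le_exp hpos).2 h2⟩

/-- The recursion computes the average over independent patterns. -/
theorem L_eq_integral {μ : Measure X} [IsProbabilityMeasure μ] {f : ℝ → ℝ} {B : ℝ} (hf : Pot f B)
    {v : X → E} (hv : Measurable v) :
    ∀ (k : ℕ) (w : X → ℝ), Wt w → L μ f v k w =
      ∫ g, Real.log (∫ x, w x * Real.exp (∑ a, f ⟪g a, v x⟫) ∂μ)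
        ∂Measure.pi fun _ : Fin k => stdGaussian E := by
  intro k
  induction k with
  | zero => intro w _; simp [L, iter, logI]
  | succ k ih =>
    intro w hw
    set H : (Fin (k + 1) → E) → ℝ :=
      fun g => Real.log (∫ x, w x * Real.exp (∑ a, f ⟪g a, v x⟫) ∂μ)
    have hHm : Measurable H := by
      have h : Measurable fun z : (Fin (k + 1) → E) × X =>
          w z.2 * Real.exp (∑ a, f ⟪z.1 a, v z.2⟫) :=
        (hw.meas.comp measurable_snd).mul (Finset.measurable_sum _ fun a _ => hf.meas.comp
          (((measurable_pi_apply a).comp measurable_fst).inner (hv.comp measurable_snd))).exp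
      exact (h.stronglyMeasurable.integral_prod_right' (ν := μ)).measurable.log
    have hHb : ∀ g, |H g| ≤ |logI μ w| + (1 + (k + 1 : ℕ) * B) := fun g => by
      have hu : Wt fun x => Real.exp (∑ a, f ⟪g a, v x⟫) :=
        Wt.exp (Finset.measurable_sum _ fun a _ => hf.meas.comp (measurable_const.inner hv))
          (β := (k + 1 : ℕ) * B) fun x => (Finset.abs_sum_le_sum_abs _ _).trans
            ((Finset.sum_le_sum fun a _ => hf.bound _).trans_eq (by simp))
      have h := (nice_logI (μ := μ)).lip w _ ((k + 1 : ℕ) * B) hw hu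
        (mul_nonneg (Nat.cast_nonneg _) hf.nonneg) fun x => by
        rw [Real.log_exp]
        exact (Finset.abs_sum_le_sum_abs _ _).trans
          ((Finset.sum_le_sum fun a _ => hf.bound _).trans_eq (by simp))
      simp only [logI, one_mul] at h
      have := abs_sub_abs_le_abs_sub (H g) (logI μ w)
      simp only [logI, H] at this ⊢
      linarith
    have hmp := measurePreserving_piFinSuccAbove (fun _ : Fin (k + 1) => stdGaussian E) 0
    have hint : Integrable (fun p : E × (Fin k → E) => H (Fin.cons p.1 p.2))
        ((stdGaussian E).prod (Measure.pi fun _ : Fin k => stdGaussian E)) :=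
      Integrable.mono' (integrable_const (|logI μ w| + (1 + (k + 1 : ℕ) * B)))
        (hHm.comp (by fun_prop)).aestronglyMeasurable
        (Filter.Eventually.of_forall fun p => (Real.norm_eq_abs _).le.trans (hHb _))
    calc L μ f v (k + 1) w
        = ∫ g0, L μ f v k (fun x => w x * pw f v g0 x) ∂stdGaussian E := rfl
      _ = ∫ g0, ∫ g', H (Fin.cons g0 g') ∂(Measure.pi fun _ : Fin k => stdGaussian E)
            ∂stdGaussian E := by
          refine integral_congr_ae (Filter.Eventually.of_forall fun g0 => ?_)
          simp only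
          rw [ih _ (hw.mul ((mult_pw hf hv).wt g0))]
          refine integral_congr_ae (Filter.Eventually.of_forall fun g' => ?_)
          simp only [H]
          congr 1
          refine integral_congr_ae (Filter.Eventually.of_forall fun x => ?_)
          simp only [pw, Fin.sum_univ_succ, Fin.cons_zero, Fin.cons_succ, Real.exp_add]
          ring
      _ = ∫ p, H (Fin.cons p.1 p.2)
            ∂(stdGaussian E).prod (Measure.pi fun _ : Fin k => stdGaussian E) :=
          (integral_prod (fun p : E × (Fin k → E) => H (Fin.cons p.1 p.2)) hint).symm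
      _ = ∫ g, H g ∂Measure.pi fun _ : Fin (k + 1) => stdGaussian E := by
          rw [← hmp.map_eq, integral_map hmp.measurable.aemeasurable (by
            rw [hmp.map_eq]; exact hint.aestronglyMeasurable)]
          refine integral_congr_ae (Filter.Eventually.of_forall fun g => ?_)
          simp [MeasurableEquiv.piFinSuccAbove, Fin.tail_def]
          exact congrArg H (Fin.cons_self_tail g)

/-- Change of variables in the configuration space. -/
theorem L_map {Y : Type} [MeasurableSpace Y] {μ : Measure X} {μ' : Measure Y} {φ : Y → X}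
    (hφ : Measurable φ) (hμ : μ'.map φ = μ) {f : ℝ → ℝ} {B : ℝ} (hf : Pot f B) {v : X → E}
    (hv : Measurable v) :
    ∀ (k : ℕ) (w : X → ℝ), Wt w → L μ' f (v ∘ φ) k (w ∘ φ) = L μ f v k w := by
  intro k
  induction k with
  | zero =>
    intro w hw
    simp only [L, iter, logI]
    rw [← hμ, integral_map hφ.aemeasurable hw.meas.aestronglyMeasurable]
    rfl
  | succ k ih =>
    intro w hw
    show avg (stdGaussian E) (pw f (v ∘ φ)) (L μ' f (v ∘ φ) k) (w ∘ φ) =
      avg (stdGaussian E) (pw f v) (L μ f v k) w
    refine integral_congr_ae (Filter.Eventually.of_forall fun g => ?_)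
    simp only
    rw [← ih _ (hw.mul ((mult_pw hf hv).wt g))]
    rfl

/-- The uniform measure on the cube. -/
noncomputable def cubeMeasure (N : ℕ) : Measure (Fin N → Bool) :=
  ((Fintype.card (Fin N → Bool) : ENNReal))⁻¹ • Measure.count

instance (N : ℕ) : IsProbabilityMeasure (cubeMeasure N) :=
  ⟨by
    rw [cubeMeasure, Measure.smul_apply, Measure.count_univ, smul_eq_mul]
    simp only [ENat.card_eq_coe_fintype_card, ENat.toENNReal_coe]
    exact ENNReal.inv_mul_cancel (by exact_mod_cast Fintype.card_ne_zero) (ENNReal.natCast_ne_top _)⟩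

lemma integral_cube (N : ℕ) (F : (Fin N → Bool) → ℝ) :
    ∫ σ, F σ ∂cubeMeasure N = (∑ σ, F σ) / (2 : ℝ) ^ N := by
  rw [cubeMeasure, integral_smul_measure, integral_fintype (Integrable.of_finite)]
  simp [div_eq_inv_mul, Measure.real]

/-- A spin. -/
def sgn (b : Bool) : ℝ := if b then 1 else -1

/-- The unit vector of a configuration of the cube. -/
noncomputable def cubeVec (N : ℕ) (σ : Fin N → Bool) : EuclideanSpace ℝ (Fin N) :=
  (Real.sqrt N)⁻¹ • WithLp.toLp 2 fun i => sgn (σ i)

lemma inner_cubeVec (N : ℕ) (σ τ : Fin N → Bool) :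
    ⟪cubeVec N σ, cubeVec N τ⟫ = (∑ i, sgn (σ i) * sgn (τ i)) / N := by
  rw [cubeVec, cubeVec, real_inner_smul_left, real_inner_smul_right, ← mul_assoc, ← mul_inv,
    Real.mul_self_sqrt (Nat.cast_nonneg N), div_eq_inv_mul]
  congr 1
  simp [PiLp.inner_apply, mul_comm]

lemma norm_cubeVec {N : ℕ} (hN : 1 ≤ N) (σ : Fin N → Bool) : ‖cubeVec N σ‖ = 1 := by
  have h : ‖cubeVec N σ‖ ^ 2 = 1 := by
    rw [← real_inner_self_eq_norm_sq, inner_cubeVec]
    have : ∀ b, sgn b * sgn b = 1 := fun b => by cases b <;> simp [sgn]
    simp only [this]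
    have : (N : ℝ) ≠ 0 := by exact_mod_cast (by omega : N ≠ 0)
    simp [this]
  nlinarith [norm_nonneg (cubeVec N σ)]

/-- Expected log-partition function of the Ising perceptron. -/
noncomputable def cubeF (f : ℝ → ℝ) (N k : ℕ) : ℝ :=
  L (cubeMeasure N) f (cubeVec N) k fun _ => 1

/-- Gluing configurations of blocks. -/
def glue {J : Type} {n : J → ℕ} {N : ℕ} (e : ((j : J) × Fin (n j)) ≃ Fin N)
    (x : ∀ j, Fin (n j) → Bool) : Fin N → Bool := fun i => x (e.symm i).1 (e.symm i).2

theorem superAdd_cube_of {f : ℝ → ℝ} {B : ℝ} (hf : Pot f B) (hb : BlockIneq f) :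
    SuperAdd (cubeF f)
      (1 + B) where
  zero N := by simp [cubeF, L, iter, logI]
  lip N k l := L_lipschitz hf (measurable_of_finite _) Wt.one k l
  split J _ n N hn hsum hN M := by
    classical
    have e : ((j : J) × Fin (n j)) ≃ Fin N := Fintype.equivFinOfCardEq (by simp [hsum])
    set φ := glue e with hφ
    have hbij : Function.Bijective φ := by
      refine ⟨fun x y h => ?_, fun σ => ⟨fun j i => σ (e ⟨j, i⟩), ?_⟩⟩
      · funext j i
        have := congrFun h (e ⟨j, i⟩)
        simp only [hφ, glue] at this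
        rwa [e.symm_apply_apply] at this
      · funext i
        simp [hφ, glue]
    have hmap : (Measure.pi fun j => cubeMeasure (n j)).map φ = cubeMeasure N := by
      refine Measure.ext_of_singleton fun σ => ?_
      obtain ⟨x, rfl⟩ := hbij.2 σ
      rw [Measure.map_apply (measurable_of_finite _) (measurableSet_singleton _),
        ← Set.image_singleton (f := φ), hbij.1.preimage_image, ← Set.univ_pi_singleton x,
        Measure.pi_pi]
      simp only [cubeMeasure, Measure.smul_apply, Set.univ_pi_singleton, Set.image_singleton,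
        Measure.count_singleton, smul_eq_mul, mul_one]
      rw [← Fintype.card_congr (Equiv.ofBijective φ hbij), Fintype.card_pi, Nat.cast_prod,
        ENNReal.prod_inv_distrib fun i _ j _ _ => Or.inr (ENNReal.natCast_ne_top _)]
    have hgram : ∀ x y, ⟪(cubeVec N ∘ φ) x, (cubeVec N ∘ φ) y⟫ =
        ∑ j, ((n j : ℝ) / N) * ⟪cubeVec (n j) (x j), cubeVec (n j) (y j)⟫ := fun x y => by
      simp only [Function.comp, inner_cubeVec]
      rw [← e.sum_comp, Fintype.sum_sigma, Finset.sum_div]
      refine Finset.sum_congr rfl fun j _ => ?_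
      have : (n j : ℝ) ≠ 0 := by exact_mod_cast (by have := hn j; omega : n j ≠ 0)
      have he : ∀ i : Fin (n j), sgn (φ x (e ⟨j, i⟩)) * sgn (φ y (e ⟨j, i⟩)) =
          sgn (x j i) * sgn (y j i) := fun i =>
        congrArg (fun p : (j : J) × Fin (n j) => sgn (x p.1 p.2) * sgn (y p.1 p.2))
          (e.symm_apply_apply ⟨j, i⟩)
      simp only [he]
      field_simp
    have hN0 : (N : ℝ) ≠ 0 := by exact_mod_cast (by omega : N ≠ 0)
    have hone : ∑ j, (n j : ℝ) / N = 1 := by
      rw [← Finset.sum_div, ← Nat.cast_sum, hsum, div_self hN0]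
    have h := L_block_of hf (μ := fun j => cubeMeasure (n j)) (u := fun j => cubeVec (n j))
      (fun j => measurable_of_finite _) (v := cubeVec N ∘ φ) (measurable_of_finite _)
      (s := fun j => (n j : ℝ) / N) (fun j => by positivity) hone
      (hb J _ _ _ (fun j => EuclideanSpace ℝ (Fin (n j))) (cubeVec N ∘ φ)
        (fun j x => cubeVec (n j) (x j)) (fun j => (n j : ℝ) / N) (measurable_of_finite _)
        (fun j => measurable_of_finite _) (fun j => by positivity) hone
        (fun j x => norm_cubeVec (hn j) _) hgram) M (fun j _ => 1) fun j => Wt.one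
    refine h.trans (le_of_eq ?_)
    simp only [Finset.prod_const_one]
    exact L_map (measurable_of_finite φ) hmap hf (measurable_of_finite _) M _ Wt.one

theorem superAdd_cube {f : ℝ → ℝ} {a : ℝ} {ν : Measure ℝ} (hk : Ker f a ν) :
    SuperAdd (cubeF f)
      (1 + (|Real.log (a - ν.real Set.univ)| + |Real.log (a + ν.real Set.univ)|)) :=
  superAdd_cube_of hk.pot hk.blockIneq

end Vale.Agent.P157
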