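import Vale.Agent.P157.Gauss

/-!
Averaged log-partition functionals and the recursion that adds one Gaussian pattern at a time.
-/

namespace Vale.Agent.P157

open MeasureTheory ProbabilityTheory
open scoped RealInnerProductSpace

variable {X : Type} [MeasurableSpace X]

/-- A positive weight with bounded logarithm. -/
structure Wt (w : X → ℝ) : Prop where
  meas : Measurable w
  bdd : ∃ β, ∀ x, 0 < w x ∧ |Real.log (w x)| ≤ β

namespace Wt

variable {w u : X → ℝ}

lemma one : Wt (fun _ : X => (1 : ℝ)) := ⟨measurable_const, 0, fun _ => by simp⟩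

lemma mul (hw : Wt w) (hu : Wt u) : Wt fun x => w x * u x := by
  obtain ⟨β, hβ⟩ := hw.bdd
  obtain ⟨β', hβ'⟩ := hu.bdd
  refine ⟨hw.meas.mul hu.meas, β + β', fun x => ⟨mul_pos (hβ x).1 (hβ' x).1, ?_⟩⟩
  rw [Real.log_mul (hβ x).1.ne' (hβ' x).1.ne']
  exact (abs_add_le _ _).trans (add_le_add (hβ x).2 (hβ' x).2)

lemma pos (hw : Wt w) (x : X) : 0 < w x := (hw.bdd.choose_spec x).1

lemma comp {Y : Type} [MeasurableSpace Y] (hw : Wt w) {φ : Y → X} (hφ : Measurable φ) :
    Wt fun y => w (φ y) := by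
  obtain ⟨β, hβ⟩ := hw.bdd
  exact ⟨hw.meas.comp hφ, β, fun y => hβ (φ y)⟩

lemma exp {F : X → ℝ} (hF : Measurable F) {β : ℝ} (hβ : ∀ x, |F x| ≤ β) :
    Wt fun x => Real.exp (F x) :=
  ⟨hF.exp, β, fun x => ⟨Real.exp_pos _, by rw [Real.log_exp]; exact hβ x⟩⟩

variable {μ : Measure X} [IsFiniteMeasure μ]

lemma integrable (hw : Wt w) : Integrable w μ := by
  obtain ⟨β, hβ⟩ := hw.bdd
  refine Integrable.mono' (integrable_const (Real.exp β)) hw.meas.aestronglyMeasurable
    (Filter.Eventually.of_forall fun x => ?_)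
  rw [Real.norm_eq_abs, abs_of_pos (hβ x).1, ← Real.log_le_iff_le_exp (hβ x).1]
  exact (le_abs_self _).trans (hβ x).2

lemma integral_pos [NeZero μ] (hw : Wt w) : 0 < ∫ x, w x ∂μ := by
  rw [integral_pos_iff_support_of_nonneg (fun x => (hw.pos x).le) hw.integrable]
  have : Function.support w = Set.univ := Set.eq_univ_of_forall fun x => (hw.pos x).ne'
  rw [this]
  exact NeZero.pos (μ Set.univ)

end Wt

/-- A functional of weights which is measurable in parameters and Lipschitz in the log-weight. -/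
structure Nice (Φ : (X → ℝ) → ℝ) (K : ℝ) : Prop where
  nonneg : 0 ≤ K
  meas : ∀ (P : Type) [MeasurableSpace P] (W : P → X → ℝ), Measurable (Function.uncurry W) →
    (∀ p, Wt (W p)) → Measurable fun p => Φ (W p)
  lip : ∀ (w u : X → ℝ) (β : ℝ), Wt w → Wt u → 0 ≤ β → (∀ x, |Real.log (u x)| ≤ β) →
    |Φ (fun x => w x * u x) - Φ w| ≤ K * (1 + β)

/-- Random multiplicative perturbations of a weight. -/
structure Mult {P : Type} [MeasurableSpace P] (γ : Measure P) (a : P → X → ℝ) (β : P → ℝ) :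
    Prop where
  meas : Measurable (Function.uncurry a)
  wt : ∀ p, Wt (a p)
  nonneg : ∀ p, 0 ≤ β p
  bound : ∀ p x, |Real.log (a p x)| ≤ β p
  int : Integrable β γ

/-- Average of `Φ` over random perturbations. -/
noncomputable def avg {P : Type} [MeasurableSpace P] (γ : Measure P) (a : P → X → ℝ)
    (Φ : (X → ℝ) → ℝ) (w : X → ℝ) : ℝ :=
  ∫ p, Φ (fun x => w x * a p x) ∂γ

section avg

variable {P : Type} [MeasurableSpace P] {γ : Measure P} [IsProbabilityMeasure γ]
  {a : P → X → ℝ} {β : P → ℝ} {Φ Ψ : (X → ℝ) → ℝ} {K K' : ℝ} {w : X → ℝ}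

lemma integrable_avg (ha : Mult γ a β) (hΦ : Nice Φ K) (hw : Wt w) :
    Integrable (fun p => Φ fun x => w x * a p x) γ := by
  have hm : Measurable fun p => Φ fun x => w x * a p x :=
    hΦ.meas P _ ((hw.meas.comp measurable_snd).mul ha.meas) fun p => hw.mul (ha.wt p)
  refine Integrable.mono' (g := fun p => |Φ w| + K * (1 + β p))
    ((integrable_const _).add (((integrable_const _).add ha.int).const_mul K))
    hm.aestronglyMeasurable (Filter.Eventually.of_forall fun p => ?_)
  have h := hΦ.lip w (a p) (β p) hw (ha.wt p) (ha.nonneg p) (ha.bound p)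
  rw [Real.norm_eq_abs]
  linarith [abs_sub_abs_le_abs_sub (Φ fun x => w x * a p x) (Φ w)]

lemma Nice.avg (ha : Mult γ a β) (hΦ : Nice Φ K) : Nice (Vale.Agent.P157.avg γ a Φ) K where
  nonneg := hΦ.nonneg
  meas Q _ W hW hWt := by
    have h : Measurable fun q : Q × P => Φ fun x => W q.1 x * a q.2 x := by
      refine hΦ.meas (Q × P) (fun q x => W q.1 x * a q.2 x) ?_ fun q => (hWt q.1).mul (ha.wt q.2)
      exact (hW.comp ((measurable_fst.comp measurable_fst).prodMk measurable_snd)).mul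
        (ha.meas.comp ((measurable_snd.comp measurable_fst).prodMk measurable_snd))
    exact (h.stronglyMeasurable.integral_prod_right' (ν := γ)).measurable
  lip w u β' hw hu hβ' hb := by
    simp only [Vale.Agent.P157.avg]
    rw [← integral_sub (integrable_avg ha hΦ (hw.mul hu)) (integrable_avg ha hΦ hw),
      ← Real.norm_eq_abs]
    refine (norm_integral_le_of_norm_le_const (μ := γ) (C := K * (1 + β'))
      (Filter.Eventually.of_forall fun p => ?_)).trans_eq (by simp)
    rw [Real.norm_eq_abs]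
    have h := hΦ.lip (fun x => w x * a p x) u β' (hw.mul (ha.wt p)) hu hβ' hb
    convert h using 4
    funext x
    ring

lemma avg_mono (ha : Mult γ a β) (hΦ : Nice Φ K) (hΨ : Nice Ψ K')
    (h : ∀ w, Wt w → Φ w ≤ Ψ w) (hw : Wt w) : avg γ a Φ w ≤ avg γ a Ψ w :=
  integral_mono (integrable_avg ha hΦ hw) (integrable_avg ha hΨ hw) fun p => h _ (hw.mul (ha.wt p))

lemma avg_add (ha : Mult γ a β) (hΦ : Nice Φ K) (hΨ : Nice Ψ K') (hw : Wt w) :
    avg γ a (fun w => Φ w + Ψ w) w = avg γ a Φ w + avg γ a Ψ w :=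
  integral_add (integrable_avg ha hΦ hw) (integrable_avg ha hΨ hw)

omit [MeasurableSpace X] [IsProbabilityMeasure γ] in
lemma avg_const_mul (c : ℝ) : avg γ a (fun w => c * Φ w) w = c * avg γ a Φ w :=
  integral_const_mul c _

/-- Two independent averages commute. -/
lemma avg_comm {Q : Type} [MeasurableSpace Q] {η : Measure Q} [IsProbabilityMeasure η]
    {b : Q → X → ℝ} {β' : Q → ℝ} (ha : Mult γ a β) (hb : Mult η b β') (hΦ : Nice Φ K) (hw : Wt w) :
    avg γ a (avg η b Φ) w = avg η b (avg γ a Φ) w := by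
  have hint : Integrable (fun z : P × Q => Φ fun x => w x * a z.1 x * b z.2 x) (γ.prod η) := by
    have hm : Measurable fun z : P × Q => Φ fun x => w x * a z.1 x * b z.2 x := by
      refine hΦ.meas (P × Q) (fun z x => w x * a z.1 x * b z.2 x) ?_
        fun z => (hw.mul (ha.wt z.1)).mul (hb.wt z.2)
      exact ((hw.meas.comp measurable_snd).mul
        (ha.meas.comp ((measurable_fst.comp measurable_fst).prodMk measurable_snd))).mul
        (hb.meas.comp ((measurable_snd.comp measurable_fst).prodMk measurable_snd))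
    refine Integrable.mono' (g := fun z => |Φ w| + K * (1 + (β z.1 + β' z.2))) ?_
      hm.aestronglyMeasurable (Filter.Eventually.of_forall fun z => ?_)
    · exact (integrable_const _).add
        (((integrable_const _).add ((ha.int.comp_fst η).add (hb.int.comp_snd γ))).const_mul K)
    · have hu : ∀ x, |Real.log (a z.1 x * b z.2 x)| ≤ β z.1 + β' z.2 := fun x => by
        rw [Real.log_mul ((ha.wt z.1).pos x).ne' ((hb.wt z.2).pos x).ne']
        exact (abs_add_le _ _).trans (add_le_add (ha.bound _ x) (hb.bound _ x))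
      have h := hΦ.lip w (fun x => a z.1 x * b z.2 x) _ hw ((ha.wt z.1).mul (hb.wt z.2))
        (add_nonneg (ha.nonneg _) (hb.nonneg _)) hu
      rw [Real.norm_eq_abs]
      simp only [← mul_assoc] at h
      linarith [abs_sub_abs_le_abs_sub (Φ fun x => w x * a z.1 x * b z.2 x) (Φ w)]
  simp only [avg]
  rw [integral_integral_swap (f := fun p q => Φ fun x => w x * a p x * b q x) hint]
  congr 1
  funext q
  congr 1
  funext p
  congr 1
  funext x
  ring

end avg

lemma Nice.add {Φ Ψ : (X → ℝ) → ℝ} {K K' : ℝ} (hΦ : Nice Φ K) (hΨ : Nice Ψ K') :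
    Nice (fun w => Φ w + Ψ w) (K + K') where
  nonneg := add_nonneg hΦ.nonneg hΨ.nonneg
  meas P _ W hW hWt := (hΦ.meas P W hW hWt).add (hΨ.meas P W hW hWt)
  lip w u β hw hu hβ hb := by
    have h1 := abs_le.1 (hΦ.lip w u β hw hu hβ hb)
    have h2 := abs_le.1 (hΨ.lip w u β hw hu hβ hb)
    rw [abs_le]
    constructor <;> linarith [h1.1, h1.2, h2.1, h2.2]

lemma Nice.const_mul {Φ : (X → ℝ) → ℝ} {K : ℝ} (hΦ : Nice Φ K) (c : ℝ) :
    Nice (fun w => c * Φ w) (|c| * K) where
  nonneg := mul_nonneg (abs_nonneg c) hΦ.nonneg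
  meas P _ W hW hWt := (hΦ.meas P W hW hWt).const_mul c
  lip w u β hw hu hβ hb := by
    rw [← mul_sub, abs_mul, mul_assoc]
    exact mul_le_mul_of_nonneg_left (hΦ.lip w u β hw hu hβ hb) (abs_nonneg c)

lemma Nice.const (c : ℝ) : Nice (fun _ : X → ℝ => c) 0 where
  nonneg := le_rfl
  meas P _ W _ _ := measurable_const
  lip w u β _ _ _ _ := by simp

lemma Nice.sum {ι : Type*} (s : Finset ι) {Φ : ι → (X → ℝ) → ℝ} {K : ι → ℝ}
    (h : ∀ i ∈ s, Nice (Φ i) (K i)) : Nice (fun w => ∑ i ∈ s, Φ i w) (∑ i ∈ s, K i) := by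
  classical
  induction s using Finset.induction_on with
  | empty => simpa using Nice.const (X := X) 0
  | @insert i s hi ih =>
    simp only [Finset.sum_insert hi]
    exact (h i (Finset.mem_insert_self i s)).add (ih fun j hj => h j (Finset.mem_insert_of_mem hj))

/-- A bounded log-potential. -/
structure Pot (f : ℝ → ℝ) (B : ℝ) : Prop where
  meas : Measurable f
  bound : ∀ x, |f x| ≤ B

lemma Pot.nonneg {f : ℝ → ℝ} {B : ℝ} (hf : Pot f B) : 0 ≤ B := (abs_nonneg _).trans (hf.bound 0)

variable {E : Type} [NormedAddCommGroup E] [InnerProductSpace ℝ E] [FiniteDimensional ℝ E]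
  [MeasurableSpace E] [BorelSpace E]

/-- The weight of the pattern `g`. -/
noncomputable def pw (f : ℝ → ℝ) (v : X → E) (g : E) (x : X) : ℝ := Real.exp (f ⟪g, v x⟫)

lemma measurable_pw {f : ℝ → ℝ} {B : ℝ} (hf : Pot f B) {v : X → E} (hv : Measurable v) :
    Measurable (Function.uncurry (pw f v)) := by
  have h : Measurable fun z : E × X => ⟪z.1, v z.2⟫ :=
    measurable_fst.inner (hv.comp measurable_snd)
  exact (hf.meas.comp h).exp

lemma mult_pw {f : ℝ → ℝ} {B : ℝ} (hf : Pot f B) {v : X → E} (hv : Measurable v) :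
    Mult (stdGaussian E) (pw f v) (fun _ => B) where
  meas := measurable_pw hf hv
  wt g := Wt.exp (F := fun x => f ⟪g, v x⟫)
    (hf.meas.comp (measurable_const.inner hv)) fun x => hf.bound _
  nonneg _ := hf.nonneg
  bound g x := by simpa [pw] using hf.bound ⟪g, v x⟫
  int := integrable_const B

/-- Average of `Φ` over `k` Gaussian patterns. -/
noncomputable def iter (f : ℝ → ℝ) (v : X → E) : ℕ → ((X → ℝ) → ℝ) → (X → ℝ) → ℝ
  | 0, Φ => Φ
  | k + 1, Φ => avg (stdGaussian E) (pw f v) (iter f v k Φ)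

/-- The log-partition function. -/
noncomputable def logI (μ : Measure X) (w : X → ℝ) : ℝ := Real.log (∫ x, w x ∂μ)

/-- Expected log-partition function with `k` patterns. -/
noncomputable def L (μ : Measure X) (f : ℝ → ℝ) (v : X → E) (k : ℕ) (w : X → ℝ) : ℝ :=
  iter f v k (logI μ) w

section iter

variable {f : ℝ → ℝ} {B : ℝ} {v : X → E} {Φ Ψ : (X → ℝ) → ℝ} {K K' : ℝ} {w : X → ℝ}

lemma Nice.iter (hf : Pot f B) (hv : Measurable v) (hΦ : Nice Φ K) :
    ∀ k, Nice (Vale.Agent.P157.iter f v k Φ) K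
  | 0 => hΦ
  | k + 1 => Nice.avg (mult_pw hf hv) (Nice.iter hf hv hΦ k)

omit [MeasurableSpace X] [BorelSpace E] in
lemma iter_succ' (k : ℕ) (Φ : (X → ℝ) → ℝ) :
    iter f v (k + 1) Φ = iter f v k (avg (stdGaussian E) (pw f v) Φ) := by
  induction k with
  | zero => rfl
  | succ k ih => rw [iter, ih]; rfl

lemma iter_mono (hf : Pot f B) (hv : Measurable v) (hΦ : Nice Φ K) (hΨ : Nice Ψ K')
    (h : ∀ w, Wt w → Φ w ≤ Ψ w) : ∀ k w, Wt w → iter f v k Φ w ≤ iter f v k Ψ w
  | 0, w, hw => h w hw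
  | k + 1, _, hw => avg_mono (mult_pw hf hv) (hΦ.iter hf hv k) (hΨ.iter hf hv k)
      (iter_mono hf hv hΦ hΨ h k) hw

lemma iter_add (hf : Pot f B) (hv : Measurable v) (hΦ : Nice Φ K) (hΨ : Nice Ψ K') :
    ∀ k w, Wt w → iter f v k (fun w => Φ w + Ψ w) w = iter f v k Φ w + iter f v k Ψ w
  | 0, w, _ => rfl
  | k + 1, w, hw => by
    simp only [iter]
    rw [← avg_add (mult_pw hf hv) (hΦ.iter hf hv k) (hΨ.iter hf hv k) hw]
    exact integral_congr_ae (Filter.Eventually.of_forall fun g =>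
      iter_add hf hv hΦ hΨ k _ (hw.mul ((mult_pw hf hv).wt g)))

omit [MeasurableSpace X] [BorelSpace E] in
lemma iter_const_mul (c : ℝ) : ∀ k w, iter f v k (fun w => c * Φ w) w = c * iter f v k Φ w
  | 0, w => rfl
  | k + 1, w => by
    simp only [iter]
    rw [← avg_const_mul]
    exact integral_congr_ae (Filter.Eventually.of_forall fun g => iter_const_mul c k _)

omit [MeasurableSpace X] in
lemma iter_const (c : ℝ) : ∀ (k : ℕ) (w : X → ℝ), iter f v k (fun _ => c) w = c
  | 0, w => rfl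
  | k + 1, w => by simp [iter, avg, iter_const c k]

lemma iter_sum (hf : Pot f B) (hv : Measurable v) {ι : Type*} (s : Finset ι)
    {Φ : ι → (X → ℝ) → ℝ} {K : ι → ℝ} (hΦ : ∀ i ∈ s, Nice (Φ i) (K i)) (k : ℕ) (hw : Wt w) :
    iter f v k (fun w => ∑ i ∈ s, Φ i w) w = ∑ i ∈ s, iter f v k (Φ i) w := by
  classical
  induction s using Finset.induction_on with
  | empty => simpa using iter_const (f := f) (v := v) 0 k w
  | @insert i s hi ih =>
    simp only [Finset.sum_insert hi]
    rw [iter_add hf hv (hΦ i (Finset.mem_insert_self i s))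
      (Nice.sum s fun j hj => hΦ j (Finset.mem_insert_of_mem hj)) k w hw,
      ih fun j hj => hΦ j (Finset.mem_insert_of_mem hj)]

lemma iter_avg {P : Type} [MeasurableSpace P] {γ : Measure P} [IsProbabilityMeasure γ]
    {a : P → X → ℝ} {β : P → ℝ} (hf : Pot f B) (hv : Measurable v) (ha : Mult γ a β)
    (hΦ : Nice Φ K) : ∀ k w, Wt w → iter f v k (avg γ a Φ) w = avg γ a (iter f v k Φ) w
  | 0, w, _ => rfl
  | k + 1, w, hw => by
    simp only [iter]
    rw [avg_comm ha (mult_pw hf hv) (hΦ.iter hf hv k) hw]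
    exact integral_congr_ae (Filter.Eventually.of_forall fun g =>
      iter_avg hf hv ha hΦ k _ (hw.mul ((mult_pw hf hv).wt g)))

variable {μ : Measure X} [IsProbabilityMeasure μ]

lemma nice_logI : Nice (logI μ) 1 where
  nonneg := zero_le_one
  meas P _ W hW _ := (hW.stronglyMeasurable.integral_prod_right' (ν := μ)).measurable.log
  lip w u β hw hu hβ hb := by
    have hu1 : ∀ x, Real.exp (-β) ≤ u x ∧ u x ≤ Real.exp β := fun x =>
      ⟨(Real.le_log_iff_exp_le (hu.pos x)).1 (abs_le.1 (hb x)).1,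
        (Real.log_le_iff_le_exp (hu.pos x)).1 (abs_le.1 (hb x)).2⟩
    have hI := hw.integral_pos (μ := μ)
    have hJ := (hw.mul hu).integral_pos (μ := μ)
    have h1 : ∫ x, w x * u x ∂μ ≤ Real.exp β * ∫ x, w x ∂μ := by
      rw [← integral_const_mul]
      exact integral_mono (hw.mul hu).integrable (hw.integrable.const_mul _) fun x => by
        rw [mul_comm]; exact mul_le_mul_of_nonneg_right (hu1 x).2 (hw.pos x).le
    have h2 : Real.exp (-β) * ∫ x, w x ∂μ ≤ ∫ x, w x * u x ∂μ := by
      rw [← integral_const_mul]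
      exact integral_mono (hw.integrable.const_mul _) (hw.mul hu).integrable fun x => by
        rw [mul_comm (w x)]; exact mul_le_mul_of_nonneg_right (hu1 x).1 (hw.pos x).le
    have l1 := Real.log_le_log hJ h1
    have l2 := Real.log_le_log (by positivity) h2
    rw [Real.log_mul (Real.exp_pos _).ne' hI.ne', Real.log_exp] at l1 l2
    simp only [logI]
    rw [abs_le]
    constructor <;> linarith

lemma nice_L (hf : Pot f B) (hv : Measurable v) (k : ℕ) : Nice (L μ f v k) 1 :=
  nice_logI.iter hf hv k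

lemma L_succ_sub (hf : Pot f B) (hv : Measurable v) (k : ℕ) (hw : Wt w) :
    |L μ f v (k + 1) w - L μ f v k w| ≤ 1 + B := by
  have hint := integrable_avg (mult_pw hf hv) (nice_L (μ := μ) hf hv k) hw
  have e : L μ f v (k + 1) w - L μ f v k w =
      ∫ g, (L μ f v k (fun x => w x * pw f v g x) - L μ f v k w) ∂stdGaussian E := by
    rw [integral_sub hint (integrable_const _)]
    simp [L, iter, avg]
  rw [e, ← Real.norm_eq_abs]
  refine (norm_integral_le_of_norm_le_const (μ := stdGaussian E) (C := 1 + B)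
    (Filter.Eventually.of_forall fun g => ?_)).trans_eq (by simp)
  rw [Real.norm_eq_abs]
  have h := (nice_L (μ := μ) hf hv k).lip w (pw f v g) B hw ((mult_pw hf hv).wt g) hf.nonneg
    ((mult_pw hf hv).bound g)
  linarith

lemma L_lipschitz (hf : Pot f B) (hv : Measurable v) (hw : Wt w) (k l : ℕ) :
    |L μ f v k w - L μ f v l w| ≤ (1 + B) * |(k : ℝ) - l| := by
  wlog h : l ≤ k generalizing k l with H
  · rw [abs_sub_comm, abs_sub_comm (k : ℝ)]; exact H l k (by omega)
  induction k, h using Nat.le_induction with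
  | base => simp
  | succ k hk ih =>
    have h2 := L_succ_sub (μ := μ) hf hv k hw
    have e : |((k + 1 : ℕ) : ℝ) - l| = |(k : ℝ) - l| + 1 := by
      have : (l : ℝ) ≤ k := by exact_mod_cast hk
      push_cast
      rw [abs_of_nonneg (by linarith), abs_of_nonneg (by linarith)]
      ring
    rw [e]
    have := abs_le.1 h2
    have := abs_le.1 ih
    rw [abs_le]
    constructor <;> nlinarith

lemma abs_L_one (hf : Pot f B) (hv : Measurable v) (k : ℕ) :
    |L μ f v k (fun _ => 1)| ≤ (1 + B) * ((k : ℝ) + 1) := by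
  have h := L_lipschitz (μ := μ) hf hv Wt.one k 0
  have h0 : L μ f v 0 (fun _ => (1 : ℝ)) = 0 := by simp [L, iter, logI]
  rw [h0, sub_zero, Nat.cast_zero, sub_zero, abs_of_nonneg (Nat.cast_nonneg (α := ℝ) k)] at h
  nlinarith [hf.nonneg]

end iter

end Vale.Agent.P157
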