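import Vale.Agent.P157.Iter

/-!
Potentials whose exponential is a constant minus a positive-definite function: the replica series
of one pattern and its convexity in the Gram matrix.
-/

namespace Vale.Agent.P157

open MeasureTheory ProbabilityTheory Complex
open scoped RealInnerProductSpace

/-- `exp f = a - V` with `V` the Fourier transform of the symmetric finite measure `ν`, `a > V 0`. -/
structure Ker (f : ℝ → ℝ) (a : ℝ) (ν : Measure ℝ) : Prop where
  fin : IsFiniteMeasure ν
  symm : ν.map Neg.neg = ν
  lt : ν.real Set.univ < a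
  eq : ∀ x, Real.exp (f x) = a - ∫ t, Real.cos (t * x) ∂ν

section scalar

variable {f : ℝ → ℝ} {a : ℝ} {ν : Measure ℝ} (hk : Ker f a ν)
include hk

lemma Ker.a_pos : 0 < a := measureReal_nonneg.trans_lt hk.lt

lemma abs_kerV_le (x : ℝ) : |∫ t, Real.cos (t * x) ∂ν| ≤ ν.real Set.univ := by
  have := hk.fin
  rw [← Real.norm_eq_abs]
  refine (norm_integral_le_of_norm_le_const (μ := ν) (C := 1)
    (Filter.Eventually.of_forall fun t => by simpa using Real.abs_cos_le_one (t * x))).trans_eq ?_
  rw [one_mul]

lemma continuous_kerV : Continuous fun x : ℝ => ∫ t, Real.cos (t * x) ∂ν := by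
  have := hk.fin
  exact continuous_of_dominated (bound := fun _ => (1 : ℝ))
    (fun x => Continuous.aestronglyMeasurable (by fun_prop))
    (fun x => Filter.Eventually.of_forall fun t => by simpa using Real.abs_cos_le_one (t * x))
    (integrable_const _) (Filter.Eventually.of_forall fun t => by fun_prop)

lemma Ker.pot : Pot f (|Real.log (a - ν.real Set.univ)| + |Real.log (a + ν.real Set.univ)|) where
  meas := by
    have e : f = fun x => Real.log (a - ∫ t, Real.cos (t * x) ∂ν) := funext fun x => by
      rw [← hk.eq, Real.log_exp]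
    rw [e]
    exact ((continuous_kerV hk).measurable.const_sub a).log
  bound x := by
    obtain ⟨h1, h2⟩ := abs_le.1 (abs_kerV_le hk x)
    have hl := hk.lt
    have e : f x = Real.log (a - ∫ t, Real.cos (t * x) ∂ν) := by rw [← hk.eq, Real.log_exp]
    rw [e]
    have l1 := Real.log_le_log (by linarith : (0 : ℝ) < a - ν.real Set.univ)
      (show a - ν.real Set.univ ≤ a - ∫ t, Real.cos (t * x) ∂ν by linarith)
    have l2 := Real.log_le_log (by linarith : (0 : ℝ) < a - ∫ t, Real.cos (t * x) ∂ν)
      (show a - ∫ t, Real.cos (t * x) ∂ν ≤ a + ν.real Set.univ by linarith)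
    rw [abs_le]
    constructor
    · linarith [neg_abs_le (Real.log (a - ν.real Set.univ)),
        abs_nonneg (Real.log (a + ν.real Set.univ))]
    · linarith [le_abs_self (Real.log (a + ν.real Set.univ)),
        abs_nonneg (Real.log (a - ν.real Set.univ))]

lemma integral_cexp_ker (x : ℝ) :
    ∫ t, cexp ((t * x : ℝ) * I) ∂ν = ((∫ t, Real.cos (t * x) ∂ν : ℝ) : ℂ) := by
  have := hk.fin
  have hsin : ∫ t, Real.sin (t * x) ∂ν = 0 := by
    have h : ∫ t, Real.sin (t * x) ∂ν = ∫ t, Real.sin (-t * x) ∂ν := by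
      conv_lhs => rw [← hk.symm]
      rw [integral_map measurable_neg.aemeasurable (Continuous.aestronglyMeasurable (by fun_prop))]
    simp only [neg_mul, Real.sin_neg, integral_neg] at h
    linarith
  have hci : Integrable (fun t => Real.cos (t * x)) ν :=
    Integrable.mono' (integrable_const (1 : ℝ)) (Continuous.aestronglyMeasurable (by fun_prop))
      (Filter.Eventually.of_forall fun t => by simpa using Real.abs_cos_le_one (t * x))
  have hsi : Integrable (fun t => Real.sin (t * x)) ν :=
    Integrable.mono' (integrable_const (1 : ℝ)) (Continuous.aestronglyMeasurable (by fun_prop))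
      (Filter.Eventually.of_forall fun t => by simpa using Real.abs_sin_le_one (t * x))
  have e : ∀ t : ℝ, cexp ((t * x : ℝ) * I) =
      ((Real.cos (t * x) : ℝ) : ℂ) + ((Real.sin (t * x) : ℝ) : ℂ) * I := fun t => by
    rw [Complex.exp_mul_I, Complex.ofReal_cos, Complex.ofReal_sin]
  have hc' : Integrable (fun t => ((Real.cos (t * x) : ℝ) : ℂ)) ν := hci.ofReal
  have hs' : Integrable (fun t => ((Real.sin (t * x) : ℝ) : ℂ) * I) ν := hsi.ofReal.mul_const I
  simp only [e]
  rw [integral_add hc' hs', integral_mul_const,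
    integral_complex_ofReal, integral_complex_ofReal, hsin]
  simp

end scalar

variable {X : Type} [MeasurableSpace X]
variable {E : Type} [NormedAddCommGroup E] [InnerProductSpace ℝ E] [FiniteDimensional ℝ E]
  [MeasurableSpace E] [BorelSpace E]

/-- The replica moment of order `n` of one pattern. -/
noncomputable def mom (ρ : Measure X) (ν : Measure ℝ) (v : X → E) (n : ℕ) : ℝ :=
  ∫ y, Real.exp (-‖∑ l, (y l).2 • v (y l).1‖ ^ 2 / 2)
    ∂Measure.pi fun _ : Fin n => ρ.prod ν

section moments

variable {f : ℝ → ℝ} {a : ℝ} {ν : Measure ℝ} {ρ : Measure X} [IsProbabilityMeasure ρ] {v : X → E}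

lemma integral_pow_eq_mom (hk : Ker f a ν) (hv : Measurable v) (n : ℕ) :
    ∫ g, (∫ x, ∫ t, Real.cos (t * ⟪g, v x⟫) ∂ν ∂ρ) ^ n ∂stdGaussian E = mom ρ ν v n := by
  have := hk.fin
  have hci : ∀ g : E, Integrable
      (fun z : X × ℝ => cexp ((⟪g, z.2 • v z.1⟫ : ℝ) * I)) (ρ.prod ν) := fun g =>
    Integrable.mono' (integrable_const (1 : ℝ)) (Measurable.aestronglyMeasurable (by fun_prop))
      (Filter.Eventually.of_forall fun z => by simp [Complex.norm_exp])
  have hm : ∀ g : E, ((∫ x, ∫ t, Real.cos (t * ⟪g, v x⟫) ∂ν ∂ρ : ℝ) : ℂ) =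
      ∫ z, cexp ((⟪g, z.2 • v z.1⟫ : ℝ) * I) ∂ρ.prod ν := fun g => by
    rw [integral_prod _ (hci g), ← integral_complex_ofReal]
    refine integral_congr_ae (Filter.Eventually.of_forall fun x => ?_)
    simp only [real_inner_smul_right]
    exact (integral_cexp_ker hk ⟪g, v x⟫).symm
  have hpow : ∀ g : E, ((∫ x, ∫ t, Real.cos (t * ⟪g, v x⟫) ∂ν ∂ρ : ℝ) : ℂ) ^ n =
      ∫ y, cexp ((⟪g, ∑ l, (y l).2 • v (y l).1⟫ : ℝ) * I)
        ∂Measure.pi fun _ : Fin n => ρ.prod ν := fun g => by
    have hprod := integral_fintype_prod_eq_prod (μ := fun _ : Fin n => ρ.prod ν)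
      (fun (_ : Fin n) (z : X × ℝ) => cexp ((⟪g, z.2 • v z.1⟫ : ℝ) * I))
    rw [Finset.prod_const, Finset.card_univ, Fintype.card_fin, ← hm] at hprod
    rw [← hprod]
    refine integral_congr_ae (Filter.Eventually.of_forall fun y => ?_)
    simp only
    rw [← Complex.exp_sum, inner_sum, Complex.ofReal_sum, Finset.sum_mul]
  apply Complex.ofReal_injective
  rw [mom, ← integral_complex_ofReal, ← integral_complex_ofReal]
  simp only [Complex.ofReal_pow, hpow]
  rw [integral_integral_swap
    (f := fun (g : E) (y : Fin n → X × ℝ) => cexp ((⟪g, ∑ l, (y l).2 • v (y l).1⟫ : ℝ) * I))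
    (Integrable.mono' (integrable_const (1 : ℝ)) (Measurable.aestronglyMeasurable (by fun_prop))
      (Filter.Eventually.of_forall fun z => by simp [Function.uncurry, Complex.norm_exp]))]
  refine integral_congr_ae (Filter.Eventually.of_forall fun y => ?_)
  simp only
  rw [integral_cexp_inner, Complex.ofReal_exp]
  push_cast
  ring_nf

/-- The replica series of one pattern. -/
lemma hasSum_mom (hk : Ker f a ν) (hv : Measurable v) :
    HasSum (fun n : ℕ => mom ρ ν v (n + 1) / (((n : ℝ) + 1) * a ^ (n + 1)))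
      (Real.log a - ∫ g, Real.log (∫ x, Real.exp (f ⟪g, v x⟫) ∂ρ) ∂stdGaussian E) := by
  have := hk.fin
  have ha := hk.a_pos
  set m : E → ℝ := fun g => ∫ x, ∫ t, Real.cos (t * ⟪g, v x⟫) ∂ν ∂ρ with hm
  set r := ν.real Set.univ / a with hr
  have hr1 : r < 1 := (div_lt_one ha).2 hk.lt
  have hr0 : 0 ≤ r := div_nonneg measureReal_nonneg ha.le
  have hmb : ∀ g, |m g| ≤ ν.real Set.univ := fun g => by
    rw [← Real.norm_eq_abs]
    refine (norm_integral_le_of_norm_le_const (μ := ρ) (C := ν.real Set.univ)
      (Filter.Eventually.of_forall fun x =>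
        (Real.norm_eq_abs _).le.trans (abs_kerV_le hk _))).trans_eq ?_
    simp
  have hmm : Measurable m := by
    have h : Measurable fun z : E × X => ∫ t, Real.cos (t * ⟪z.1, v z.2⟫) ∂ν :=
      (continuous_kerV hk).measurable.comp (measurable_fst.inner (hv.comp measurable_snd))
    exact (h.stronglyMeasurable.integral_prod_right' (ν := ρ)).measurable
  have hU : ∀ g, ∫ x, Real.exp (f ⟪g, v x⟫) ∂ρ = a - m g := fun g => by
    simp only [hk.eq, hm]
    have hi : Integrable (fun x => ∫ t, Real.cos (t * ⟪g, v x⟫) ∂ν) ρ :=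
      Integrable.mono' (integrable_const (ν.real Set.univ))
        ((continuous_kerV hk).measurable.comp (measurable_const.inner hv)).aestronglyMeasurable
        (Filter.Eventually.of_forall fun x => (Real.norm_eq_abs _).le.trans (abs_kerV_le hk _))
    rw [integral_sub (integrable_const a) hi]
    simp
  have hx : ∀ g, |m g / a| < 1 := fun g => by
    rw [abs_div, abs_of_pos ha, div_lt_one ha]; exact (hmb g).trans_lt hk.lt
  have hs : ∀ g, HasSum (fun n : ℕ => (m g / a) ^ (n + 1) / ((n : ℝ) + 1))
      (Real.log a - Real.log (a - m g)) := fun g => by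
    have h := Real.hasSum_pow_div_log_of_abs_lt_one (hx g)
    have hpos : 0 < a - m g := by linarith [(abs_le.1 (hmb g)).2, hk.lt]
    rw [one_sub_div ha.ne', Real.log_div hpos.ne' ha.ne', neg_sub] at h
    exact h
  have hint : Integrable (fun g => Real.log (a - m g)) (stdGaussian E) :=
    Integrable.mono' (integrable_const
        (|Real.log (a - ν.real Set.univ)| + |Real.log (a + ν.real Set.univ)|))
      (hmm.const_sub a).log.aestronglyMeasurable (Filter.Eventually.of_forall fun g => by
        obtain ⟨h1, h2⟩ := abs_le.1 (hmb g)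
        have hl := hk.lt
        have l1 := Real.log_le_log (by linarith : (0 : ℝ) < a - ν.real Set.univ)
          (show a - ν.real Set.univ ≤ a - m g by linarith)
        have l2 := Real.log_le_log (by linarith : (0 : ℝ) < a - m g)
          (show a - m g ≤ a + ν.real Set.univ by linarith)
        rw [Real.norm_eq_abs, abs_le]
        constructor
        · linarith [neg_abs_le (Real.log (a - ν.real Set.univ)),
            abs_nonneg (Real.log (a + ν.real Set.univ))]
        · linarith [le_abs_self (Real.log (a + ν.real Set.univ)),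
            abs_nonneg (Real.log (a - ν.real Set.univ))])
  have hdom := hasSum_integral_of_dominated_convergence (μ := stdGaussian E)
    (F := fun (n : ℕ) g => (m g / a) ^ (n + 1) / ((n : ℝ) + 1))
    (f := fun g => Real.log a - Real.log (a - m g)) (fun n _ => r ^ (n + 1))
    (fun n => (((hmm.div_const a).pow_const _).div_const _).aestronglyMeasurable)
    (fun n => Filter.Eventually.of_forall fun g => by
      rw [Real.norm_eq_abs, abs_div, abs_pow, abs_of_pos (by positivity : (0:ℝ) < (n : ℝ) + 1)]
      refine (div_le_self (pow_nonneg (abs_nonneg _) _) (by linarith [Nat.cast_nonneg (α := ℝ) n])).trans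
        (pow_le_pow_left₀ (abs_nonneg _) ?_ _)
      rw [abs_div, abs_of_pos ha]
      exact div_le_div_of_nonneg_right (hmb g) ha.le)
    (Filter.Eventually.of_forall fun g =>
      (summable_nat_add_iff 1).2 (summable_geometric_of_lt_one hr0 hr1))
    (integrable_const _) (Filter.Eventually.of_forall hs)
  rw [integral_sub (integrable_const _) hint] at hdom
  simp only [integral_const, probReal_univ, one_smul] at hdom
  simp only [hU]
  suffices key : (fun n : ℕ => mom ρ ν v (n + 1) / (((n : ℝ) + 1) * a ^ (n + 1))) =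
      fun n : ℕ => ∫ g, (m g / a) ^ (n + 1) / ((n : ℝ) + 1) ∂stdGaussian E by
    rw [key]; exact hdom
  funext n
  rw [← integral_pow_eq_mom hk hv (n + 1), ← integral_div]
  refine integral_congr_ae (Filter.Eventually.of_forall fun g => ?_)
  simp only [hm, div_pow]
  field_simp

end moments

section normalised

variable {μ : Measure X} [IsProbabilityMeasure μ] {w : X → ℝ}

/-- The Gibbs measure of the weight `w`. -/
noncomputable def gibbs (μ : Measure X) (w : X → ℝ) : Measure X :=
  μ.withDensity fun x => ENNReal.ofReal (w x / ∫ y, w y ∂μ)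

lemma isProbabilityMeasure_gibbs (hw : Wt w) : IsProbabilityMeasure (gibbs μ w) := by
  refine ⟨?_⟩
  have hI := hw.integral_pos (μ := μ)
  rw [gibbs, withDensity_apply _ MeasurableSet.univ, Measure.restrict_univ,
    ← ofReal_integral_eq_lintegral_ofReal (hw.integrable.div_const _)
      (Filter.Eventually.of_forall fun x => div_nonneg (hw.pos x).le hI.le),
    integral_div, div_self hI.ne', ENNReal.ofReal_one]

lemma integral_gibbs (hw : Wt w) (h : X → ℝ) :
    ∫ x, h x ∂gibbs μ w = (∫ x, w x * h x ∂μ) / ∫ x, w x ∂μ := by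
  have hI := hw.integral_pos (μ := μ)
  rw [gibbs, integral_withDensity_eq_integral_toReal_smul
    (hw.meas.div_const _).ennreal_ofReal (Filter.Eventually.of_forall fun x => ENNReal.ofReal_lt_top),
    ← integral_div]
  refine integral_congr_ae (Filter.Eventually.of_forall fun x => ?_)
  simp only [ENNReal.toReal_ofReal (div_nonneg (hw.pos x).le hI.le), smul_eq_mul]
  ring

lemma logI_mul (hw : Wt w) {u : X → ℝ} (hu : Wt u) :
    logI μ (fun x => w x * u x) = logI μ w + Real.log (∫ x, u x ∂gibbs μ w) := by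
  have hI := hw.integral_pos (μ := μ)
  rw [integral_gibbs hw, Real.log_div ((hw.mul hu).integral_pos).ne' hI.ne', logI, logI]
  ring

lemma avg_logI {P : Type} [MeasurableSpace P] {γ : Measure P} [IsProbabilityMeasure γ]
    {a : P → X → ℝ} {β : P → ℝ} (ha : Mult γ a β) (hw : Wt w) :
    avg γ a (logI μ) w = logI μ w + ∫ p, Real.log (∫ x, a p x ∂gibbs μ w) ∂γ := by
  have hint : Integrable (fun p => Real.log (∫ x, a p x ∂gibbs μ w)) γ := by
    refine ((integrable_avg ha (nice_logI (μ := μ)) hw).sub (integrable_const (logI μ w))).congr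
      (Filter.Eventually.of_forall fun p => ?_)
    simp only [Pi.sub_apply]
    rw [logI_mul (μ := μ) hw (ha.wt p)]
    ring
  simp only [avg, fun p => logI_mul (μ := μ) hw (ha.wt p)]
  rw [integral_add (integrable_const _) hint]
  simp

end normalised

/-- Convexity of the replica moments in the Gram matrix. -/
lemma mom_block {J : Type} [Fintype J] {F : J → Type} [∀ j, NormedAddCommGroup (F j)]
    [∀ j, InnerProductSpace ℝ (F j)] [∀ j, FiniteDimensional ℝ (F j)]
    [∀ j, MeasurableSpace (F j)] [∀ j, BorelSpace (F j)] {ρ : Measure X} [IsProbabilityMeasure ρ]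
    {ν : Measure ℝ} [IsFiniteMeasure ν] {v : X → E} {u : ∀ j, X → F j} {s : J → ℝ}
    (hv : Measurable v) (hu : ∀ j, Measurable (u j))
    (hs0 : ∀ j, 0 ≤ s j) (hs1 : ∑ j, s j = 1)
    (hgram : ∀ x y, ⟪v x, v y⟫ = ∑ j, s j * ⟪u j x, u j y⟫) (n : ℕ) :
    mom ρ ν v n ≤ ∑ j, s j * mom ρ ν (u j) n := by
  have hint : ∀ j, Integrable
      (fun y : Fin n → X × ℝ => Real.exp (-‖∑ l, (y l).2 • u j (y l).1‖ ^ 2 / 2))
      (Measure.pi fun _ : Fin n => ρ.prod ν) := fun j =>
    Integrable.mono' (integrable_const (1 : ℝ)) (Measurable.aestronglyMeasurable (by fun_prop))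
      (Filter.Eventually.of_forall fun y => by
        rw [Real.norm_eq_abs, Real.abs_exp, Real.exp_le_one_iff]
        linarith [sq_nonneg ‖∑ l, (y l).2 • u j (y l).1‖])
  have hintv : Integrable
      (fun y : Fin n → X × ℝ => Real.exp (-‖∑ l, (y l).2 • v (y l).1‖ ^ 2 / 2))
      (Measure.pi fun _ : Fin n => ρ.prod ν) :=
    Integrable.mono' (integrable_const (1 : ℝ)) (Measurable.aestronglyMeasurable (by fun_prop))
      (Filter.Eventually.of_forall fun y => by
        rw [Real.norm_eq_abs, Real.abs_exp, Real.exp_le_one_iff]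
        linarith [sq_nonneg ‖∑ l, (y l).2 • v (y l).1‖])
  simp only [mom]
  simp only [← integral_const_mul]
  rw [← integral_finsetSum _ fun j _ => (hint j).const_mul (s j)]
  refine integral_mono hintv (integrable_finsetSum _ fun j _ => (hint j).const_mul (s j)) fun y => ?_
  have e : ‖∑ l, (y l).2 • v (y l).1‖ ^ 2 =
      ∑ j, s j * ‖∑ l, (y l).2 • u j (y l).1‖ ^ 2 := by
    simp only [← real_inner_self_eq_norm_sq, sum_inner, inner_sum, real_inner_smul_left,
      real_inner_smul_right, hgram, Finset.mul_sum]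
    rw [Finset.sum_comm_cycle]
    refine Finset.sum_congr rfl fun j _ => Finset.sum_congr rfl fun l _ =>
      Finset.sum_congr rfl fun l' _ => ?_
    ring
  show Real.exp _ ≤ _
  rw [e]
  have hjen := convexOn_exp.map_sum_le (t := Finset.univ) (w := s)
    (p := fun j => -‖∑ l, (y l).2 • u j (y l).1‖ ^ 2 / 2) (fun j _ => hs0 j) hs1
    fun j _ => Set.mem_univ _
  simp only [smul_eq_mul] at hjen
  refine le_trans (le_of_eq ?_) hjen
  congr 1
  rw [← Finset.sum_neg_distrib, Finset.sum_div]
  exact Finset.sum_congr rfl fun j _ => by ring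

/-- One pattern on the whole system is better than one pattern on a random block. -/
lemma avg_block {J : Type} [Fintype J] {F : J → Type} [∀ j, NormedAddCommGroup (F j)]
    [∀ j, InnerProductSpace ℝ (F j)] [∀ j, FiniteDimensional ℝ (F j)]
    [∀ j, MeasurableSpace (F j)] [∀ j, BorelSpace (F j)] {μ : Measure X} [IsProbabilityMeasure μ]
    {f : ℝ → ℝ} {a : ℝ} {ν : Measure ℝ} (hk : Ker f a ν) {v : X → E} {u : ∀ j, X → F j} {s : J → ℝ}
    (hv : Measurable v) (hu : ∀ j, Measurable (u j))
    (hs0 : ∀ j, 0 ≤ s j) (hs1 : ∑ j, s j = 1)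
    (hgram : ∀ x y, ⟪v x, v y⟫ = ∑ j, s j * ⟪u j x, u j y⟫) {w : X → ℝ} (hw : Wt w) :
    ∑ j, s j * avg (stdGaussian (F j)) (pw f (u j)) (logI μ) w ≤
      avg (stdGaussian E) (pw f v) (logI μ) w := by
  have := hk.fin
  have := isProbabilityMeasure_gibbs (μ := μ) hw
  have ha := hk.a_pos
  rw [avg_logI (mult_pw hk.pot hv) hw]
  simp only [fun j => avg_logI (μ := μ) (mult_pw hk.pot (hu j)) hw]
  have hV := hasSum_mom (ρ := gibbs μ w) hk hv
  have hU := hasSum_sum (s := Finset.univ) fun j (_ : j ∈ Finset.univ) =>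
    (hasSum_mom (ρ := gibbs μ w) hk (hu j)).mul_left (s j)
  have h := hasSum_le (fun k => by
    refine le_trans (div_le_div_of_nonneg_right
      (mom_block (ρ := gibbs μ w) (ν := ν) hv hu hs0 hs1 hgram (k + 1)) (by positivity)) (le_of_eq ?_)
    rw [Finset.sum_div]
    exact Finset.sum_congr rfl fun j _ => mul_div_assoc _ _ _) hV hU
  simp only [pw, mul_add, mul_sub, Finset.sum_add_distrib, Finset.sum_sub_distrib, ← Finset.sum_mul,
    hs1, one_mul] at h ⊢
  linarith

end Vale.Agent.P157
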