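import Vale.Agent.P157.Small.Defs
import Vale.Agent.P157.Model

/-!
The second-moment argument for one fixed system: a lower bound on the expected log-partition
function at finite size.
-/

namespace Vale.Agent.P157

open MeasureTheory ProbabilityTheory Filter
open scoped RealInnerProductSpace Topology

variable {E : Type} [NormedAddCommGroup E] [InnerProductSpace ℝ E] [FiniteDimensional ℝ E]
  [MeasurableSpace E] [BorelSpace E]

/-- The law of the projection of a Gaussian vector on a unit vector. -/
lemma measurePreserving_inner {u : E} (hu : ‖u‖ = 1) :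
    MeasurePreserving (fun g : E => ⟪g, u⟫) (stdGaussian E) (gaussianReal 0 1) := by
  refine ⟨by fun_prop, ?_⟩
  have h := IsGaussian.map_eq_gaussianReal (μ := stdGaussian E) (innerSL ℝ u)
  rw [integral_strongDual_stdGaussian, variance_dual_stdGaussian, innerSL_apply_norm, hu] at h
  convert h using 2
  · funext g; rw [innerSL_apply_apply, real_inner_comm]
  · simp

/-- Two projections of a Gaussian vector on unit vectors form a correlated Gaussian pair. -/
lemma map_inner_pair {u w : E} (hu : ‖u‖ = 1) (hw : ‖w‖ = 1) :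
    (stdGaussian E).map (fun g => WithLp.toLp 2 (⟪g, u⟫, ⟪g, w⟫)) =
      ((gaussianReal 0 1).prod (gaussianReal 0 1)).map (fun p : ℝ × ℝ =>
        WithLp.toLp 2 (p.1, ⟪u, w⟫ * p.1 + Real.sqrt (1 - ⟪u, w⟫ ^ 2) * p.2)) := by
  have : IsProbabilityMeasure ((stdGaussian E).map fun g => WithLp.toLp 2 (⟪g, u⟫, ⟪g, w⟫)) :=
    Measure.isProbabilityMeasure_map (Measurable.aemeasurable (by fun_prop))
  have : IsProbabilityMeasure (((gaussianReal 0 1).prod (gaussianReal 0 1)).map fun p : ℝ × ℝ =>
      WithLp.toLp 2 (p.1, ⟪u, w⟫ * p.1 + Real.sqrt (1 - ⟪u, w⟫ ^ 2) * p.2)) :=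
    Measure.isProbabilityMeasure_map (Measurable.aemeasurable (by fun_prop))
  set q := ⟪u, w⟫ with hq
  set r := Real.sqrt (1 - q ^ 2) with hr
  have hq1 : |q| ≤ 1 := by
    have h := abs_real_inner_le_norm u w
    rwa [hu, hw, one_mul] at h
  have hr2 : r ^ 2 = 1 - q ^ 2 := Real.sq_sqrt (by nlinarith [abs_le.1 hq1])
  refine Measure.ext_of_charFun ?_
  funext t
  rw [charFun_apply, charFun_apply, integral_map (Measurable.aemeasurable (by fun_prop))
      (Continuous.aestronglyMeasurable (by fun_prop)),
    integral_map (Measurable.aemeasurable (by fun_prop))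
      (Continuous.aestronglyMeasurable (by fun_prop))]
  set a := t.fst
  set b := t.snd
  have e1 : ∀ g : E, Complex.exp ((⟪WithLp.toLp 2 (⟪g, u⟫, ⟪g, w⟫), t⟫ : ℝ) * Complex.I) =
      Complex.exp ((⟪g, a • u + b • w⟫ : ℝ) * Complex.I) := fun g => by
    congr 3
    simp only [WithLp.prod_inner_apply, RCLike.inner_apply, conj_trivial, inner_add_right,
      real_inner_smul_right, a, b, WithLp.ofLp_fst, WithLp.ofLp_snd]
  have e2 : ∀ p : ℝ × ℝ,
      Complex.exp ((⟪WithLp.toLp 2 (p.1, q * p.1 + r * p.2), t⟫ : ℝ) * Complex.I) =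
      Complex.exp (((a + b * q) * p.1 : ℝ) * Complex.I) * Complex.exp ((b * r * p.2 : ℝ) * Complex.I) :=
    fun p => by
    rw [← Complex.exp_add]
    congr 1
    simp only [WithLp.prod_inner_apply, RCLike.inner_apply, conj_trivial, a, b, WithLp.ofLp_fst,
      WithLp.ofLp_snd]
    push_cast
    ring
  simp only [e1, e2]
  rw [integral_cexp_inner, integral_prod_mul (fun z : ℝ => Complex.exp (((a + b * q) * z : ℝ) * Complex.I))
    (fun z : ℝ => Complex.exp ((b * r * z : ℝ) * Complex.I)), integral_cexp_gaussian,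
    integral_cexp_gaussian, ← Complex.exp_add]
  congr 1
  have hn : ‖a • u + b • w‖ ^ 2 = a ^ 2 + 2 * a * b * q + b ^ 2 := by
    rw [norm_add_sq_real, norm_smul, norm_smul, hu, hw, real_inner_smul_left, real_inner_smul_right,
      ← hq]
    simp only [mul_one, Real.norm_eq_abs, sq_abs]
    ring
  have hn' : ((‖a • u + b • w‖ : ℝ) : ℂ) ^ 2 = ((a : ℂ) + b * q) ^ 2 + ((b : ℂ) * r) ^ 2 := by
    rw [← Complex.ofReal_pow, hn]
    have h : a ^ 2 + 2 * a * b * q + b ^ 2 = (a + b * q) ^ 2 + (b * r) ^ 2 := by
      linear_combination (-(b ^ 2)) * hr2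
    rw [h]
    push_cast
    ring
  rw [hn']
  push_cast
  ring

lemma integral_pair {U : ℝ → ℝ} (hU : Measurable U) {u w : E} (hu : ‖u‖ = 1) (hw : ‖w‖ = 1) :
    ∫ g, U ⟪g, u⟫ * U ⟪g, w⟫ ∂stdGaussian E = Small.corr U ⟪u, w⟫ := by
  have hF : Measurable fun z : WithLp 2 (ℝ × ℝ) => U z.fst * U z.snd :=
    (hU.comp (by fun_prop)).mul (hU.comp (by fun_prop))
  have h := congrArg (fun m : Measure (WithLp 2 (ℝ × ℝ)) => ∫ z, U z.fst * U z.snd ∂m)
    (map_inner_pair hu hw)
  rw [integral_map (Measurable.aemeasurable (by fun_prop)) hF.aestronglyMeasurable,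
    integral_map (Measurable.aemeasurable (by fun_prop)) hF.aestronglyMeasurable] at h
  simpa [Small.corr] using h

section logZ

variable {X : Type} [MeasurableSpace X] {μ : Measure X} [IsProbabilityMeasure μ] {f : ℝ → ℝ} {B : ℝ}
  {v : X → E}

/-- Log-partition function at given patterns. -/
noncomputable def logZ (μ : Measure X) (f : ℝ → ℝ) (v : X → E) {k : ℕ} (w : X → ℝ)
    (g : Fin k → E) : ℝ :=
  Real.log (∫ x, w x * Real.exp (∑ a, f ⟪g a, v x⟫) ∂μ)

lemma wt_patterns (hf : Pot f B) (hv : Measurable v) {k : ℕ} (g : Fin k → E) :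
    Wt fun x => Real.exp (∑ a, f ⟪g a, v x⟫) :=
  Wt.exp (Finset.measurable_sum _ fun _ _ => hf.meas.comp (measurable_const.inner hv))
    (β := (k : ℝ) * B) fun x => (Finset.abs_sum_le_sum_abs _ _).trans
      ((Finset.sum_le_sum fun _ _ => hf.bound _).trans_eq (by simp))

lemma measurable_logZ (hf : Pot f B) (hv : Measurable v) {k : ℕ} {w : X → ℝ} (hw : Measurable w) :
    Measurable (logZ (k := k) μ f v w) := by
  have h : Measurable fun z : (Fin k → E) × X => w z.2 * Real.exp (∑ a, f ⟪z.1 a, v z.2⟫) :=
    (hw.comp measurable_snd).mul (Finset.measurable_sum _ fun a _ => hf.meas.comp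
      (((measurable_pi_apply a).comp measurable_fst).inner (hv.comp measurable_snd))).exp
  exact (h.stronglyMeasurable.integral_prod_right' (ν := μ)).measurable.log

lemma abs_logZ_sub (hf : Pot f B) (hv : Measurable v) {k : ℕ} {w : X → ℝ} (hw : Wt w)
    (g : Fin k → E) : |logZ μ f v w g - logI μ w| ≤ k * B := by
  have hu := wt_patterns hf hv g
  have := isProbabilityMeasure_gibbs (μ := μ) hw
  rw [show logZ μ f v w g = logI μ (fun x => w x * Real.exp (∑ a, f ⟪g a, v x⟫)) from rfl,
    logI_mul hw hu, add_sub_cancel_left]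
  exact abs_log_integral_exp_le (Finset.measurable_sum _ fun _ _ =>
    hf.meas.comp (measurable_const.inner hv)) fun x => (Finset.abs_sum_le_sum_abs _ _).trans
      ((Finset.sum_le_sum fun _ _ => hf.bound _).trans_eq (by simp))

lemma avg_sq_le {P : Type} [MeasurableSpace P] {γ : Measure P} [IsProbabilityMeasure γ] {h : P → ℝ}
    (hh : Integrable h γ) {D : ℝ} (hD : ∀ p p', |h p - h p'| ≤ D) :
    ∀ p, |h p - ∫ p', h p' ∂γ| ≤ D := fun p => by
  rw [show h p - ∫ p', h p' ∂γ = ∫ p', (h p - h p') ∂γ by
    rw [integral_sub (integrable_const _) hh]; simp, ← Real.norm_eq_abs]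
  exact (norm_integral_le_of_norm_le_const (C := D)
    (Filter.Eventually.of_forall fun p' => (Real.norm_eq_abs _).trans_le (hD p p'))).trans_eq (by simp)

/-- Variance of the log-partition function. -/
theorem variance_logZ (hf : Pot f B) (hv : Measurable v) :
    ∀ (k : ℕ) (w : X → ℝ), Wt w →
      ∫ g, (logZ μ f v w g - L μ f v k w) ^ 2 ∂Measure.pi (fun _ : Fin k => stdGaussian E) ≤
        4 * B ^ 2 * k := by
  intro k
  induction k with
  | zero =>
    intro w _
    simp [logZ, L, iter, logI]
  | succ k ih =>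
    intro w hw
    set π := Measure.pi fun _ : Fin k => stdGaussian E
    set h : E → ℝ := fun g0 => L μ f v k (fun x => w x * pw f v g0 x) with hh
    have hm : L μ f v (k + 1) w = ∫ g0, h g0 ∂stdGaussian E := rfl
    have hhi : Integrable h (stdGaussian E) := integrable_avg (mult_pw hf hv) (nice_L hf hv k) hw
    have hW : ∀ g0, Wt fun x => w x * pw f v g0 x := fun g0 => hw.mul ((mult_pw hf hv).wt g0)
    have hLi : ∀ g0, h g0 = ∫ g', logZ μ f v (fun x => w x * pw f v g0 x) g' ∂π := fun g0 =>
      L_eq_integral hf hv k _ (hW g0)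
    have hzi : ∀ g0, Integrable (fun g' => logZ μ f v (fun x => w x * pw f v g0 x) g') π := fun g0 =>
      Integrable.mono' (integrable_const (|logI μ (fun x => w x * pw f v g0 x)| + k * B))
        (measurable_logZ hf hv (hW g0).meas).aestronglyMeasurable
        (Filter.Eventually.of_forall fun g' => by
          have := abs_logZ_sub (μ := μ) hf hv (hW g0) g'
          rw [Real.norm_eq_abs]
          have := abs_sub_abs_le_abs_sub (logZ μ f v (fun x => w x * pw f v g0 x) g')
            (logI μ (fun x => w x * pw f v g0 x))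
          linarith)
    have hD : ∀ g0 g0', |h g0 - h g0'| ≤ 2 * B := fun g0 g0' => by
      rw [hLi, hLi, ← integral_sub (hzi _) (hzi _), ← Real.norm_eq_abs]
      refine (norm_integral_le_of_norm_le_const (C := 2 * B)
        (Filter.Eventually.of_forall fun g' => ?_)).trans_eq (by simp)
      set u : X → ℝ := fun x => w x * Real.exp (∑ a, f ⟪g' a, v x⟫) with hu
      have hwu : Wt u := hw.mul (wt_patterns hf hv g')
      have e : ∀ g0, logZ μ f v (fun x => w x * pw f v g0 x) g' = logI μ u +
          Real.log (∫ x, pw f v g0 x ∂gibbs μ u) := fun g0 => by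
        rw [← logI_mul hwu ((mult_pw hf hv).wt g0)]
        simp only [logZ, logI, hu]
        congr 1
        exact integral_congr_ae (Filter.Eventually.of_forall fun x => by ring)
      have := isProbabilityMeasure_gibbs (μ := μ) hwu
      have hb : ∀ g0, |Real.log (∫ x, pw f v g0 x ∂gibbs μ u)| ≤ B := fun g0 =>
        abs_log_integral_exp_le (hf.meas.comp (measurable_const.inner hv)) fun x => hf.bound _
      rw [Real.norm_eq_abs, e, e, add_sub_add_left_eq_sub]
      exact (abs_sub _ _).trans (by linarith [hb g0, hb g0'])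
    have hm2 := avg_sq_le hhi hD
    set H : (Fin (k + 1) → E) → ℝ := fun g => (logZ μ f v w g - L μ f v (k + 1) w) ^ 2
    have hHm : Measurable H := ((measurable_logZ hf hv hw.meas).sub_const _).pow_const 2
    have hHb : ∀ g, H g ≤ (|logI μ w| + (k + 1 : ℕ) * B + |L μ f v (k + 1) w|) ^ 2 := fun g => by
      refine sq_le_sq' ?_ ?_ <;>
        linarith [abs_le.1 (abs_logZ_sub (μ := μ) hf hv hw g), neg_abs_le (logI μ w),
          le_abs_self (logI μ w), neg_abs_le (L μ f v (k + 1) w), le_abs_self (L μ f v (k + 1) w)]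
    have hmp := measurePreserving_piFinSuccAbove (fun _ : Fin (k + 1) => stdGaussian E) 0
    have hint : Integrable (fun p : E × (Fin k → E) => H (Fin.cons p.1 p.2))
        ((stdGaussian E).prod π) :=
      Integrable.mono' (integrable_const _) (hHm.comp (by fun_prop)).aestronglyMeasurable
        (Filter.Eventually.of_forall fun p => by
          rw [Real.norm_eq_abs, abs_of_nonneg (sq_nonneg _)]; exact hHb _)
    have hrw : ∫ g, H g ∂Measure.pi (fun _ : Fin (k + 1) => stdGaussian E) =
        ∫ g0, ∫ g', H (Fin.cons g0 g') ∂π ∂stdGaussian E := by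
      rw [← integral_prod _ hint, ← hmp.map_eq, integral_map hmp.measurable.aemeasurable (by
        rw [hmp.map_eq]; exact hint.aestronglyMeasurable)]
      refine integral_congr_ae (Filter.Eventually.of_forall fun g => ?_)
      simp [MeasurableEquiv.piFinSuccAbove, Fin.tail_def]
      exact (congrArg H (Fin.cons_self_tail g)).symm
    show ∫ g, H g ∂_ ≤ _
    rw [hrw]
    refine (integral_mono hint.integral_prod_left
      (integrable_const (4 * B ^ 2 * k + (2 * B) ^ 2)) fun g0 => ?_).trans (le_of_eq ?_)
    · have e : ∀ g', H (Fin.cons g0 g') =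
          (logZ μ f v (fun x => w x * pw f v g0 x) g' - L μ f v (k + 1) w) ^ 2 := fun g' => by
        simp only [H]
        congr 2
        simp only [logZ, pw]
        congr 1
        refine integral_congr_ae (Filter.Eventually.of_forall fun x => ?_)
        simp only [Fin.sum_univ_succ, Fin.cons_zero, Fin.cons_succ, Real.exp_add]
        ring
      simp only [e]
      set Z := fun g' => logZ μ f v (fun x => w x * pw f v g0 x) g'
      set m := L μ f v (k + 1) w
      have hZi : Integrable Z π := hzi g0
      have hZ2 : Integrable (fun g' => (Z g' - h g0) ^ 2) π := by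
        refine Integrable.mono' (integrable_const ((2 * (k * B)) ^ 2))
          (((measurable_logZ hf hv (hW g0).meas).sub_const _).pow_const 2).aestronglyMeasurable
          (Filter.Eventually.of_forall fun g' => ?_)
        rw [Real.norm_eq_abs, abs_of_nonneg (sq_nonneg _)]
        have h1 := abs_le.1 (abs_logZ_sub (μ := μ) hf hv (hW g0) g')
        have h2 : |h g0 - logI μ (fun x => w x * pw f v g0 x)| ≤ k * B := by
          rw [hLi, show (∫ g', Z g' ∂π) - logI μ (fun x => w x * pw f v g0 x) =
            ∫ g', (Z g' - logI μ (fun x => w x * pw f v g0 x)) ∂π by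
              rw [integral_sub hZi (integrable_const _)]; simp, ← Real.norm_eq_abs]
          exact (norm_integral_le_of_norm_le_const (C := (k : ℝ) * B)
            (Filter.Eventually.of_forall fun g' => (Real.norm_eq_abs _).trans_le
              (abs_logZ_sub hf hv (hW g0) g'))).trans_eq (by simp)
        exact sq_le_sq' (by linarith [h1.1, (abs_le.1 h2).2]) (by linarith [h1.2, (abs_le.1 h2).1])
      have e2 : ∀ g', (Z g' - m) ^ 2 =
          (Z g' - h g0) ^ 2 + 2 * (h g0 - m) * (Z g' - h g0) + (h g0 - m) ^ 2 := fun g' => by ring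
      have hlin : Integrable (fun g' => 2 * (h g0 - m) * (Z g' - h g0)) π :=
        (hZi.sub (integrable_const _)).const_mul _
      have hsum : Integrable (fun g' => (Z g' - h g0) ^ 2 + 2 * (h g0 - m) * (Z g' - h g0)) π :=
        hZ2.add hlin
      rw [integral_congr_ae (Filter.Eventually.of_forall e2),
        integral_add hsum (integrable_const _), integral_add hZ2 hlin, integral_const_mul,
        integral_sub hZi (integrable_const _)]
      simp only [integral_const, probReal_univ, one_smul, ← hLi, Z, sub_self, mul_zero, add_zero]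
      refine add_le_add (ih _ (hW g0)) (sq_le_sq' ?_ ?_) <;>
        · have := abs_le.1 (hm2 g0)
          rw [← hm] at this
          linarith [this.1, this.2]
    · simp only [integral_const, probReal_univ, one_smul]
      push_cast
      ring

/-- Finite-size second-moment lower bound. -/
theorem L_lower (hf : Pot f B) (hv : Measurable v) (hv1 : ∀ x, ‖v x‖ = 1) (k : ℕ) {β C : ℝ}
    (hC : 0 < C)
    (hcorr : ∀ q ∈ Set.Icc (-1 : ℝ) 1, Small.corr (fun x => Real.exp (f x)) q ≤
      (∫ z, Real.exp (f z) ∂gaussianReal 0 1) ^ 2 * Real.exp (β * q ^ 2 / 2))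
    (hover : ∫ p : X × X, Real.exp (k * β * ⟪v p.1, v p.2⟫ ^ 2 / 2) ∂μ.prod μ ≤ C) :
    k * Real.log (∫ z, Real.exp (f z) ∂gaussianReal 0 1) - Real.log 2 - Real.sqrt (16 * B ^ 2 * C * k) ≤
      L μ f v k fun _ => 1 := by
  set π := Measure.pi fun _ : Fin k => stdGaussian E
  set U : ℝ → ℝ := fun x => Real.exp (f x) with hU
  set c0 := ∫ z, U z ∂gaussianReal 0 1 with hc0
  have hUm : Measurable U := hf.meas.exp
  have hUb : ∀ x, U x ≤ Real.exp B := fun x => Real.exp_le_exp.2 (abs_le.1 (hf.bound x)).2
  have hUi : Integrable U (gaussianReal 0 1) :=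
    Integrable.mono' (integrable_const (Real.exp B)) hUm.aestronglyMeasurable
      (Filter.Eventually.of_forall fun x => by rw [Real.norm_eq_abs, Real.abs_exp]; exact hUb x)
  have hc0p : 0 < c0 := integral_exp_pos hUi
  set Z : (Fin k → E) → ℝ := fun g => ∫ x, ∏ a, U ⟪g a, v x⟫ ∂μ with hZ
  have hlog : ∀ g, Real.log (Z g) = logZ μ f v (fun _ => 1) g := fun g => by
    simp only [hZ, logZ, hU, one_mul, Real.exp_sum]
  have hpm : Measurable fun z : (Fin k → E) × X => ∏ a, U ⟪z.1 a, v z.2⟫ :=
    Finset.measurable_prod _ fun a _ => hUm.comp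
      (((measurable_pi_apply a).comp measurable_fst).inner (hv.comp measurable_snd))
  have hZm : Measurable Z := (hpm.stronglyMeasurable.integral_prod_right' (ν := μ)).measurable
  have hpb : ∀ (g : Fin k → E) x, |∏ a, U ⟪g a, v x⟫| ≤ Real.exp B ^ k := fun g x => by
    rw [Finset.abs_prod]
    exact (Finset.prod_le_prod (fun _ _ => abs_nonneg _)
      fun a _ => (Real.abs_exp _).trans_le (hUb _)).trans_eq (by simp)
  have hZp : ∀ g, 0 < Z g := fun g => by
    simp only [hZ, hU, ← Real.exp_sum]
    exact (wt_patterns hf hv g).integral_pos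
  have hZb : ∀ g, |Z g| ≤ Real.exp B ^ k := fun g => by
    rw [← Real.norm_eq_abs]
    exact (norm_integral_le_of_norm_le_const (C := Real.exp B ^ k) (Filter.Eventually.of_forall fun x =>
      (Real.norm_eq_abs _).trans_le (hpb g x))).trans_eq (by simp)
  have hZi : Integrable Z π := Integrable.mono' (integrable_const _) hZm.aestronglyMeasurable
    (Filter.Eventually.of_forall fun g => (Real.norm_eq_abs _).trans_le (hZb g))
  have hZ2i : Integrable (fun g => Z g ^ 2) π := Integrable.mono'
    (integrable_const ((Real.exp B ^ k) ^ 2)) (hZm.pow_const 2).aestronglyMeasurable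
    (Filter.Eventually.of_forall fun g => by
      rw [Real.norm_eq_abs, abs_of_nonneg (sq_nonneg _)]
      exact sq_le_sq' (abs_le.1 (hZb g)).1 (abs_le.1 (hZb g)).2)
  have h1 : ∫ g, Z g ∂π = c0 ^ k := by
    simp only [hZ]
    rw [integral_integral_swap (Integrable.mono' (integrable_const _) hpm.aestronglyMeasurable
      (Filter.Eventually.of_forall fun z => (Real.norm_eq_abs _).trans_le (hpb z.1 z.2)))]
    have e : ∀ x, ∫ g, ∏ a, U ⟪g a, v x⟫ ∂π = c0 ^ k := fun x => by
      rw [integral_fintype_prod_eq_prod (μ := fun _ : Fin k => stdGaussian E)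
        (fun (_ : Fin k) (g : E) => U ⟪g, v x⟫), Finset.prod_const, Finset.card_univ, Fintype.card_fin]
      congr 1
      have hm := measurePreserving_inner (hv1 x)
      rw [hc0, ← hm.map_eq, integral_map hm.measurable.aemeasurable hUm.aestronglyMeasurable]
    simp [e]
  have h2 : ∫ g, Z g ^ 2 ∂π ≤ c0 ^ (2 * k) * C := by
    have hsq : ∀ g, Z g ^ 2 = ∫ p, (∏ a, U ⟪g a, v p.1⟫) * ∏ a, U ⟪g a, v p.2⟫ ∂μ.prod μ := fun g => by
      rw [integral_prod_mul (fun x => ∏ a, U ⟪g a, v x⟫) fun x => ∏ a, U ⟪g a, v x⟫, sq]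
    simp only [hsq]
    have hint : Integrable (Function.uncurry fun (g : Fin k → E) (p : X × X) =>
        (∏ a, U ⟪g a, v p.1⟫) * ∏ a, U ⟪g a, v p.2⟫) (π.prod (μ.prod μ)) :=
      Integrable.mono' (integrable_const (Real.exp B ^ k * Real.exp B ^ k))
        ((hpm.comp (measurable_fst.prodMk (measurable_fst.comp measurable_snd))).mul
          (hpm.comp (measurable_fst.prodMk (measurable_snd.comp measurable_snd)))).aestronglyMeasurable
        (Filter.Eventually.of_forall fun z => by
          rw [Function.uncurry, Real.norm_eq_abs, abs_mul]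
          exact mul_le_mul (hpb _ _) (hpb _ _) (abs_nonneg _) (by positivity))
    rw [integral_integral_swap hint]
    have hexpi : Integrable (fun p : X × X => Real.exp (k * β * ⟪v p.1, v p.2⟫ ^ 2 / 2)) (μ.prod μ) := by
      refine Integrable.mono' (integrable_const (Real.exp (|(k : ℝ) * β| / 2)))
        (Measurable.aestronglyMeasurable (by fun_prop)) (Filter.Eventually.of_forall fun p => ?_)
      rw [Real.norm_eq_abs, Real.abs_exp, Real.exp_le_exp]
      have h := abs_real_inner_le_norm (v p.1) (v p.2)
      rw [hv1, hv1, one_mul, ← sq_le_one_iff_abs_le_one] at h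
      have h1 := mul_le_mul_of_nonneg_right (le_abs_self ((k : ℝ) * β)) (sq_nonneg ⟪v p.1, v p.2⟫)
      nlinarith [abs_nonneg ((k : ℝ) * β)]
    refine (integral_mono hint.integral_prod_right (hexpi.const_mul (c0 ^ (2 * k))) fun p => ?_).trans ?_
    · have e : ∀ g : Fin k → E, (∏ a, U ⟪g a, v p.1⟫) * ∏ a, U ⟪g a, v p.2⟫ =
          ∏ a, U ⟪g a, v p.1⟫ * U ⟪g a, v p.2⟫ := fun g => Finset.prod_mul_distrib.symm
      simp only [Function.uncurry_apply_pair, e]
      rw [integral_fintype_prod_eq_prod (μ := fun _ : Fin k => stdGaussian E)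
        (fun (_ : Fin k) (g : E) => U ⟪g, v p.1⟫ * U ⟪g, v p.2⟫), Finset.prod_const, Finset.card_univ,
        Fintype.card_fin, integral_pair hUm (hv1 _) (hv1 _)]
      have hq : ⟪v p.1, v p.2⟫ ∈ Set.Icc (-1 : ℝ) 1 := by
        have := abs_real_inner_le_norm (v p.1) (v p.2)
        rw [hv1, hv1, one_mul] at this
        exact abs_le.1 this
      refine (pow_le_pow_left₀ (integral_nonneg fun z => by positivity) (hcorr _ hq) k).trans (le_of_eq ?_)
      rw [mul_pow, ← pow_mul, ← Real.exp_nat_mul, hc0]
      congr 2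
      ring
    · rw [integral_const_mul]
      exact mul_le_mul_of_nonneg_left hover (by positivity)
  -- Paley-Zygmund
  set A : Set (Fin k → E) := {g | c0 ^ k / 2 ≤ Z g} with hA
  have hAm : MeasurableSet A := measurableSet_le measurable_const hZm
  have hPA : 1 ≤ 4 * C * π.real A := by
    set s : ℝ := 1 / (2 * C * c0 ^ k) with hs
    have hs0 : 0 < s := by positivity
    have hpt : ∀ g, Z g ≤ c0 ^ k / 2 + s / 2 * Z g ^ 2 + A.indicator (fun _ => 1 / (2 * s)) g := fun g => by
      by_cases hg : g ∈ A
      · rw [Set.indicator_of_mem hg]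
        have : 0 ≤ (s * Z g - 1) ^ 2 / (2 * s) := by positivity
        have e : (s * Z g - 1) ^ 2 / (2 * s) = s / 2 * Z g ^ 2 - Z g + 1 / (2 * s) := by
          field_simp; ring
        linarith [pow_pos hc0p k]
      · rw [Set.indicator_of_notMem hg]
        have hlt : Z g < c0 ^ k / 2 := not_le.1 hg
        linarith [mul_nonneg (by positivity : (0 : ℝ) ≤ s / 2) (sq_nonneg (Z g))]
    have hi1 : Integrable (fun g => c0 ^ k / 2 + s / 2 * Z g ^ 2) π :=
      (integrable_const _).add (hZ2i.const_mul _)
    have h := integral_mono hZi (hi1.add ((integrable_const (1 / (2 * s))).indicator hAm)) hpt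
    simp only [Pi.add_apply] at h
    rw [integral_add hi1 ((integrable_const _).indicator hAm),
      integral_add (integrable_const _) (hZ2i.const_mul _), integral_const_mul,
      integral_indicator_const _ hAm, integral_const, probReal_univ, one_smul, smul_eq_mul, h1] at h
    have h3 := mul_le_mul_of_nonneg_left h2 (by positivity : (0 : ℝ) ≤ s / 2)
    have e3 : s / 2 * (c0 ^ (2 * k) * C) = c0 ^ k / 4 := by
      rw [hs, pow_mul', ]; field_simp; ring
    rw [e3] at h3
    have e4 : π.real A * (1 / (2 * s)) = c0 ^ k * (C * π.real A) := by rw [hs]; field_simp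
    rw [e4] at h
    nlinarith [pow_pos hc0p k]
  -- concentration
  by_contra hcon
  rw [not_le] at hcon
  set m := L μ f v k fun _ => 1
  set d := Real.sqrt (16 * B ^ 2 * C * k)
  set d' := (k : ℝ) * Real.log c0 - Real.log 2 - m
  have hd : d < d' := by simp only [d']; linarith
  have hvar := variance_logZ (μ := μ) hf hv k (fun _ => 1) Wt.one
  have hV : Integrable (fun g => (logZ μ f v (fun _ => 1) g - m) ^ 2) π := by
    refine Integrable.mono' (integrable_const ((k * B + |m|) ^ 2))
      (((measurable_logZ hf hv measurable_const).sub_const _).pow_const 2).aestronglyMeasurable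
      (Filter.Eventually.of_forall fun g => ?_)
    rw [Real.norm_eq_abs, abs_of_nonneg (sq_nonneg _)]
    have h3 := abs_le.1 (abs_logZ_sub (μ := μ) hf hv (Wt.one (X := X)) g)
    simp only [logI, integral_const, probReal_univ, one_smul, Real.log_one, sub_zero] at h3
    exact sq_le_sq' (by linarith [h3.1, le_abs_self m]) (by linarith [h3.2, neg_abs_le m])
  have hd0 : 0 ≤ d := Real.sqrt_nonneg _
  have hlow : d' ^ 2 * π.real A ≤ ∫ g, (logZ μ f v (fun _ => 1) g - m) ^ 2 ∂π := by
    calc d' ^ 2 * π.real A = ∫ g, A.indicator (fun _ => d' ^ 2) g ∂π := by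
          rw [integral_indicator_const _ hAm, smul_eq_mul, mul_comm]
      _ ≤ _ := integral_mono ((integrable_const _).indicator hAm) hV fun g => by
          by_cases hg : g ∈ A
          · rw [Set.indicator_of_mem hg]
            have h4 := Real.log_le_log (by positivity : 0 < c0 ^ k / 2) (hg : c0 ^ k / 2 ≤ Z g)
            rw [Real.log_div (by positivity) two_ne_zero, Real.log_pow, hlog] at h4
            refine pow_le_pow_left₀ (hd0.trans hd.le) ?_ 2
            simp only [d']; linarith
          · rw [Set.indicator_of_notMem hg]; exact sq_nonneg _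
  have hlt : d ^ 2 < d' ^ 2 := pow_lt_pow_left₀ hd hd0 two_ne_zero
  rw [Real.sq_sqrt (by positivity)] at hlt
  have h5 := hlow.trans hvar
  have hP0 : 0 < π.real A := by
    by_contra h
    nlinarith [measureReal_nonneg (μ := π) (s := A)]
  nlinarith [mul_lt_mul_of_pos_right hlt hP0,
    mul_le_mul_of_nonneg_left hPA (by positivity : (0 : ℝ) ≤ 4 * B ^ 2 * k)]

end logZ

end Vale.Agent.P157
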