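import Vale.Agent.P157.Model

/-!
The cavity (extended variational) formula for the limit.
-/

namespace Vale.Agent.P157

open MeasureTheory ProbabilityTheory Filter
open scoped RealInnerProductSpace Topology

lemma poiE_mono {lam C D : ℝ} (hl : 0 ≤ lam) {F G : ℕ → ℝ} (hF : ∀ k, |F k| ≤ C * ((k : ℝ) + 1))
    (hG : ∀ k, |G k| ≤ D * ((k : ℝ) + 1)) (h : ∀ k, F k ≤ G k) : poiE lam F ≤ poiE lam G := by
  have hs : ∀ {H : ℕ → ℝ} {E : ℝ}, (∀ k, |H k| ≤ E * ((k : ℝ) + 1)) →
      Summable fun k : ℕ => Real.exp (-lam) * lam ^ k / k.factorial * H k := fun {H E} hH => by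
    simpa [mul_assoc, mul_div_assoc] using (summable_poi hl hH).mul_left (Real.exp (-lam))
  exact (hs hF).tsum_le_tsum (fun k => mul_le_mul_of_nonneg_left (h k) (by positivity)) (hs hG)

variable {X : Type} [MeasurableSpace X] {μ : Measure X} [IsProbabilityMeasure μ]
  {f : ℝ → ℝ} {a : ℝ} {ν : Measure ℝ}
variable {E E' : Type} [NormedAddCommGroup E] [InnerProductSpace ℝ E] [FiniteDimensional ℝ E]
  [MeasurableSpace E] [BorelSpace E] [NormedAddCommGroup E'] [InnerProductSpace ℝ E']
  [FiniteDimensional ℝ E'] [MeasurableSpace E'] [BorelSpace E']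

/-- The log-partition function depends on the vectors through their inner products only. -/
theorem L_gram (hk : Ker f a ν) {v : X → E} {v' : X → E'} (hv : Measurable v) (hv' : Measurable v')
    (hg : ∀ x y, ⟪v x, v y⟫ = ⟪v' x, v' y⟫) :
    ∀ k w, Wt w → L μ f v k w = L μ f v' k w := by
  have hf := hk.pot
  have := hk.fin
  have hone : ∀ w, Wt w → avg (stdGaussian E) (pw f v) (logI μ) w =
      avg (stdGaussian E') (pw f v') (logI μ) w := fun w hw => by
    have := isProbabilityMeasure_gibbs (μ := μ) hw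
    rw [avg_logI (mult_pw hf hv) hw, avg_logI (mult_pw hf hv') hw]
    have h1 := hasSum_mom (ρ := gibbs μ w) hk hv
    have h2 := hasSum_mom (ρ := gibbs μ w) hk hv'
    have e : ∀ n, mom (gibbs μ w) ν v n = mom (gibbs μ w) ν v' n := fun n => by
      refine integral_congr_ae (Filter.Eventually.of_forall fun y => ?_)
      simp only [← real_inner_self_eq_norm_sq, sum_inner, inner_sum, real_inner_smul_left,
        real_inner_smul_right, hg]
    simp only [e] at h1
    have h := h1.unique h2
    simp only [pw]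
    linarith
  intro k
  induction k with
  | zero => intro w _; rfl
  | succ k ih =>
    intro w hw
    calc L μ f v (k + 1) w = avg (stdGaussian E) (pw f v) (L μ f v k) w := rfl
      _ = avg (stdGaussian E) (pw f v) (L μ f v' k) w :=
          integral_congr_ae (Filter.Eventually.of_forall fun g => ih _ (hw.mul ((mult_pw hf hv).wt g)))
      _ = iter f v' k (avg (stdGaussian E) (pw f v) (logI μ)) w :=
          (iter_avg hf hv' (mult_pw hf hv) nice_logI k w hw).symm
      _ = iter f v' k (avg (stdGaussian E') (pw f v') (logI μ)) w :=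
          le_antisymm
            (iter_mono hf hv' (Nice.avg (mult_pw hf hv) nice_logI) (Nice.avg (mult_pw hf hv') nice_logI)
              (fun w hw => (hone w hw).le) k w hw)
            (iter_mono hf hv' (Nice.avg (mult_pw hf hv') nice_logI) (Nice.avg (mult_pw hf hv) nice_logI)
              (fun w hw => (hone w hw).ge) k w hw)
      _ = L μ f v' (k + 1) w := by rw [L, iter_succ']

variable {N d : ℕ}

/-- Joint vector of the new spins and the outer configuration. -/
noncomputable def joinVec (ε : ℝ) (z : EuclideanSpace ℝ (Fin N) × EuclideanSpace ℝ (Fin d)) :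
    EuclideanSpace ℝ (Fin N ⊕ Fin d) :=
  WithLp.toLp 2 (Sum.elim (fun i => Real.sqrt ε * z.1 i) fun j => Real.sqrt (1 - ε) * z.2 j)

lemma measurable_joinVec (ε : ℝ) : Measurable (joinVec (N := N) (d := d) ε) := by
  refine (WithLp.measurable_toLp 2 _).comp (measurable_pi_iff.2 fun i => ?_)
  cases i <;> simp only [Sum.elim_inl, Sum.elim_inr] <;> fun_prop

lemma inner_joinVec {ε : ℝ} (h0 : 0 ≤ ε) (h1 : ε ≤ 1)
    (x y : EuclideanSpace ℝ (Fin N) × EuclideanSpace ℝ (Fin d)) :
    ⟪joinVec ε x, joinVec ε y⟫ = ε * ⟪x.1, y.1⟫ + (1 - ε) * ⟪x.2, y.2⟫ := by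
  simp only [joinVec, PiLp.inner_apply, RCLike.inner_apply, conj_trivial, Fintype.sum_sum_type,
    Sum.elim_inl, Sum.elim_inr, Finset.mul_sum]
  have a1 := Real.mul_self_sqrt h0
  have a2 := Real.mul_self_sqrt (sub_nonneg.2 h1)
  congr 1 <;> refine Finset.sum_congr rfl fun i _ => ?_
  · linear_combination (x.1 i * y.1 i) * a1
  · linear_combination (x.2 i * y.2 i) * a2

variable (f) in
/-- The joint log-partition function. -/
noncomputable def jointF (τ : Measure (EuclideanSpace ℝ (Fin N)))
    (ρ : Measure (EuclideanSpace ℝ (Fin d))) (ε : ℝ) (k : ℕ) : ℝ :=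
  L (τ.prod ρ) f (joinVec ε) k fun _ => 1

variable (f) in
/-- The log-partition function of one part. -/
noncomputable def partF (τ : Measure (EuclideanSpace ℝ (Fin N))) (k : ℕ) : ℝ :=
  L τ f id k fun _ => 1

/-- Two blocks. -/
theorem two_block (hk : Ker f a ν) (τ : Measure (EuclideanSpace ℝ (Fin N)))
    (ρ : Measure (EuclideanSpace ℝ (Fin d))) [IsProbabilityMeasure τ] [IsProbabilityMeasure ρ]
    {ε : ℝ} (h0 : 0 ≤ ε) (h1 : ε ≤ 1) (M : ℕ) :
    binE M ε (partF f τ) + binE M (1 - ε) (partF f ρ) ≤ jointF f τ ρ ε M := by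
  let n : Bool → ℕ := fun b => if b then N else d
  let m : ∀ b, Measure (EuclideanSpace ℝ (Fin (n b))) := fun b =>
    match b with
    | true => τ
    | false => ρ
  have : ∀ b, IsProbabilityMeasure (m b) := fun b => by cases b <;> assumption
  let φ : EuclideanSpace ℝ (Fin N) × EuclideanSpace ℝ (Fin d) → ∀ b, EuclideanSpace ℝ (Fin (n b)) :=
    fun z b => match b with
    | true => z.1
    | false => z.2
  have hφ : Measurable φ := measurable_pi_iff.2 fun b => by
    cases b
    · exact measurable_snd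
    · exact measurable_fst
  have hmap : (τ.prod ρ).map φ = Measure.pi m := by
    refine (Measure.pi_eq fun s hs => ?_).symm
    rw [Measure.map_apply hφ (MeasurableSet.univ_pi hs)]
    have : φ ⁻¹' Set.univ.pi s = (s true) ×ˢ (s false) := by
      ext z
      simp only [Set.mem_preimage, Set.mem_univ_pi, Bool.forall_bool, Set.mem_prod, φ]
      exact and_comm
    rw [this, Measure.prod_prod, Fintype.prod_bool]
  set v : (∀ b, EuclideanSpace ℝ (Fin (n b))) → EuclideanSpace ℝ (Fin N ⊕ Fin d) := fun x =>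
    joinVec ε (x true, x false)
  have hv : Measurable v :=
    (measurable_joinVec ε).comp ((measurable_pi_apply true).prodMk (measurable_pi_apply false))
  have h := L_block hk (μ := m) (u := fun _ => id) (fun _ => measurable_id) hv
    (s := fun b => if b then ε else 1 - ε) (fun b => by cases b <;> simp <;> linarith) (by simp)
    (fun x y => by
      simp only [v, inner_joinVec h0 h1, Fintype.sum_bool, id]
      rfl)
    M (fun _ _ => 1) fun _ => Wt.one
  have e := L_map (μ := Measure.pi m) hφ hmap hk.pot hv M (fun _ => 1) Wt.one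
  simp only [Fintype.sum_bool, Finset.prod_const_one] at h
  rw [← e] at h
  exact h

/-- The Poissonised two-block inequality. -/
theorem poisson_two_block (hk : Ker f a ν) (τ : Measure (EuclideanSpace ℝ (Fin N)))
    (ρ : Measure (EuclideanSpace ℝ (Fin d))) [IsProbabilityMeasure τ] [IsProbabilityMeasure ρ]
    {ε lam : ℝ} (h0 : 0 ≤ ε) (h1 : ε ≤ 1) (hl : 0 ≤ lam) :
    poiE (lam * ε) (partF f τ) + poiE (lam * (1 - ε)) (partF f ρ) ≤ poiE lam (jointF f τ ρ ε) := by
  have hf := hk.pot
  refine le_of_tendsto_of_tendsto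
    ((tendsto_binE_div (mul_nonneg hl h0) (abs_L_one hf measurable_id)).add
      (tendsto_binE_div (mul_nonneg hl (sub_nonneg.2 h1)) (abs_L_one hf measurable_id)))
    (tendsto_binE_div hl (abs_L_one hf (measurable_joinVec ε))) ?_
  filter_upwards [eventually_ge_atTop (⌈lam⌉₊ + 1)] with K hK
  have hK0 : (0 : ℝ) < K := by exact_mod_cast (by omega : 0 < K)
  have hlK : lam ≤ K := (Nat.le_ceil _).trans (by exact_mod_cast (by omega : ⌈lam⌉₊ ≤ K))
  have h := binE_mono (div_nonneg hl hK0.le) ((div_le_one hK0).2 hlK) K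
    fun M _ => two_block hk τ ρ h0 h1 M
  rw [binE_add, binE_thin, binE_thin] at h
  rw [show lam * ε / (K : ℝ) = lam / K * ε by ring,
    show lam * (1 - ε) / (K : ℝ) = lam / K * (1 - ε) by ring]
  exact h

/-- Law of the unit vector of a uniform configuration of the cube. -/
noncomputable def cubeLaw (N : ℕ) : Measure (EuclideanSpace ℝ (Fin N)) :=
  (cubeMeasure N).map (cubeVec N)

instance (N : ℕ) : IsProbabilityMeasure (cubeLaw N) :=
  Measure.isProbabilityMeasure_map (measurable_of_finite _).aemeasurable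

lemma partF_cubeLaw (hk : Ker f a ν) (N k : ℕ) : partF f (cubeLaw N) k = cubeF f N k :=
  (L_map (measurable_of_finite (cubeVec N)) rfl hk.pot measurable_id k (fun _ => 1) Wt.one).symm

/-- Law of a uniform point of the sphere. -/
noncomputable def sphereLaw (N : ℕ) : Measure (EuclideanSpace ℝ (Fin N)) :=
  (sphereMeasure N).map Subtype.val

lemma isProbabilityMeasure_sphereLaw (hN : 1 ≤ N) : IsProbabilityMeasure (sphereLaw N) := by
  have := isProbabilityMeasure_sphereMeasure hN
  exact Measure.isProbabilityMeasure_map measurable_subtype_coe.aemeasurable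

lemma partF_sphereLaw (hk : Ker f a ν) (hN : 1 ≤ N) (k : ℕ) :
    partF f (sphereLaw N) k = sphereF f N k := by
  have := isProbabilityMeasure_sphereMeasure hN
  exact (L_map measurable_subtype_coe rfl hk.pot measurable_id k (fun _ => 1) Wt.one).symm

lemma jointF_cube (hk : Ker f a ν) {N n : ℕ} (hN : 1 ≤ N) (hn : 1 ≤ n) (k : ℕ) :
    jointF f (cubeLaw N) (cubeLaw n) ((N : ℝ) / (N + n)) k ≤ cubeF f (N + n) k := by
  set ε := (N : ℝ) / (N + n) with hε
  have hN0 : (0 : ℝ) < N := by exact_mod_cast hN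
  have hn0 : (0 : ℝ) < n := by exact_mod_cast hn
  have h0 : 0 ≤ ε := by positivity
  have h1 : ε ≤ 1 := by rw [hε, div_le_one (by positivity)]; linarith
  set ψ : (Fin N → Bool) × (Fin n → Bool) → Fin (N + n) → Bool := fun p => Fin.append p.1 p.2
  have hψ : Function.Bijective ψ := (Fin.appendEquiv N n).bijective
  have hm : ((cubeMeasure N).prod (cubeMeasure n)).map ψ = cubeMeasure (N + n) := by
    refine Measure.ext_of_singleton fun σ => ?_
    obtain ⟨x, rfl⟩ := hψ.2 σ
    rw [Measure.map_apply (measurable_of_finite _) (measurableSet_singleton _),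
      ← Set.image_singleton (f := ψ), hψ.1.preimage_image, Set.image_singleton,
      show ({x} : Set _) = {x.1} ×ˢ {x.2} by rw [Set.singleton_prod_singleton], Measure.prod_prod]
    simp only [cubeMeasure, Measure.smul_apply, Measure.count_singleton, smul_eq_mul, mul_one,
      Fintype.card_fun, Fintype.card_bool, Fintype.card_fin, pow_add, Nat.cast_mul]
    rw [ENNReal.mul_inv (Or.inr (ENNReal.natCast_ne_top _)) (Or.inl (ENNReal.natCast_ne_top _))]
  set Φ : (Fin N → Bool) × (Fin n → Bool) → _ := Prod.map (cubeVec N) (cubeVec n)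
  have hΦ : ((cubeMeasure N).prod (cubeMeasure n)).map Φ = (cubeLaw N).prod (cubeLaw n) :=
    (Measure.map_prod_map _ _ (measurable_of_finite _) (measurable_of_finite _)).symm
  refine le_of_eq ?_
  rw [jointF, ← L_map (measurable_of_finite Φ) hΦ hk.pot (measurable_joinVec ε) k _ Wt.one,
    show ((fun _ => (1 : ℝ)) ∘ Φ) = fun _ => 1 from rfl, L_gram hk (v' := cubeVec (N + n) ∘ ψ) (measurable_of_finite _) (measurable_of_finite _) ?_ k _
      Wt.one,
    cubeF, ← L_map (measurable_of_finite ψ) hm hk.pot (measurable_of_finite _) k _ Wt.one]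
  · rfl
  · intro x y
    simp only [Function.comp, Φ, ψ, inner_joinVec h0 h1, Prod.map, inner_cubeVec, Fin.sum_univ_add,
      Fin.append_left, Fin.append_right, Nat.cast_add]
    rw [hε]
    field_simp
    ring

lemma jointF_sphere (hk : Ker f a ν) {N n : ℕ} (hN : 1 ≤ N) (hn : 1 ≤ n) (k : ℕ) :
    jointF f (sphereLaw N) (sphereLaw n) ((N : ℝ) / (N + n)) k ≤ sphereF f (N + n) k := by
  set ε := (N : ℝ) / (N + n) with hε
  have hN0 : (0 : ℝ) < N := by exact_mod_cast hN
  have hn0 : (0 : ℝ) < n := by exact_mod_cast hn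
  have h0 : 0 ≤ ε := by positivity
  have h1 : ε ≤ 1 := by rw [hε, div_le_one (by positivity)]; linarith
  have := isProbabilityMeasure_sphereMeasure hN
  have := isProbabilityMeasure_sphereMeasure hn
  set Φ : Sph N × Sph n → EuclideanSpace ℝ (Fin N) × EuclideanSpace ℝ (Fin n) :=
    Prod.map Subtype.val Subtype.val
  have hΦm : Measurable Φ :=
    (measurable_subtype_coe.comp measurable_fst).prodMk (measurable_subtype_coe.comp measurable_snd)
  have hΦ : ((sphereMeasure N).prod (sphereMeasure n)).map Φ = (sphereLaw N).prod (sphereLaw n) :=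
    (Measure.map_prod_map _ _ measurable_subtype_coe measurable_subtype_coe).symm
  set G : Sph N × Sph n → EuclideanSpace ℝ (Fin (N + n)) := fun p =>
    LinearIsometryEquiv.piLpCongrLeft 2 ℝ ℝ finSumFinEquiv (joinVec ε (Φ p))
  have hGm : Measurable G := (LinearIsometryEquiv.continuous _).measurable.comp
    ((measurable_joinVec ε).comp hΦm)
  have hmem : ∀ p, G p ∈ Metric.sphere (0 : EuclideanSpace ℝ (Fin (N + n))) 1 := fun p => by
    rw [mem_sphere_zero_iff_norm, LinearIsometryEquiv.norm_map]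
    have h : ‖joinVec ε (Φ p)‖ ^ 2 = 1 := by
      rw [← real_inner_self_eq_norm_sq, inner_joinVec h0 h1, real_inner_self_eq_norm_sq,
        real_inner_self_eq_norm_sq]
      simp [Φ]
    nlinarith [norm_nonneg (joinVec ε (Φ p))]
  set ψ : Sph N × Sph n → Sph (N + n) := fun p => ⟨G p, hmem p⟩
  have hψ : Measurable ψ := hGm.subtype_mk
  have := Measure.isProbabilityMeasure_map (μ := (sphereMeasure N).prod (sphereMeasure n))
    hψ.aemeasurable
  refine le_trans (le_of_eq ?_) (L_le_uniform (by omega) hk.pot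
    (((sphereMeasure N).prod (sphereMeasure n)).map ψ) k)
  rw [jointF, ← L_map hΦm hΦ hk.pot (measurable_joinVec ε) k _ Wt.one,
    show ((fun _ => (1 : ℝ)) ∘ Φ) = fun _ => 1 from rfl, L_gram hk (v' := Subtype.val ∘ ψ) ((measurable_joinVec ε).comp hΦm)
      (measurable_subtype_coe.comp hψ) ?_ k _ Wt.one,
    ← L_map hψ rfl hk.pot measurable_subtype_coe k _ Wt.one]
  · rfl
  · intro x y
    exact ((LinearIsometryEquiv.piLpCongrLeft 2 ℝ ℝ finSumFinEquiv).inner_map_map _ _).symm

namespace SuperAdd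

variable {F : ℕ → ℕ → ℝ} {C α : ℝ}

/-- Increments over `N` steps of the Poissonised log-partition function are not all above the limit. -/
lemma exists_increment (hF : SuperAdd F C) (hα : 0 < α) {N : ℕ} (hN : 1 ≤ N) {η : ℝ} (hη : 0 < η) :
    ∃ n, 1 ≤ n ∧ poiE (α * (N + n : ℕ)) (F (N + n)) - poiE (α * n) (F n) ≤ N * (hF.limit α + η) := by
  by_contra hcon
  push Not at hcon
  set P : ℕ → ℝ := fun m => poiE (α * m) (F m)
  set p := hF.limit α
  have hN0 : (0 : ℝ) < N := by exact_mod_cast hN
  have hgrow : ∀ j : ℕ, P 1 + j * (N * (p + η)) ≤ P (j * N + 1) := by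
    intro j
    induction j with
    | zero => simp
    | succ j ih =>
      have := hcon (j * N + 1) (by omega)
      rw [show (j + 1) * N + 1 = N + (j * N + 1) by ring]
      simp only [P] at ih ⊢
      push_cast at *
      linarith
  obtain ⟨j, hj⟩ := exists_nat_gt ((p - P 1) / (N * η))
  rw [div_lt_iff₀ (mul_pos hN0 hη)] at hj
  have hm : P (j * N + 1) ≤ (j * N + 1 : ℕ) * p := by
    have := hF.poiE_le_limit hα.le (N := j * N + 1) (by omega)
    rw [div_le_iff₀ (by positivity)] at this
    linarith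
  have := hgrow j
  push_cast at hm
  nlinarith

end SuperAdd

variable {α : ℝ}

/-- The variational characterisation on abstract laws. -/
theorem variational (hk : Ker f a ν) {F : ℕ → ℕ → ℝ} {C : ℝ} (hF : SuperAdd F C)
    (τ : ∀ N : ℕ, Measure (EuclideanSpace ℝ (Fin N))) (hτ : ∀ N, 1 ≤ N → IsProbabilityMeasure (τ N))
    (hpart : ∀ N, 1 ≤ N → ∀ k, partF f (τ N) k = F N k)
    (hjoint : ∀ N n, 1 ≤ N → 1 ≤ n → ∀ k, jointF f (τ N) (τ n) ((N : ℝ) / (N + n)) k ≤ F (N + n) k)
    (hα : 0 < α) (Γ : ∀ N d : ℕ, Measure (EuclideanSpace ℝ (Fin d)) → ℝ → ℝ)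
    (hΓ : ∀ N, 1 ≤ N → ∀ d ρ ε, IsProbabilityMeasure ρ → 0 < ε → ε < 1 → Γ N d ρ ε =
      (poiE (α * N / ε) (jointF f (τ N) ρ ε) - poiE (α * N * (1 - ε) / ε) (partF f ρ)) / N) :
    (∀ η, 0 < η → ∀ᶠ N : ℕ in atTop, ∀ d ρ ε, IsProbabilityMeasure ρ → 0 < ε → ε < 1 →
      hF.limit α - η ≤ Γ N d ρ ε) ∧
    ∀ N, 1 ≤ N → ∀ η, 0 < η → ∃ d ρ ε, IsProbabilityMeasure ρ ∧ 0 < ε ∧ ε < 1 ∧
      Γ N d ρ ε ≤ hF.limit α + η := by
  refine ⟨fun η hη => ?_, fun N hN η hη => ?_⟩
  · filter_upwards [(hF.tendsto_poiE hα).eventually (Ici_mem_nhds (sub_lt_self (hF.limit α) hη)),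
      eventually_ge_atTop 1] with N hN hN1 d ρ ε hρ he0 he1
    have := hτ N hN1
    have hN0 : (0 : ℝ) < N := by exact_mod_cast hN1
    refine le_trans hN ?_
    rw [hΓ N hN1 d ρ ε hρ he0 he1]
    have h := poisson_two_block hk (τ N) ρ he0.le he1.le (lam := α * N / ε) (by positivity)
    rw [div_mul_cancel₀ _ he0.ne', div_mul_eq_mul_div] at h
    have e : partF f (τ N) = F N := funext (hpart N hN1)
    rw [e] at h
    exact div_le_div_of_nonneg_right (by linarith) hN0.le
  · obtain ⟨n, hn, hinc⟩ := hF.exists_increment hα hN hη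
    have hN0 : (0 : ℝ) < N := by exact_mod_cast hN
    have hn0 : (0 : ℝ) < n := by exact_mod_cast hn
    set ε := (N : ℝ) / (N + n) with hε
    have he0 : 0 < ε := by positivity
    have he1 : ε < 1 := by rw [hε, div_lt_one (by positivity)]; linarith
    have := hτ N hN
    have := hτ n hn
    refine ⟨n, τ n, ε, hτ n hn, he0, he1, ?_⟩
    rw [hΓ N hN n (τ n) ε (hτ n hn) he0 he1, funext (hpart n hn), div_le_iff₀ hN0]
    have e1 : α * N / ε = α * (N + n : ℕ) := by rw [hε]; push_cast; field_simp
    have e2 : α * N * (1 - ε) / ε = α * n := by rw [hε]; field_simp; ring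
    rw [e1, e2]
    have hm := poiE_mono (lam := α * ((N + n : ℕ) : ℝ)) (by positivity)
      (abs_L_one (μ := (τ N).prod (τ n)) hk.pot (measurable_joinVec ε)) (hF.growth (N + n))
      (hjoint N n hN hn)
    have hm' : poiE (α * ((N + n : ℕ) : ℝ)) (jointF f (τ N) (τ n) ε) ≤
        poiE (α * ((N + n : ℕ) : ℝ)) (F (N + n)) := hm
    linarith

lemma cubeCavity_eq (hk : Ker f a ν) (N d : ℕ) (ρ : Measure (EuclideanSpace ℝ (Fin d))) (ε : ℝ)
    [IsProbabilityMeasure ρ] :
    cubeCavity f α N d ρ ε =
      (poiE (α * N / ε) (jointF f (cubeLaw N) ρ ε) - poiE (α * N * (1 - ε) / ε) (partF f ρ)) / N := by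
  have hf := hk.pot
  have e1 : (fun M => jointF f (cubeLaw N) ρ ε M) = fun M : ℕ =>
      ∫ g : Fin M → EuclideanSpace ℝ (Fin N ⊕ Fin d),
        Real.log (∫ x, (∑ σ : Fin N → Bool, Real.exp (∑ b, f (Real.sqrt ε *
            ((∑ i, g b (Sum.inl i) * (if σ i then 1 else -1)) / Real.sqrt N) +
          Real.sqrt (1 - ε) * ∑ j, g b (Sum.inr j) * x j))) / 2 ^ N ∂ρ)
        ∂Measure.pi fun _ => stdGaussian (EuclideanSpace ℝ (Fin N ⊕ Fin d)) := by
    funext M
    rw [jointF, L_eq_integral hf (measurable_joinVec ε) M _ Wt.one]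
    refine integral_congr_ae (Filter.Eventually.of_forall fun g => ?_)
    simp only [one_mul]
    congr 1
    have hm : Measurable fun z : EuclideanSpace ℝ (Fin N) × EuclideanSpace ℝ (Fin d) =>
        ∑ b, f ⟪g b, joinVec ε z⟫ :=
      Finset.measurable_sum _ fun b _ =>
        hf.meas.comp (measurable_const.inner (measurable_joinVec ε))
    have hi := (Wt.exp hm (β := M * (|Real.log (a - ν.real Set.univ)| + |Real.log (a + ν.real Set.univ)|))
      fun z => (Finset.abs_sum_le_sum_abs _ _).trans
        ((Finset.sum_le_sum fun b _ => hf.bound _).trans_eq (by simp [mul_add]))).integrable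
        (μ := (cubeLaw N).prod ρ)
    rw [integral_prod_symm _ hi]
    refine integral_congr_ae (Filter.Eventually.of_forall fun x => ?_)
    simp only [cubeLaw]
    refine (integral_map (measurable_of_finite _).aemeasurable
      (hm.exp.comp measurable_prodMk_right).aestronglyMeasurable).trans ?_
    rw [integral_cube]
    congr 1
    refine Finset.sum_congr rfl fun σ _ => congrArg Real.exp (Finset.sum_congr rfl fun b _ =>
      congrArg f ?_)
    simp only [joinVec, cubeVec, sgn, PiLp.inner_apply, RCLike.inner_apply, conj_trivial,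
      Fintype.sum_sum_type, Sum.elim_inl, Sum.elim_inr, Finset.mul_sum, Finset.sum_div,
      WithLp.ofLp_smul, Pi.smul_apply, smul_eq_mul]
    congr 1 <;> exact Finset.sum_congr rfl fun i _ => by ring
  have e2 : (fun M => partF f ρ M) = fun M : ℕ => ∫ g : Fin M → EuclideanSpace ℝ (Fin d),
      Real.log (∫ x, Real.exp (∑ b, f ⟪g b, x⟫) ∂ρ)
        ∂Measure.pi fun _ => stdGaussian (EuclideanSpace ℝ (Fin d)) := by
    funext M
    rw [partF, L_eq_integral hf measurable_id M _ Wt.one]
    simp only [one_mul, id]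
  rw [cubeCavity, ← e1, ← e2]
  rfl

lemma sphereCavity_eq (hk : Ker f a ν) {N : ℕ} (hN : 1 ≤ N) (d : ℕ)
    (ρ : Measure (EuclideanSpace ℝ (Fin d))) (ε : ℝ) [IsProbabilityMeasure ρ] :
    sphereCavity f α N d ρ ε =
      (poiE (α * N / ε) (jointF f (sphereLaw N) ρ ε) - poiE (α * N * (1 - ε) / ε) (partF f ρ)) / N := by
  have hf := hk.pot
  have := isProbabilityMeasure_sphereLaw hN
  have hs : Real.sqrt N ≠ 0 := Real.sqrt_ne_zero'.2 (by exact_mod_cast hN)
  have e1 : (fun M => jointF f (sphereLaw N) ρ ε M) = fun M : ℕ =>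
      ∫ g : Fin M → EuclideanSpace ℝ (Fin N ⊕ Fin d),
        Real.log (∫ x, (∫ u, Real.exp (∑ b, f (Real.sqrt ε *
            ((∑ i, g b (Sum.inl i) * (Real.sqrt N *
              (u : EuclideanSpace ℝ (Fin N)) i)) / Real.sqrt N) +
          Real.sqrt (1 - ε) * ∑ j, g b (Sum.inr j) * x j)) ∂unitSphereUniform N) ∂ρ)
        ∂Measure.pi fun _ => stdGaussian (EuclideanSpace ℝ (Fin N ⊕ Fin d)) := by
    funext M
    rw [jointF, L_eq_integral hf (measurable_joinVec ε) M _ Wt.one]
    refine integral_congr_ae (Filter.Eventually.of_forall fun g => ?_)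
    simp only [one_mul]
    congr 1
    have hm : Measurable fun z : EuclideanSpace ℝ (Fin N) × EuclideanSpace ℝ (Fin d) =>
        ∑ b, f ⟪g b, joinVec ε z⟫ :=
      Finset.measurable_sum _ fun b _ =>
        hf.meas.comp (measurable_const.inner (measurable_joinVec ε))
    have hi := (Wt.exp hm (β := M * (|Real.log (a - ν.real Set.univ)| + |Real.log (a + ν.real Set.univ)|))
      fun z => (Finset.abs_sum_le_sum_abs _ _).trans
        ((Finset.sum_le_sum fun b _ => hf.bound _).trans_eq (by simp [mul_add]))).integrable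
        (μ := (sphereLaw N).prod ρ)
    rw [integral_prod_symm _ hi]
    refine integral_congr_ae (Filter.Eventually.of_forall fun x => ?_)
    simp only [sphereLaw]
    refine (integral_map measurable_subtype_coe.aemeasurable
      (hm.exp.comp measurable_prodMk_right).aestronglyMeasurable).trans ?_
    refine integral_congr_ae (Filter.Eventually.of_forall fun u => congrArg Real.exp
      (Finset.sum_congr rfl fun b _ => congrArg f ?_))
    simp only [joinVec, PiLp.inner_apply, RCLike.inner_apply, conj_trivial,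
      Fintype.sum_sum_type, Sum.elim_inl, Sum.elim_inr, Finset.mul_sum, Finset.sum_div]
    congr 1 <;> exact Finset.sum_congr rfl fun i _ => by field_simp
  have e2 : (fun M => partF f ρ M) = fun M : ℕ => ∫ g : Fin M → EuclideanSpace ℝ (Fin d),
      Real.log (∫ x, Real.exp (∑ b, f ⟪g b, x⟫) ∂ρ)
        ∂Measure.pi fun _ => stdGaussian (EuclideanSpace ℝ (Fin d)) := by
    funext M
    rw [partF, L_eq_integral hf measurable_id M _ Wt.one]
    simp only [one_mul, id]
  rw [sphereCavity, ← e1, ← e2]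
  rfl

end Vale.Agent.P157
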