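import Vale.Agent.P157.Gardner
import Vale.Agent.P157.Variational

/-!
The free energy of Gaussian perceptrons with `exp f = a - V`, `V` positive definite.
-/

namespace Vale.Agent.P157

open MeasureTheory ProbabilityTheory Filter
open scoped Topology

/-- The limit exists, is given by the cavity variational formula and lies below Gardner's
replica-symmetric free energy at every overlap. -/
theorem free_energy {f : ℝ → ℝ} {a : ℝ} {ν : Measure ℝ} [IsFiniteMeasure ν] {α : ℝ}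
    (hlt : ν.real Set.univ < a) (heq : ∀ x, Real.exp (f x) = a - ∫ t, Real.cos (t * x) ∂ν)
    (hα : 0 < α) :
    (∃ p, Tendsto (fun N : ℕ => cubePressure f N ⌊α * N⌋₊) atTop (𝓝 p) ∧
      IsLUB (Set.range fun N : ℕ => poissonMean (α * (N + 1)) (cubePressure f (N + 1))) p ∧
      (∀ η, 0 < η → ∀ᶠ N : ℕ in atTop, ∀ d ρ ε, IsProbabilityMeasure ρ → 0 < ε → ε < 1 →
        p - η ≤ cubeCavity f α N d ρ ε) ∧
      (∀ N, 1 ≤ N → ∀ η, 0 < η → ∃ d ρ ε, IsProbabilityMeasure ρ ∧ 0 < ε ∧ ε < 1 ∧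
        cubeCavity f α N d ρ ε ≤ p + η) ∧
      ∀ q, 0 ≤ q → q < 1 → p ≤ gardnerIsing f α q) ∧
    ∃ p, Tendsto (fun N : ℕ => spherePressure f N ⌊α * N⌋₊) atTop (𝓝 p) ∧
      IsLUB (Set.range fun N : ℕ => poissonMean (α * (N + 1)) (spherePressure f (N + 1))) p ∧
      (∀ η, 0 < η → ∀ᶠ N : ℕ in atTop, ∀ d ρ ε, IsProbabilityMeasure ρ → 0 < ε → ε < 1 →
        p - η ≤ sphereCavity f α N d ρ ε) ∧
      (∀ N, 1 ≤ N → ∀ η, 0 < η → ∃ d ρ ε, IsProbabilityMeasure ρ ∧ 0 < ε ∧ ε < 1 ∧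
        sphereCavity f α N d ρ ε ≤ p + η) ∧
      ∀ q, 0 ≤ q → q < 1 → p ≤ gardnerSphere f α q := by
  have hk := ker_symmetrise hlt heq
  constructor
  · have hF := superAdd_cube hk
    obtain ⟨h1, h2⟩ := hF.limit_spec hα fun N _ k => cubeF_eq hk.pot N k
    obtain ⟨h3, h4⟩ := variational hk hF cubeLaw (fun N _ => inferInstance)
      (fun N _ k => partF_cubeLaw hk N k) (fun N n hN hn k => jointF_cube hk hN hn k) hα
      (cubeCavity f α) fun N _ d ρ ε hρ _ _ => cubeCavity_eq hk N d ρ ε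
    exact ⟨_, h1, h2, h3, h4, fun q hq0 hq1 => limit_le_gardnerIsing hk hα hq0 hq1⟩
  · have hF := superAdd_sphere hk
    obtain ⟨h1, h2⟩ := hF.limit_spec hα fun N hN k => sphereF_eq hk.pot hN k
    obtain ⟨h3, h4⟩ := variational hk hF sphereLaw (fun N hN => isProbabilityMeasure_sphereLaw hN)
      (fun N hN k => partF_sphereLaw hk hN k) (fun N n hN hn k => jointF_sphere hk hN hn k) hα
      (sphereCavity f α) fun N hN d ρ ε hρ _ _ => sphereCavity_eq hk hN d ρ ε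
    exact ⟨_, h1, h2, h3, h4, fun q hq0 hq1 => limit_le_gardnerSphere hk hα hq0 hq1⟩

end Vale.Agent.P157
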