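import Vale.Agent.P157.Kernel

/-!
The tangent bound: one pattern against the replica-symmetric overlap `q`.
-/

namespace Vale.Agent.P157

open MeasureTheory ProbabilityTheory Complex
open scoped RealInnerProductSpace

/-- Gaussian damping of frequency `t`. -/
noncomputable def damp (q t : ℝ) : ℝ := Real.exp (-(1 - q) * t ^ 2 / 2)

/-- Gaussian smoothing of the kernel. -/
noncomputable def rsW (ν : Measure ℝ) (q y : ℝ) : ℝ :=
  ∫ t, Real.cos (t * (Real.sqrt q * y)) * damp q t ∂ν

/-- Gaussian smoothing of the derivative of the kernel. -/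
noncomputable def rsS (ν : Measure ℝ) (q y : ℝ) : ℝ :=
  ∫ t, t * (Real.sin (t * (Real.sqrt q * y)) * damp q t) ∂ν

variable {q : ℝ} {ν : Measure ℝ}

lemma damp_nonneg (q t : ℝ) : 0 ≤ damp q t := (Real.exp_pos _).le

lemma damp_le_one (hq : q ≤ 1) (t : ℝ) : damp q t ≤ 1 := by
  rw [damp, Real.exp_le_one_iff]
  nlinarith [sq_nonneg t]

/-- The bound for `|t| * damp q t`. -/
noncomputable def dampC (q : ℝ) : ℝ := 1 / (1 - q) + 1

lemma one_le_dampC (hq : q < 1) : 1 ≤ dampC q :=
  le_add_of_nonneg_left (div_nonneg zero_le_one (by linarith))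

lemma abs_mul_damp (hq : q < 1) (t : ℝ) : |t * damp q t| ≤ dampC q := by
  rw [abs_mul, abs_of_nonneg (damp_nonneg q t)]
  have h : 0 < 1 - q := by linarith
  have h1 := Real.add_one_le_exp ((1 - q) * t ^ 2 / 2)
  have h2 : |t| ≤ dampC q * Real.exp ((1 - q) * t ^ 2 / 2) := by
    refine le_trans ?_ (mul_le_mul_of_nonneg_left h1 (le_trans zero_le_one (one_le_dampC hq)))
    have e : dampC q * ((1 - q) * t ^ 2 / 2 + 1) =
        t ^ 2 / 2 + 1 + (1 / (1 - q) + (1 - q) * t ^ 2 / 2) := by
      rw [dampC]; field_simp; ring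
    rw [e]
    have : 0 ≤ 1 / (1 - q) + (1 - q) * t ^ 2 / 2 := by positivity
    nlinarith [sq_nonneg (|t| - 1), sq_abs t]
  refine le_trans (mul_le_mul_of_nonneg_right h2 (damp_nonneg q t)) (le_of_eq ?_)
  rw [damp, mul_assoc, ← Real.exp_add]
  convert mul_one (dampC q) using 2
  rw [← Real.exp_zero]; congr 1; ring

lemma abs_rsW_le [IsFiniteMeasure ν] (hq : q ≤ 1) (y : ℝ) : |rsW ν q y| ≤ ν.real Set.univ := by
  rw [← Real.norm_eq_abs]
  refine (norm_integral_le_of_norm_le_const (μ := ν) (C := 1)
    (Filter.Eventually.of_forall fun t => ?_)).trans_eq (one_mul _)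
  rw [Real.norm_eq_abs, abs_mul, abs_of_nonneg (damp_nonneg q t)]
  exact mul_le_one₀ (Real.abs_cos_le_one _) (damp_nonneg q t) (damp_le_one hq t)

lemma abs_rsS_le [IsFiniteMeasure ν] (hq : q < 1) (y : ℝ) :
    |rsS ν q y| ≤ dampC q * ν.real Set.univ := by
  rw [← Real.norm_eq_abs]
  refine norm_integral_le_of_norm_le_const (μ := ν) (C := dampC q)
    (Filter.Eventually.of_forall fun t => ?_)
  rw [Real.norm_eq_abs, show t * (Real.sin (t * (Real.sqrt q * y)) * damp q t) =
    Real.sin (t * (Real.sqrt q * y)) * (t * damp q t) by ring, abs_mul]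
  exact (mul_le_of_le_one_left (abs_nonneg _) (Real.abs_sin_le_one _)).trans (abs_mul_damp hq t)

lemma continuous_rsW [IsFiniteMeasure ν] (hq : q ≤ 1) : Continuous (rsW ν q) := by
  refine continuous_of_dominated (bound := fun _ => (1 : ℝ))
    (fun y => Continuous.aestronglyMeasurable (by unfold damp; fun_prop))
    (fun y => Filter.Eventually.of_forall fun t => ?_)
    (integrable_const _) (Filter.Eventually.of_forall fun t => by fun_prop)
  rw [Real.norm_eq_abs, abs_mul, abs_of_nonneg (damp_nonneg q t)]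
  exact mul_le_one₀ (Real.abs_cos_le_one _) (damp_nonneg q t) (damp_le_one hq t)

lemma continuous_rsS [IsFiniteMeasure ν] (hq : q < 1) : Continuous (rsS ν q) := by
  refine continuous_of_dominated (bound := fun _ => dampC q)
    (fun y => Continuous.aestronglyMeasurable (by unfold damp; fun_prop))
    (fun y => Filter.Eventually.of_forall fun t => ?_)
    (integrable_const _) (Filter.Eventually.of_forall fun t => by fun_prop)
  rw [Real.norm_eq_abs, show t * (Real.sin (t * (Real.sqrt q * y)) * damp q t) =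
    Real.sin (t * (Real.sqrt q * y)) * (t * damp q t) by ring, abs_mul]
  exact (mul_le_of_le_one_left (abs_nonneg _) (Real.abs_sin_le_one _)).trans (abs_mul_damp hq t)

variable {f : ℝ → ℝ} {a : ℝ}

/-- The complex form of the two smoothed kernels. -/
lemma integral_cexp_damp (hk : Ker f a ν) (hq : q < 1) (y : ℝ) :
    (∫ t, ((damp q t : ℝ) : ℂ) * cexp ((t * (Real.sqrt q * y) : ℝ) * I) ∂ν = (rsW ν q y : ℂ)) ∧
    (∫ t, ((t * damp q t : ℝ) : ℂ) * cexp ((t * (Real.sqrt q * y) : ℝ) * I) ∂ν =
      (rsS ν q y : ℂ) * I) := by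
  have := hk.fin
  set s := Real.sqrt q * y
  have hodd : ∀ φ : ℝ → ℝ, Measurable φ → (∀ t, φ (-t) = -φ t) → ∫ t, φ t ∂ν = 0 := fun φ hφ ho => by
    have h : ∫ t, φ t ∂ν = ∫ t, φ (-t) ∂ν := by
      conv_lhs => rw [← hk.symm]
      rw [integral_map measurable_neg.aemeasurable hφ.aestronglyMeasurable]
    simp only [ho, integral_neg] at h
    linarith
  have hd : ∀ t, damp q (-t) = damp q t := fun t => by simp [damp]
  have hdm : Measurable (damp q) := by unfold damp; fun_prop
  have e : ∀ t : ℝ, cexp ((t * s : ℝ) * I) =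
      ((Real.cos (t * s) : ℝ) : ℂ) + ((Real.sin (t * s) : ℝ) : ℂ) * I := fun t => by
    rw [Complex.exp_mul_I, Complex.ofReal_cos, Complex.ofReal_sin]
  have key : ∀ φ : ℝ → ℝ, Measurable φ → ∀ C, (∀ t, |φ t| ≤ C) →
      ∫ t, (φ t : ℂ) * cexp ((t * s : ℝ) * I) ∂ν =
        ((∫ t, φ t * Real.cos (t * s) ∂ν : ℝ) : ℂ) + ((∫ t, φ t * Real.sin (t * s) ∂ν : ℝ) : ℂ) * I := by
    intro φ hφ C hC
    have h1 : Integrable (fun t => φ t * Real.cos (t * s)) ν :=
      Integrable.mono' (integrable_const C) (by fun_prop) (Filter.Eventually.of_forall fun t => by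
        rw [Real.norm_eq_abs, abs_mul]
        exact (mul_le_of_le_one_right (abs_nonneg _) (Real.abs_cos_le_one _)).trans (hC t))
    have h2 : Integrable (fun t => φ t * Real.sin (t * s)) ν :=
      Integrable.mono' (integrable_const C) (by fun_prop) (Filter.Eventually.of_forall fun t => by
        rw [Real.norm_eq_abs, abs_mul]
        exact (mul_le_of_le_one_right (abs_nonneg _) (Real.abs_sin_le_one _)).trans (hC t))
    have h1' : Integrable (fun t => ((φ t * Real.cos (t * s) : ℝ) : ℂ)) ν := h1.ofReal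
    have h2' : Integrable (fun t => ((φ t * Real.sin (t * s) : ℝ) : ℂ) * I) ν :=
      h2.ofReal.mul_const I
    rw [← integral_complex_ofReal, ← integral_complex_ofReal, ← integral_mul_const,
      ← integral_add h1' h2']
    refine integral_congr_ae (Filter.Eventually.of_forall fun t => ?_)
    simp only [e t]
    push_cast
    ring
  constructor
  · rw [key (damp q) hdm 1 (fun t => by
        rw [abs_of_nonneg (damp_nonneg q t)]; exact damp_le_one hq.le t),
      hodd (fun t => damp q t * Real.sin (t * s)) (by fun_prop)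
        (fun t => by simp [hd, Real.sin_neg])]
    simp [rsW, s, mul_comm]
  · rw [key (fun t => t * damp q t) (by fun_prop) (dampC q) (abs_mul_damp hq),
      hodd (fun t => t * damp q t * Real.cos (t * s)) (by fun_prop)
        (fun t => by simp [hd, Real.cos_neg])]
    simp only [rsS, Complex.ofReal_zero, zero_add]
    congr 2
    refine integral_congr_ae (Filter.Eventually.of_forall fun t => ?_)
    simp only [s]
    ring

/-- The damped Gaussian weight of a frequency vector. -/
noncomputable def e0 (q : ℝ) {n : ℕ} (t : Fin n → ℝ) : ℝ :=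
  Real.exp (-q * (∑ k, t k) ^ 2 / 2) * ∏ k, damp q (t k)

lemma e0_eq {n : ℕ} (t : Fin n → ℝ) :
    e0 q t = Real.exp (-((1 - q) * ∑ k, t k ^ 2 + q * (∑ k, t k) ^ 2) / 2) := by
  simp only [e0, damp]
  rw [← Real.exp_sum, ← Real.exp_add]
  congr 1
  rw [← Finset.sum_div, ← Finset.mul_sum]
  ring

/-- Gaussian averages of products of smoothed kernels. -/
lemma integral_prod_damp [IsFiniteMeasure ν] (hq0 : 0 ≤ q) {n : ℕ} (h : Fin n → ℝ → ℝ)
    (hm : ∀ k, Measurable (h k)) {C : ℝ} (hC : ∀ k t, |h k t * damp q t| ≤ C) :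
    ∫ y, (∏ k, ∫ t, ((h k t * damp q t : ℝ) : ℂ) * cexp ((t * (Real.sqrt q * y) : ℝ) * I) ∂ν)
        ∂gaussianReal 0 1 =
      ((∫ t, (∏ k, h k (t k)) * e0 q t ∂Measure.pi fun _ : Fin n => ν : ℝ) : ℂ) := by
  have hdm : Measurable (damp q) := by unfold damp; fun_prop
  simp only [← integral_fintype_prod_eq_prod]
  have hmk : Measurable fun z : ℝ × (Fin n → ℝ) =>
      ∏ k, ((h k (z.2 k) * damp q (z.2 k) : ℝ) : ℂ) *
        cexp ((z.2 k * (Real.sqrt q * z.1) : ℝ) * I) := by fun_prop
  rw [integral_integral_swap (f := fun (y : ℝ) (t : Fin n → ℝ) =>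
    ∏ k, ((h k (t k) * damp q (t k) : ℝ) : ℂ) * cexp ((t k * (Real.sqrt q * y) : ℝ) * I))
    (Integrable.mono' (integrable_const (|C| ^ n)) hmk.aestronglyMeasurable
      (Filter.Eventually.of_forall fun z => by
        rw [Function.uncurry, norm_prod]
        refine (Finset.prod_le_prod (fun k _ => norm_nonneg _) fun k _ => ?_).trans_eq
          (by simp : ∏ _k : Fin n, |C| = |C| ^ n)
        rw [norm_mul, Complex.norm_exp, Complex.norm_real, Real.norm_eq_abs]
        simpa using (hC k _).trans (le_abs_self C))),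
    ← integral_complex_ofReal]
  refine integral_congr_ae (Filter.Eventually.of_forall fun t => ?_)
  simp only
  rw [show (fun y : ℝ => ∏ k, ((h k (t k) * damp q (t k) : ℝ) : ℂ) *
      cexp ((t k * (Real.sqrt q * y) : ℝ) * I)) = fun y : ℝ => (∏ k, ((h k (t k) * damp q (t k) : ℝ) : ℂ)) *
      cexp (∑ k, ((t k * (Real.sqrt q * y) : ℝ) : ℂ) * I) from funext fun y => by
    rw [Finset.prod_mul_distrib, Complex.exp_sum], integral_const_mul]
  have e : ∀ y : ℝ, ∑ k, ((t k * (Real.sqrt q * y) : ℝ) : ℂ) * I =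
      (((Real.sqrt q * ∑ k, t k) * y : ℝ) : ℂ) * I := fun y => by
    rw [← Finset.sum_mul, ← Complex.ofReal_sum, ← Finset.sum_mul]
    congr 2; ring
  simp only [e, integral_cexp_gaussian]
  simp only [e0, Complex.ofReal_mul, Complex.ofReal_prod, Complex.ofReal_exp]
  have hs : ((Real.sqrt q : ℝ) : ℂ) ^ 2 = (q : ℂ) := by exact_mod_cast Real.sq_sqrt hq0
  have e2 : -((Real.sqrt q : ℂ) * ((∑ k, t k : ℝ) : ℂ)) ^ 2 / 2 =
      ((-q * (∑ k, t k) ^ 2 / 2 : ℝ) : ℂ) := by
    rw [mul_pow, hs]; push_cast; ring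
  rw [e2, Finset.prod_mul_distrib]
  ring

variable {X : Type} [MeasurableSpace X]
variable {E : Type} [NormedAddCommGroup E] [InnerProductSpace ℝ E] [FiniteDimensional ℝ E]
  [MeasurableSpace E] [BorelSpace E]

lemma integral_pi_pair {ρ : Measure X} [IsProbabilityMeasure ρ] {v : X → E} (hv : Measurable v)
    (hv1 : ∀ x, ‖v x‖ = 1) {n : ℕ} {l l' : Fin n} (h : l ≠ l') :
    ∫ x, ⟪v (x l), v (x l')⟫ ∂Measure.pi (fun _ : Fin n => ρ) = ‖∫ x, v x ∂ρ‖ ^ 2 := by
  have hind := (iIndepFun_pi (μ := fun _ : Fin n => ρ) (X := fun _ x => x)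
    fun _ => measurable_id.aemeasurable).indepFun h
  have hmap := (indepFun_iff_map_prod_eq_prod_map_map (measurable_pi_apply l).aemeasurable
    (measurable_pi_apply l').aemeasurable).1 hind
  simp only [(measurePreserving_eval (fun _ : Fin n => ρ) _).map_eq] at hmap
  have hint : Integrable (fun z : X × X => ⟪v z.1, v z.2⟫) (ρ.prod ρ) :=
    Integrable.mono' (integrable_const (1 : ℝ)) (Measurable.aestronglyMeasurable (by fun_prop))
      (Filter.Eventually.of_forall fun z => by
        simpa [hv1] using abs_real_inner_le_norm (v z.1) (v z.2))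
  have hvi : Integrable v ρ := Integrable.mono' (integrable_const (1 : ℝ)) hv.aestronglyMeasurable
    (Filter.Eventually.of_forall fun x => (hv1 x).le)
  have : ∫ x, ⟪v (x l), v (x l')⟫ ∂Measure.pi (fun _ : Fin n => ρ) =
      ∫ z, ⟪v z.1, v z.2⟫ ∂ρ.prod ρ := by
    rw [← hmap, integral_map (by fun_prop) (by rw [hmap]; exact hint.aestronglyMeasurable)]
  rw [this, integral_prod _ hint]
  simp only [_root_.integral_inner hvi]
  rw [← real_inner_self_eq_norm_sq, ← _root_.integral_inner hvi (∫ x, v x ∂ρ)]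
  exact integral_congr_ae (Filter.Eventually.of_forall fun x => real_inner_comm _ _)

/-- Replica moments against their replica-symmetric values. -/
lemma mom_tangent (hk : Ker f a ν) {ρ : Measure X} [IsProbabilityMeasure ρ] {v : X → E}
    (hv : Measurable v) (hv1 : ∀ x, ‖v x‖ = 1) (hq0 : 0 ≤ q) (hq1 : q < 1) (n : ℕ) :
    ∫ y, rsW ν q y ^ n ∂gaussianReal 0 1 +
        (‖∫ x, v x ∂ρ‖ ^ 2 - q) / 2 *
          (((n : ℝ) * ((n : ℝ) - 1)) * ∫ y, rsS ν q y ^ 2 * rsW ν q y ^ (n - 2) ∂gaussianReal 0 1) ≤
      mom ρ ν v n := by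
  classical
  have := hk.fin
  set P := Measure.pi fun _ : Fin n => ρ.prod ν
  set T := Measure.pi fun _ : Fin n => ν
  set S := Measure.pi fun _ : Fin n => ρ
  set R := ‖∫ x, v x ∂ρ‖ ^ 2
  -- expectation of a function of both variables
  have hsplit : ∀ (A : (Fin n → X) → ℝ) (B : (Fin n → ℝ) → ℝ),
      ∫ y, A (fun k => (y k).1) * B (fun k => (y k).2) ∂P = (∫ x, A x ∂S) * ∫ t, B t ∂T := by
    intro A B
    have hmp := measurePreserving_arrowProdEquivProdArrow X ℝ (Fin n) (fun _ => ρ) (fun _ => ν)
    rw [← integral_prod_mul A B, ← hmp.map_eq, integral_map_equiv]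
    rfl
  have hW := fun y => (integral_cexp_damp hk hq1 y).1
  have hS := fun y => (integral_cexp_damp hk hq1 y).2
  have hm0 : ∫ t, e0 q t ∂T = ∫ y, rsW ν q y ^ n ∂gaussianReal 0 1 := by
    apply Complex.ofReal_injective
    have h := integral_prod_damp (ν := ν) hq0 (fun (_ : Fin n) _ => (1 : ℝ)) (fun _ => measurable_const)
      (C := 1) fun _ t => by
        rw [one_mul, abs_of_nonneg (damp_nonneg q t)]; exact damp_le_one hq1.le t
    simp only [one_mul, Finset.prod_const_one, hW, Finset.prod_const, Finset.card_univ,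
      Fintype.card_fin] at h
    rw [← h, ← integral_complex_ofReal]
    simp
  have hpair : ∀ l l' : Fin n, l ≠ l' → ∫ t, (t l * t l') * e0 q t ∂T =
      -∫ y, rsS ν q y ^ 2 * rsW ν q y ^ (n - 2) ∂gaussianReal 0 1 := by
    intro l l' hne
    apply Complex.ofReal_injective
    set p : Fin n → Prop := fun k => k ∈ ({l, l'} : Finset (Fin n))
    have h := integral_prod_damp (ν := ν) hq0 (fun (k : Fin n) t => if p k then t else 1)
      (fun k => by by_cases hp : p k <;> simp [hp, measurable_id'])
      (C := dampC q) fun k t => by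
        by_cases hp : p k
        · simpa [hp] using abs_mul_damp hq1 t
        · simp only [hp, if_false, one_mul, abs_of_nonneg (damp_nonneg q t)]
          exact (damp_le_one hq1.le t).trans (one_le_dampC hq1)
    have hcard : ({l, l'} : Finset (Fin n)).card = 2 := Finset.card_pair hne
    have hl : ∀ y, (∏ k, ∫ t, (((if p k then t else 1) * damp q t : ℝ) : ℂ) *
        cexp ((t * (Real.sqrt q * y) : ℝ) * I) ∂ν) =
        ((rsS ν q y : ℂ) * I) ^ 2 * (rsW ν q y : ℂ) ^ (n - 2) := fun y => by
      rw [← Finset.prod_mul_prod_compl ({l, l'} : Finset (Fin n))]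
      congr 1
      · rw [Finset.prod_eq_pow_card (b := (rsS ν q y : ℂ) * I) fun k hk => by
          simp only [p, hk, if_true, hS], hcard]
      · rw [Finset.prod_eq_pow_card (b := (rsW ν q y : ℂ)) fun k hk => by
          simp only [p, (Finset.mem_compl.1 hk), if_false, one_mul, hW],
          Finset.card_compl, hcard, Fintype.card_fin]
    have hr : ∀ t : Fin n → ℝ, (∏ k, if p k then t k else 1) = t l * t l' := fun t => by
      rw [Finset.prod_ite_mem, Finset.univ_inter, Finset.prod_pair hne]
    simp only [hl, hr] at h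
    rw [← h, Complex.ofReal_neg, ← integral_complex_ofReal, ← integral_neg]
    refine integral_congr_ae (Filter.Eventually.of_forall fun y => ?_)
    simp only [mul_pow, Complex.I_sq]
    push_cast
    ring
  -- pointwise tangent
  set c : Fin n → Fin n → (Fin n → X × ℝ) → ℝ := fun l l' y =>
    if l = l' then 0 else (⟪v (y l).1, v (y l').1⟫ - q) *
      ((y l).2 * (y l').2 * e0 q (fun k => (y k).2))
  have hpt : ∀ y : Fin n → X × ℝ, e0 q (fun k => (y k).2) - (∑ l, ∑ l', c l l' y) / 2 ≤
      Real.exp (-‖∑ l, (y l).2 • v (y l).1‖ ^ 2 / 2) := fun y => by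
    set Q := ‖∑ l, (y l).2 • v (y l).1‖ ^ 2
    set Q0 := (1 - q) * ∑ k, (y k).2 ^ 2 + q * (∑ k, (y k).2) ^ 2
    have he : e0 q (fun k => (y k).2) = Real.exp (-Q0 / 2) := e0_eq _
    have hdiff : ∑ l, ∑ l', c l l' y = (Q - Q0) * e0 q (fun k => (y k).2) := by
      have eQ : Q = ∑ l, ∑ l', (y l).2 * (y l').2 * ⟪v (y l).1, v (y l').1⟫ := by
        simp only [Q, ← real_inner_self_eq_norm_sq, sum_inner, inner_sum, real_inner_smul_left,
          real_inner_smul_right]
        rw [Finset.sum_comm]
        exact Finset.sum_congr rfl fun l _ => Finset.sum_congr rfl fun l' _ => by ring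
      have eQ0 : Q0 = ∑ l, ∑ l', (y l).2 * (y l').2 * (if l = l' then 1 else q) := by
        have : ∀ l l', (y l).2 * (y l').2 * (if l = l' then 1 else q) =
            (if l = l' then (1 - q) * (y l).2 ^ 2 else 0) + q * ((y l).2 * (y l').2) := fun l l' => by
          split_ifs with h
          · subst h; ring
          · ring
        simp only [this, Finset.sum_add_distrib, Finset.sum_ite_eq, Finset.mem_univ, if_true,
          ← Finset.mul_sum, ← Finset.sum_mul, Q0]
        ring
      rw [eQ, eQ0, ← Finset.sum_sub_distrib, Finset.sum_mul]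
      refine Finset.sum_congr rfl fun l _ => ?_
      rw [← Finset.sum_sub_distrib, Finset.sum_mul]
      refine Finset.sum_congr rfl fun l' _ => ?_
      simp only [c]
      split_ifs with h
      · subst h; rw [real_inner_self_eq_norm_sq, hv1]; ring
      · ring
    rw [hdiff, he, show -Q / 2 = -Q0 / 2 + -(Q - Q0) / 2 by ring, Real.exp_add]
    nlinarith [Real.add_one_le_exp (-(Q - Q0) / 2), Real.exp_pos (-Q0 / 2)]
  have hem : Measurable fun t : Fin n → ℝ => e0 q t := by unfold e0 damp; fun_prop
  have he1 : ∀ t : Fin n → ℝ, 0 ≤ e0 q t ∧ e0 q t ≤ ∏ k, damp q (t k) := fun t =>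
    ⟨mul_nonneg (Real.exp_pos _).le (Finset.prod_nonneg fun k _ => damp_nonneg q _),
      mul_le_of_le_one_left (Finset.prod_nonneg fun k _ => damp_nonneg q _)
        (by rw [Real.exp_le_one_iff]; nlinarith [sq_nonneg (∑ k, t k)])⟩
  have hci : ∀ l l', Integrable (c l l') P := fun l l' => by
    by_cases hll : l = l'
    · simp [c, hll]
    · simp only [c, if_neg hll]
      refine Integrable.mono' (integrable_const ((1 + |q|) * dampC q ^ 2))
        (Measurable.aestronglyMeasurable (by fun_prop)) (Filter.Eventually.of_forall fun y => ?_)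
      rw [Real.norm_eq_abs, abs_mul]
      refine mul_le_mul ?_ ?_ (abs_nonneg _) (by positivity)
      · refine (abs_sub _ _).trans (add_le_add ?_ le_rfl)
        simpa [hv1] using abs_real_inner_le_norm (v (y l).1) (v (y l').1)
      · have hp : ∏ k, damp q (y k).2 ≤ damp q (y l).2 * damp q (y l').2 := by
          rw [← Finset.prod_mul_prod_compl ({l, l'} : Finset (Fin n)), Finset.prod_pair hll]
          exact mul_le_of_le_one_right (mul_nonneg (damp_nonneg q _) (damp_nonneg q _))
            (Finset.prod_le_one (fun k _ => damp_nonneg q _) fun k _ => damp_le_one hq1.le _)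
        rw [abs_mul, abs_mul, abs_of_nonneg (he1 _).1]
        refine (mul_le_mul_of_nonneg_left ((he1 _).2.trans hp)
          (mul_nonneg (abs_nonneg _) (abs_nonneg _))).trans ?_
        have h1 := abs_mul_damp hq1 (y l).2
        have h2 := abs_mul_damp hq1 (y l').2
        rw [abs_mul, abs_of_nonneg (damp_nonneg q _)] at h1 h2
        calc |(y l).2| * |(y l').2| * (damp q (y l).2 * damp q (y l').2)
            = (|(y l).2| * damp q (y l).2) * (|(y l').2| * damp q (y l').2) := by ring
          _ ≤ dampC q * dampC q := mul_le_mul h1 h2 (mul_nonneg (abs_nonneg _) (damp_nonneg q _))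
              (le_trans zero_le_one (one_le_dampC hq1))
          _ = dampC q ^ 2 := by ring
  have hei : Integrable (fun y : Fin n → X × ℝ => e0 q fun k => (y k).2) P :=
    Integrable.mono' (integrable_const (1 : ℝ)) (Measurable.aestronglyMeasurable (by fun_prop))
      (Filter.Eventually.of_forall fun y => by
        rw [Real.norm_eq_abs, abs_of_nonneg (he1 _).1]
        exact (he1 _).2.trans
          (Finset.prod_le_one (fun k _ => damp_nonneg q _) fun k _ => damp_le_one hq1.le _))
  have hsum : Integrable (fun y => ∑ l, ∑ l', c l l' y) P :=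
    integrable_finsetSum _ fun l _ => integrable_finsetSum _ fun l' _ => hci l l'
  have hleft : ∫ y, e0 q (fun k => (y k).2) ∂P = ∫ y, rsW ν q y ^ n ∂gaussianReal 0 1 := by
    have h := hsplit (fun _ => 1) (e0 q)
    simpa [hm0] using h
  set J := ∫ y, rsS ν q y ^ 2 * rsW ν q y ^ (n - 2) ∂gaussianReal 0 1
  have hc : ∀ l l', ∫ y, c l l' y ∂P = if l = l' then 0 else (R - q) * (-J) := fun l l' => by
    by_cases hll : l = l'
    · simp [c, hll]
    · simp only [c, if_neg hll]
      rw [hsplit (fun x => ⟪v (x l), v (x l')⟫ - q) (fun t => t l * t l' * e0 q t), hpair l l' hll,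
        integral_sub (Integrable.mono' (integrable_const (1 : ℝ))
          (Measurable.aestronglyMeasurable (by fun_prop)) (Filter.Eventually.of_forall fun x => by
            simpa [hv1] using abs_real_inner_le_norm (v (x l)) (v (x l')))) (integrable_const q),
        integral_pi_pair hv hv1 hll, integral_const, probReal_univ, one_smul]
  refine le_trans (le_of_eq ?_) (integral_mono (hei.sub (hsum.div_const 2))
    (Integrable.mono' (integrable_const (1 : ℝ)) (Measurable.aestronglyMeasurable (by fun_prop))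
      (Filter.Eventually.of_forall fun y => by
        rw [Real.norm_eq_abs, Real.abs_exp, Real.exp_le_one_iff]
        linarith [sq_nonneg ‖∑ l, (y l).2 • v (y l).1‖])) hpt)
  simp only [Pi.sub_apply]
  rw [integral_sub hei (hsum.div_const 2), integral_div, hleft,
    integral_finsetSum _ fun l _ => integrable_finsetSum _ fun l' _ => hci l l',
    Finset.sum_congr rfl fun l _ => integral_finsetSum _ fun l' _ => hci l l']
  simp only [hc]
  have hcount : ∑ l : Fin n, ∑ l' : Fin n, (if l = l' then (0 : ℝ) else (R - q) * (-J)) =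
      ((n : ℝ) * ((n : ℝ) - 1)) * ((R - q) * (-J)) := by
    have : ∀ l l' : Fin n, (if l = l' then (0 : ℝ) else (R - q) * (-J)) =
        (R - q) * (-J) - if l = l' then (R - q) * (-J) else 0 := fun l l' => by split_ifs <;> ring
    simp only [this, Finset.sum_sub_distrib, Finset.sum_ite_eq, Finset.mem_univ, if_true,
      Finset.sum_const, Finset.card_univ, Fintype.card_fin, nsmul_eq_mul]
    ring
  rw [hcount]
  ring

/-- The replica-symmetric entropy of one pattern. -/
noncomputable def rsA (a : ℝ) (ν : Measure ℝ) (q : ℝ) : ℝ :=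
  ∫ y, Real.log (a - rsW ν q y) ∂gaussianReal 0 1

/-- The conjugate overlap. -/
noncomputable def rsR (a : ℝ) (ν : Measure ℝ) (q : ℝ) : ℝ :=
  ∫ y, (rsS ν q y / (a - rsW ν q y)) ^ 2 ∂gaussianReal 0 1

lemma rsR_nonneg : 0 ≤ rsR a ν q := integral_nonneg fun _ => sq_nonneg _

/-- One pattern against the replica-symmetric value. -/
theorem tangent (hk : Ker f a ν) {ρ : Measure X} [IsProbabilityMeasure ρ] {v : X → E}
    (hv : Measurable v) (hv1 : ∀ x, ‖v x‖ = 1) (hq0 : 0 ≤ q) (hq1 : q < 1) :
    ∫ g, Real.log (∫ x, Real.exp (f ⟪g, v x⟫) ∂ρ) ∂stdGaussian E ≤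
      rsA a ν q - rsR a ν q / 2 * (‖∫ x, v x ∂ρ‖ ^ 2 - q) := by
  have := hk.fin
  have ha := hk.a_pos
  set γ := gaussianReal 0 1
  set b := ν.real Set.univ
  set r := b / a
  have hb0 : 0 ≤ b := measureReal_nonneg
  have hr1 : r < 1 := (div_lt_one ha).2 hk.lt
  have hr0 : 0 ≤ r := div_nonneg hb0 ha.le
  have hW := fun y => abs_rsW_le (ν := ν) hq1.le y
  have hS := fun y => abs_rsS_le (ν := ν) hq1 y
  have hWm := (continuous_rsW (ν := ν) hq1.le).measurable
  have hSm := (continuous_rsS (ν := ν) hq1).measurable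
  have hx : ∀ y, |rsW ν q y / a| ≤ r := fun y => by
    rw [abs_div, abs_of_pos ha]; exact div_le_div_of_nonneg_right (hW y) ha.le
  have hpos : ∀ y, 0 < a - rsW ν q y := fun y => by
    linarith [(abs_le.1 (hW y)).2, hk.lt]
  -- the series of the entropy
  have h1 := hasSum_integral_of_dominated_convergence (μ := γ)
    (F := fun (n : ℕ) y => (rsW ν q y / a) ^ (n + 1) / ((n : ℝ) + 1))
    (f := fun y => Real.log a - Real.log (a - rsW ν q y)) (fun n _ => r ^ (n + 1))
    (fun n => (((hWm.div_const a).pow_const _).div_const _).aestronglyMeasurable)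
    (fun n => Filter.Eventually.of_forall fun y => by
      rw [Real.norm_eq_abs, abs_div, abs_pow, abs_of_pos (by positivity : (0:ℝ) < (n : ℝ) + 1)]
      exact (div_le_self (pow_nonneg (abs_nonneg _) _)
        (by linarith [Nat.cast_nonneg (α := ℝ) n])).trans (pow_le_pow_left₀ (abs_nonneg _) (hx y) _))
    (Filter.Eventually.of_forall fun _ =>
      (summable_nat_add_iff 1).2 (summable_geometric_of_lt_one hr0 hr1))
    (integrable_const _) (Filter.Eventually.of_forall fun y => by
      have h := Real.hasSum_pow_div_log_of_abs_lt_one ((hx y).trans_lt hr1)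
      rw [one_sub_div ha.ne', Real.log_div (hpos y).ne' ha.ne', neg_sub] at h
      exact h)
  -- the series of the conjugate overlap
  have hsum2 : Summable fun n : ℕ => ((n : ℝ) + 1) * r ^ n := by
    have := summable_choose_mul_geometric_of_norm_lt_one (R := ℝ) 1 (r := r)
      (by rwa [Real.norm_eq_abs, abs_of_nonneg hr0])
    simpa using this
  have h2 := hasSum_integral_of_dominated_convergence (μ := γ)
    (F := fun (n : ℕ) y => ((n : ℝ) + 1) * (rsW ν q y / a) ^ n * (rsS ν q y / a) ^ 2)
    (f := fun y => (rsS ν q y / (a - rsW ν q y)) ^ 2)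
    (fun n _ => ((n : ℝ) + 1) * r ^ n * (dampC q * b / a) ^ 2)
    (fun n => ((((hWm.div_const a).pow_const _).const_mul _).mul
      ((hSm.div_const a).pow_const _)).aestronglyMeasurable)
    (fun n => Filter.Eventually.of_forall fun y => by
      rw [Real.norm_eq_abs, abs_mul, abs_mul, abs_pow, abs_pow,
        abs_of_pos (by positivity : (0:ℝ) < (n : ℝ) + 1)]
      have hs : |rsS ν q y / a| ≤ dampC q * b / a := by
        rw [abs_div, abs_of_pos ha]; exact div_le_div_of_nonneg_right (hS y) ha.le
      exact mul_le_mul (mul_le_mul_of_nonneg_left (pow_le_pow_left₀ (abs_nonneg _) (hx y) _)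
        (by positivity)) (pow_le_pow_left₀ (abs_nonneg _) hs 2) (by positivity) (by positivity))
    (Filter.Eventually.of_forall fun _ => hsum2.mul_right _)
    (integrable_const _) (Filter.Eventually.of_forall fun y => by
      have hlt : ‖rsW ν q y / a‖ < 1 := by rw [Real.norm_eq_abs]; exact (hx y).trans_lt hr1
      have h := (hasSum_choose_mul_geometric_of_norm_lt_one 1 hlt).mul_right ((rsS ν q y / a) ^ 2)
      have hv : (rsS ν q y / (a - rsW ν q y)) ^ 2 =
          1 / (1 - rsW ν q y / a) ^ (1 + 1) * (rsS ν q y / a) ^ 2 := by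
        have := (hpos y).ne'
        rw [one_sub_div ha.ne', div_pow, div_pow, div_pow, show (1 + 1 : ℕ) = 2 from rfl]
        field_simp
      simp only [Nat.choose_one_right, Nat.cast_add, Nat.cast_one] at h
      rw [hv]
      exact h)
  have hli : Integrable (fun y => Real.log (a - rsW ν q y)) γ := by
    refine Integrable.mono' (integrable_const (|Real.log (a - b)| + |Real.log (a + b)|))
      (hWm.const_sub a).log.aestronglyMeasurable (Filter.Eventually.of_forall fun y => ?_)
    obtain ⟨l1, l2⟩ := abs_le.1 (hW y)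
    have hl := hk.lt
    have m1 := Real.log_le_log (by linarith : (0 : ℝ) < a - b)
      (show a - b ≤ a - rsW ν q y by linarith)
    have m2 := Real.log_le_log (hpos y) (show a - rsW ν q y ≤ a + b by linarith)
    rw [Real.norm_eq_abs, abs_le]
    constructor
    · linarith [neg_abs_le (Real.log (a - b)), abs_nonneg (Real.log (a + b))]
    · linarith [le_abs_self (Real.log (a + b)), abs_nonneg (Real.log (a - b))]
  rw [integral_sub (integrable_const _) hli, integral_const, probReal_univ, one_smul] at h1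
  set g2 : ℕ → ℝ := fun n => ((n : ℝ)) *
    ∫ y, (rsW ν q y / a) ^ (n - 1) * (rsS ν q y / a) ^ 2 ∂γ
  have h2' : HasSum g2 (rsR a ν q) := by
    refine (hasSum_nat_add_iff' 1).1 ?_
    simp only [Finset.range_one, Finset.sum_singleton, g2, Nat.cast_zero, zero_mul, sub_zero,
      Nat.cast_add, Nat.cast_one, Nat.add_sub_cancel, ← integral_const_mul, ← mul_assoc,
      integral_zero]
    exact h2
  have hM := hasSum_mom (ρ := ρ) hk hv
  have hlow := hasSum_le (fun n => ?_) (h1.add (h2'.mul_left ((‖∫ x, v x ∂ρ‖ ^ 2 - q) / 2))) hM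
  · simp only [rsA]; linarith
  · have h := div_le_div_of_nonneg_right (mom_tangent (n := n + 1) hk (ρ := ρ) hv hv1 hq0 hq1)
      (by positivity : (0 : ℝ) ≤ ((n : ℝ) + 1) * a ^ (n + 1))
    refine le_trans (le_of_eq ?_) h
    simp only [g2]
    rcases Nat.eq_zero_or_pos n with rfl | hn
    · simp only [div_pow, Nat.cast_zero, zero_mul, mul_zero, add_zero, pow_one, zero_add,
        Nat.cast_one, sub_self]
      rw [integral_div, integral_div]
      field_simp
      rfl
    · obtain ⟨m, rfl⟩ : ∃ m, n = m + 1 := ⟨n - 1, by omega⟩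
      simp only [Nat.add_sub_cancel, show m + 1 + 1 - 2 = m by omega, Nat.cast_add, Nat.cast_one,
        div_pow]
      rw [integral_div, integral_div]
      have e : ∫ y, rsW ν q y ^ m / a ^ m * (rsS ν q y ^ 2 / a ^ 2) ∂γ =
          (∫ y, rsS ν q y ^ 2 * rsW ν q y ^ m ∂γ) / (a ^ m * a ^ 2) := by
        rw [← integral_div]
        exact integral_congr_ae (Filter.Eventually.of_forall fun y => by ring)
      rw [e]
      field_simp
      ring

end Vale.Agent.P157
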