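import Vale.Agent.P157.Bin
import Vale.Agent.P157.Tangent
import Vale.Agent.P157.Field

/-!
Interpolation between Gaussian patterns and a Gaussian field: the replica-symmetric upper bound.
-/

namespace Vale.Agent.P157

open MeasureTheory ProbabilityTheory Filter
open scoped RealInnerProductSpace Topology

variable {X : Type} [MeasurableSpace X]
variable {E : Type} [NormedAddCommGroup E] [InnerProductSpace ℝ E] [FiniteDimensional ℝ E]
  [MeasurableSpace E] [BorelSpace E]
variable {μ : Measure X} [IsProbabilityMeasure μ] {f : ℝ → ℝ} {a : ℝ} {ν : Measure ℝ} {v : X → E}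
  {q : ℝ}

/-- Log-partition function with `k` patterns and a field of strength `s`. -/
noncomputable def hybrid (μ : Measure X) (f : ℝ → ℝ) (v : X → E) (s : ℝ) (k : ℕ) : ℝ :=
  avg (stdGaussian E) (fw s v) (L μ f v k) fun _ => 1

lemma hybrid_step (hk : Ker f a ν) (hv : Measurable v) (hv1 : ∀ x, ‖v x‖ = 1) (hq0 : 0 ≤ q)
    (hq1 : q < 1) {p δ s s' : ℝ} (hp0 : 0 ≤ p) (hδ : δ = p * rsR a ν q) (hδ1 : δ ≤ 1)
    (hs : s ^ 2 + Real.sqrt δ ^ 2 = s' ^ 2) (k : ℕ) :
    p * hybrid μ f v s (k + 1) + (1 - p) * hybrid μ f v s k ≤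
      hybrid μ f v s' k + (p * (rsA a ν q - rsR a ν q * (1 - q) / 2) +
        δ * Real.sqrt δ * fieldC E) := by
  have hf := hk.pot
  have hδ0 : 0 ≤ δ := hδ ▸ mul_nonneg hp0 rsR_nonneg
  set c := p * (rsA a ν q - rsR a ν q * (1 - q) / 2) + δ * Real.sqrt δ * fieldC E
  have hm := mult_fw hv hv1 s
  have hmδ := mult_fw hv hv1 (Real.sqrt δ)
  have hmp := mult_pw hf hv
  have hn : Nice (logI μ) 1 := nice_logI
  have hn1 := Nice.avg hmp hn
  have hn2 := Nice.avg hmδ hn
  have hL : ∀ k, Nice (L μ f v k) 1 := fun k => nice_L hf hv k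
  have hpt : ∀ w, Wt w →
      p * avg (stdGaussian E) (pw f v) (logI μ) w + (1 - p) * logI μ w ≤
        avg (stdGaussian E) (fw (Real.sqrt δ) v) (logI μ) w + c := fun w hw => by
    have := isProbabilityMeasure_gibbs (μ := μ) hw
    rw [avg_logI hmp hw, avg_logI hmδ hw]
    have h1 := mul_le_mul_of_nonneg_left (tangent hk (ρ := gibbs μ w) hv hv1 hq0 hq1) hp0
    have h2 := field_step (ρ := gibbs μ w) hv hv1 hδ0 hδ1
    simp only [pw, fw]
    simp only [hδ] at h2
    simp only [c, hδ]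
    linarith
  have hlift : ∀ w, Wt w → p * L μ f v (k + 1) w + (1 - p) * L μ f v k w ≤
      avg (stdGaussian E) (fw (Real.sqrt δ) v) (L μ f v k) w + c := fun w hw => by
    have h := iter_mono hf hv ((hn1.const_mul p).add (hn.const_mul (1 - p)))
      (hn2.add (Nice.const c)) hpt k w hw
    rw [iter_add hf hv (hn1.const_mul p) (hn.const_mul (1 - p)) k w hw, iter_const_mul,
      iter_const_mul, ← iter_succ', iter_add hf hv hn2 (Nice.const c) k w hw,
      iter_avg hf hv hmδ hn k w hw, iter_const] at h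
    exact h
  have h := avg_mono hm (((hL (k + 1)).const_mul p).add ((hL k).const_mul (1 - p)))
    ((Nice.avg hmδ (hL k)).add (Nice.const c)) hlift (Wt.one (X := X))
  rw [avg_add hm ((hL (k + 1)).const_mul p) ((hL k).const_mul (1 - p)) Wt.one, avg_const_mul,
    avg_const_mul, avg_add hm (Nice.avg hmδ (hL k)) (Nice.const c) Wt.one,
    avg_fw_avg hv hv1 hs (hL k) Wt.one] at h
  simpa [hybrid, avg] using h

lemma hybrid_telescope (hk : Ker f a ν) (hv : Measurable v) (hv1 : ∀ x, ‖v x‖ = 1) (hq0 : 0 ≤ q)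
    (hq1 : q < 1) {p δ : ℝ} (hp0 : 0 ≤ p) (hp1 : p ≤ 1) (hδ : δ = p * rsR a ν q) (hδ1 : δ ≤ 1)
    (K : ℕ) : ∀ j, j ≤ K →
      binE j p (fun k => hybrid μ f v (Real.sqrt (((K : ℝ) - j) * δ)) k) ≤
        hybrid μ f v (Real.sqrt ((K : ℝ) * δ)) 0 +
          j * (p * (rsA a ν q - rsR a ν q * (1 - q) / 2) + δ * Real.sqrt δ * fieldC E) := by
  intro j
  induction j with
  | zero => intro _; simp [binE]
  | succ j ih =>
    intro hj
    have hδ0 : 0 ≤ δ := hδ ▸ mul_nonneg hp0 rsR_nonneg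
    have hjK : ((j + 1 : ℕ) : ℝ) ≤ K := by exact_mod_cast hj
    set c := p * (rsA a ν q - rsR a ν q * (1 - q) / 2) + δ * Real.sqrt δ * fieldC E
    have hs : Real.sqrt (((K : ℝ) - (j + 1 : ℕ)) * δ) ^ 2 + Real.sqrt δ ^ 2 =
        Real.sqrt (((K : ℝ) - j) * δ) ^ 2 := by
      rw [Real.sq_sqrt (mul_nonneg (by linarith) hδ0), Real.sq_sqrt hδ0,
        Real.sq_sqrt (mul_nonneg (by push_cast at hjK; linarith) hδ0)]
      push_cast; ring
    simp only [binE]
    rw [← binE_const_mul, ← binE_const_mul, ← binE_add]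
    refine (binE_mono hp0 hp1 j fun k _ => hybrid_step hk hv hv1 hq0 hq1 hp0 hδ hδ1 hs k).trans ?_
    rw [binE_add, binE_const]
    refine (add_le_add (ih (by omega)) le_rfl).trans (le_of_eq ?_)
    simp only [c]
    push_cast
    ring

/-- The replica-symmetric upper bound for the Poissonised log-partition function. -/
theorem rs_bound (hk : Ker f a ν) (hv : Measurable v) (hv1 : ∀ x, ‖v x‖ = 1) (hq0 : 0 ≤ q)
    (hq1 : q < 1) {lam : ℝ} (hlam : 0 ≤ lam) :
    poiE lam (fun k => L μ f v k fun _ => 1) ≤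
      hybrid μ f v (Real.sqrt (lam * rsR a ν q)) 0 +
        lam * (rsA a ν q - rsR a ν q * (1 - q) / 2) := by
  set r := rsR a ν q
  have hr : 0 ≤ r := rsR_nonneg
  set c0 := lam * (rsA a ν q - r * (1 - q) / 2)
  have hlim : Tendsto (fun K : ℕ => hybrid μ f v (Real.sqrt (lam * r)) 0 +
      (c0 + lam * r * Real.sqrt (lam * r / K) * fieldC E)) atTop
      (𝓝 (hybrid μ f v (Real.sqrt (lam * r)) 0 + (c0 + lam * r * Real.sqrt 0 * fieldC E))) := by
    have h0 := tendsto_const_div_atTop_nhds_zero_nat (lam * r)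
    exact tendsto_const_nhds.add (tendsto_const_nhds.add
      ((((Real.continuous_sqrt.tendsto _).comp h0).const_mul _).mul_const _))
  rw [Real.sqrt_zero, mul_zero, zero_mul, add_zero] at hlim
  refine le_of_tendsto_of_tendsto (tendsto_binE_div hlam (abs_L_one hk.pot hv)) hlim ?_
  filter_upwards [eventually_ge_atTop (⌈lam⌉₊ + ⌈lam * r⌉₊ + 1)] with K hK
  have hK0 : (0 : ℝ) < K := by exact_mod_cast (by omega : 0 < K)
  have h1 : lam ≤ K := (Nat.le_ceil _).trans (by exact_mod_cast (by omega : ⌈lam⌉₊ ≤ K))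
  have h2 : lam * r ≤ K := (Nat.le_ceil _).trans (by exact_mod_cast (by omega : ⌈lam * r⌉₊ ≤ K))
  have hδ : lam * r / K = lam / K * r := by ring
  have h := hybrid_telescope (μ := μ) hk hv hv1 hq0 hq1 (div_nonneg hlam hK0.le)
    ((div_le_one hK0).2 h1) hδ ((div_le_one hK0).2 h2) K K le_rfl
  simp only [sub_self, zero_mul, Real.sqrt_zero, hybrid, avg_fw_zero] at h
  refine h.trans (le_of_eq ?_)
  simp only [hybrid, c0]
  rw [mul_div_cancel₀ _ hK0.ne']
  field_simp
  ring

end Vale.Agent.P157
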