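import Vale.Agent.P157.Bin
import Vale.Agent.P157.Kernel

/-!
Superadditivity in blocks of coordinates and existence of the limit.
-/

namespace Vale.Agent.P157

open MeasureTheory ProbabilityTheory Filter
open scoped RealInnerProductSpace Topology

lemma binE_integral {P : Type*} [MeasurableSpace P] {γ : Measure P} {s : ℝ} :
    ∀ (M : ℕ) (F : ℕ → P → ℝ), (∀ k, Integrable (F k) γ) →
      Integrable (fun p => binE M s fun k => F k p) γ ∧
        ∫ p, binE M s (fun k => F k p) ∂γ = binE M s fun k => ∫ p, F k p ∂γ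
  | 0, F, hF => ⟨hF 0, rfl⟩
  | M + 1, F, hF => by
    obtain ⟨i1, e1⟩ := binE_integral M (fun k => F (k + 1)) fun k => hF (k + 1)
    obtain ⟨i0, e0⟩ := binE_integral M F hF
    refine ⟨(i1.const_mul s).add (i0.const_mul (1 - s)), ?_⟩
    simp only [binE]
    rw [integral_add (i1.const_mul s) (i0.const_mul (1 - s)), integral_const_mul, integral_const_mul,
      e1, e0]

section block

variable {J : Type} [Fintype J] [DecidableEq J] {X : J → Type} [∀ j, MeasurableSpace (X j)]
  {μ : ∀ j, Measure (X j)} [∀ j, IsProbabilityMeasure (μ j)]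
  {F : J → Type} [∀ j, NormedAddCommGroup (F j)] [∀ j, InnerProductSpace ℝ (F j)]
  [∀ j, FiniteDimensional ℝ (F j)] [∀ j, MeasurableSpace (F j)] [∀ j, BorelSpace (F j)]
  {E : Type} [NormedAddCommGroup E] [InnerProductSpace ℝ E] [FiniteDimensional ℝ E]
  [MeasurableSpace E] [BorelSpace E]

omit [DecidableEq J] in
lemma Wt.prod {w : ∀ j, X j → ℝ} (hw : ∀ j, Wt (w j)) : Wt fun x : ∀ j, X j => ∏ j, w j (x j) := by
  refine ⟨Finset.measurable_prod _ fun j _ => (hw j).meas.comp (measurable_pi_apply j),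
    ∑ j, (hw j).bdd.choose, fun x => ⟨Finset.prod_pos fun j _ => (hw j).pos _, ?_⟩⟩
  rw [Real.log_prod fun j _ => ((hw j).pos _).ne']
  exact (Finset.abs_sum_le_sum_abs _ _).trans
    (Finset.sum_le_sum fun j _ => ((hw j).bdd.choose_spec _).2)

/-- The expected log-partition function dominates that of a random split into blocks. -/
theorem L_block_of {f : ℝ → ℝ} {B : ℝ} (hf : Pot f B)
    {u : ∀ j, X j → F j} (hu : ∀ j, Measurable (u j)) {v : (∀ j, X j) → E} (hv : Measurable v)
    {s : J → ℝ} (hs0 : ∀ j, 0 ≤ s j) (hs1 : ∑ j, s j = 1)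
    (hblock : ∀ w : (∀ j, X j) → ℝ, Wt w →
      ∑ j, s j * avg (stdGaussian (F j)) (pw f fun x => u j (x j)) (logI (Measure.pi μ)) w ≤
        avg (stdGaussian E) (pw f v) (logI (Measure.pi μ)) w) :
    ∀ (M : ℕ) (w : ∀ j, X j → ℝ), (∀ j, Wt (w j)) →
      ∑ j, binE M (s j) (fun k => L (μ j) f (u j) k (w j)) ≤
        L (Measure.pi μ) f v M (fun x => ∏ j, w j (x j)) := by
  have hsle : ∀ j, s j ≤ 1 := fun j => by
    rw [← hs1]; exact Finset.single_le_sum (fun i _ => hs0 i) (Finset.mem_univ j)
  intro M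
  induction M with
  | zero =>
    intro w hw
    refine le_of_eq ?_
    simp only [binE, L, iter, logI]
    rw [integral_fintype_prod_eq_prod, Real.log_prod fun j _ => ((hw j).integral_pos).ne']
  | succ M ih =>
    intro w hw
    have hW := Wt.prod hw
    have hui : ∀ i, Measurable fun x : ∀ j, X j => u i (x i) := fun i =>
      (hu i).comp (measurable_pi_apply i)
    have hnice : ∀ i, Nice (avg (stdGaussian (F i)) (pw f fun x : ∀ j, X j => u i (x i))
        (logI (Measure.pi μ))) 1 := fun i => Nice.avg (mult_pw hf (hui i)) nice_logI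
    -- one pattern restricted to a random block
    have h1 : ∑ i, s i * avg (stdGaussian (F i)) (pw f fun x : ∀ j, X j => u i (x i))
          (L (Measure.pi μ) f v M) (fun x => ∏ j, w j (x j)) ≤
        L (Measure.pi μ) f v (M + 1) (fun x => ∏ j, w j (x j)) := by
      rw [L, iter_succ']
      refine le_trans (le_of_eq ?_) (iter_mono hf hv
        (Nice.sum Finset.univ fun i _ => (hnice i).const_mul (s i))
        (Nice.avg (mult_pw hf hv) nice_logI)
        hblock M _ hW)
      rw [iter_sum hf hv Finset.univ (fun i _ => (hnice i).const_mul (s i)) M hW]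
      refine Finset.sum_congr rfl fun i _ => ?_
      rw [iter_const_mul, iter_avg hf hv (mult_pw hf (hui i)) nice_logI M _ hW]
      rfl
    refine le_trans ?_ h1
    -- the induction hypothesis for each choice of the block
    have h2 : ∀ i, (∑ j, if j = i then binE M (s j) (fun k => L (μ j) f (u j) (k + 1) (w j))
          else binE M (s j) (fun k => L (μ j) f (u j) k (w j))) ≤
        avg (stdGaussian (F i)) (pw f fun x : ∀ j, X j => u i (x i))
          (L (Measure.pi μ) f v M) (fun x => ∏ j, w j (x j)) := by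
      intro i
      set W : F i → ∀ j, X j → ℝ := fun g =>
        Function.update w i (fun z => w i z * pw f (u i) g z) with hWdef
      have hWt : ∀ g j, Wt (W g j) := fun g j => by
        by_cases hji : j = i
        · subst hji
          simp only [hWdef, Function.update_self]
          exact (hw j).mul ((mult_pw hf (hu j)).wt g)
        · simp only [hWdef, Function.update_of_ne hji]
          exact hw j
      have hWi : ∀ g, W g i = fun z => w i z * pw f (u i) g z := fun g => Function.update_self ..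
      have hprod : ∀ g (x : ∀ j, X j), ∏ j, W g j (x j) =
          (∏ j, w j (x j)) * pw f (fun x : ∀ j, X j => u i (x i)) g x := fun g x => by
        have he : ∏ j ∈ Finset.univ.erase i, W g j (x j) = ∏ j ∈ Finset.univ.erase i, w j (x j) :=
          Finset.prod_congr rfl fun j hj => by
            simp only [hWdef, Function.update_of_ne (Finset.ne_of_mem_erase hj)]
        rw [← Finset.mul_prod_erase Finset.univ (fun j => W g j (x j)) (Finset.mem_univ i),
          ← Finset.mul_prod_erase Finset.univ (fun j => w j (x j)) (Finset.mem_univ i), hWi, he]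
        simp only [pw]
        ring
      have hint : ∀ j k, Integrable (fun g => L (μ j) f (u j) k (W g j)) (stdGaussian (F i)) := by
        intro j k
        by_cases hji : j = i
        · subst hji
          simp only [hWdef, Function.update_self]
          exact integrable_avg (mult_pw hf (hu j)) (nice_L hf (hu j) k) (hw j)
        · simp only [hWdef, Function.update_of_ne hji]
          exact integrable_const _
      have hmain : ∫ g, ∑ j, binE M (s j) (fun k => L (μ j) f (u j) k (W g j)) ∂stdGaussian (F i) ≤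
          avg (stdGaussian (F i)) (pw f fun x : ∀ j, X j => u i (x i))
            (L (Measure.pi μ) f v M) (fun x => ∏ j, w j (x j)) := by
        refine integral_mono
          (integrable_finsetSum _ fun j _ => (binE_integral M _ (hint j)).1)
          (integrable_avg (mult_pw hf (hui i)) (nice_L hf hv M) hW) fun g => ?_
        refine (ih (W g) (hWt g)).trans (le_of_eq ?_)
        simp only [hprod]
      refine le_trans (le_of_eq ?_) hmain
      rw [integral_finsetSum _ fun j _ => (binE_integral M _ (hint j)).1]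
      refine Finset.sum_congr rfl fun j _ => ?_
      rw [(binE_integral M _ (hint j)).2]
      by_cases hji : j = i
      · subst hji
        rw [if_pos rfl]
        simp only [hWdef, Function.update_self]
        rfl
      · rw [if_neg hji]
        simp only [hWdef, Function.update_of_ne hji]
        simp
    refine le_trans (le_of_eq ?_) (Finset.sum_le_sum fun i _ =>
      mul_le_mul_of_nonneg_left (h2 i) (hs0 i))
    simp only [Finset.mul_sum]
    rw [Finset.sum_comm]
    refine Finset.sum_congr rfl fun j _ => ?_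
    rw [← Finset.add_sum_erase Finset.univ _ (Finset.mem_univ j), if_pos rfl,
      Finset.sum_congr rfl fun i hi => by rw [if_neg (Finset.ne_of_mem_erase hi).symm],
      ← Finset.sum_mul, Finset.sum_erase_eq_sub (Finset.mem_univ j), hs1]
    simp only [binE]

/-- The expected log-partition function dominates that of a random split into blocks. -/
theorem L_block {f : ℝ → ℝ} {a : ℝ} {ν : Measure ℝ} (hk : Ker f a ν)
    {u : ∀ j, X j → F j} (hu : ∀ j, Measurable (u j)) {v : (∀ j, X j) → E} (hv : Measurable v)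
    {s : J → ℝ} (hs0 : ∀ j, 0 ≤ s j) (hs1 : ∑ j, s j = 1)
    (hgram : ∀ x y, ⟪v x, v y⟫ = ∑ j, s j * ⟪u j (x j), u j (y j)⟫) :
    ∀ (M : ℕ) (w : ∀ j, X j → ℝ), (∀ j, Wt (w j)) →
      ∑ j, binE M (s j) (fun k => L (μ j) f (u j) k (w j)) ≤
        L (Measure.pi μ) f v M (fun x => ∏ j, w j (x j)) :=
  L_block_of hk.pot hu hv hs0 hs1 fun _ hw =>
    avg_block hk hv (fun j => (hu j).comp (measurable_pi_apply j)) hs0 hs1 hgram hw

end block

/-- One pattern on the whole system is better than one pattern on a random block, for unit block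
vectors. -/
def BlockIneq (f : ℝ → ℝ) : Prop :=
  ∀ (J : Type) [Fintype J] (X : Type) [MeasurableSpace X] (μ : Measure X) [IsProbabilityMeasure μ]
    (E : Type) [NormedAddCommGroup E] [InnerProductSpace ℝ E] [FiniteDimensional ℝ E]
    [MeasurableSpace E] [BorelSpace E]
    (F : J → Type) [∀ j, NormedAddCommGroup (F j)] [∀ j, InnerProductSpace ℝ (F j)]
    [∀ j, FiniteDimensional ℝ (F j)] [∀ j, MeasurableSpace (F j)] [∀ j, BorelSpace (F j)]
    (v : X → E) (u : ∀ j, X → F j) (s : J → ℝ),
    Measurable v → (∀ j, Measurable (u j)) → (∀ j, 0 ≤ s j) → ∑ j, s j = 1 →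
    (∀ j x, ‖u j x‖ = 1) → (∀ x y, ⟪v x, v y⟫ = ∑ j, s j * ⟪u j x, u j y⟫) →
    ∀ w, Wt w → ∑ j, s j * avg (stdGaussian (F j)) (pw f (u j)) (logI μ) w ≤
      avg (stdGaussian E) (pw f v) (logI μ) w

lemma Ker.blockIneq {f : ℝ → ℝ} {a : ℝ} {ν : Measure ℝ} (hk : Ker f a ν) : BlockIneq f := by
  intro J _ X _ μ _ E _ _ _ _ _ F _ _ _ _ _ v u s hv hu hs0 hs1 _ hgram w hw
  exact avg_block hk hv hu hs0 hs1 hgram hw

/-- Superadditivity over splits of the coordinates into blocks. -/
structure SuperAdd (F : ℕ → ℕ → ℝ) (C : ℝ) : Prop where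
  zero : ∀ N, F N 0 = 0
  lip : ∀ N k l, |F N k - F N l| ≤ C * |(k : ℝ) - l|
  split : ∀ (J : Type) [Fintype J] (n : J → ℕ) (N : ℕ), (∀ j, 1 ≤ n j) → ∑ j, n j = N → 1 ≤ N →
    ∀ M, ∑ j, binE M ((n j : ℝ) / N) (F (n j)) ≤ F N M

namespace SuperAdd

variable {F : ℕ → ℕ → ℝ} {C α : ℝ} (hF : SuperAdd F C)
include hF

lemma C_nonneg : 0 ≤ C := by
  have := (abs_nonneg _).trans (hF.lip 0 1 0)
  simpa using this

lemma abs_le (N k : ℕ) : |F N k| ≤ C * k := by
  have := hF.lip N k 0
  rwa [hF.zero, sub_zero, Nat.cast_zero, sub_zero, Nat.abs_cast] at this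

lemma growth (N k : ℕ) : |F N k| ≤ C * ((k : ℝ) + 1) :=
  (hF.abs_le N k).trans (mul_le_mul_of_nonneg_left (by linarith) hF.C_nonneg)

lemma abs_binE_le {s : ℝ} (h0 : 0 ≤ s) (h1 : s ≤ 1) (N M : ℕ) :
    |binE M s (F N)| ≤ C * ((M : ℝ) * s) := by
  rw [_root_.abs_le, ← binE_id (s := s) M]
  constructor
  · rw [show -(C * binE M s (fun k => (k : ℝ))) = (-C) * binE M s (fun k => (k : ℝ)) by ring,
      ← binE_const_mul]
    exact binE_mono h0 h1 M fun k _ => by
      have := (_root_.abs_le.1 (hF.abs_le N k)).1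
      linarith
  · rw [← binE_const_mul]
    exact binE_mono h0 h1 M fun k _ => (_root_.abs_le.1 (hF.abs_le N k)).2

lemma abs_poiE_le {lam : ℝ} (hl : 0 ≤ lam) (N : ℕ) : |poiE lam (F N)| ≤ C * lam := by
  refine le_of_tendsto (tendsto_binE_div hl (hF.growth N)).abs ?_
  filter_upwards [eventually_ge_atTop (⌈lam⌉₊ + 1)] with M hM
  have : lam ≤ M := (Nat.le_ceil lam).trans (by exact_mod_cast (by omega : ⌈lam⌉₊ ≤ M))
  have hM0 : (0 : ℝ) < M := by exact_mod_cast (by omega : 0 < M)
  refine (hF.abs_binE_le (div_nonneg hl hM0.le) ((div_le_one hM0).2 this) N M).trans (le_of_eq ?_)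
  field_simp

lemma near_poiE (hα : 0 ≤ α) {N : ℕ} (hN : 1 ≤ N) :
    |poiE (α * N) (F N) - F N ⌊α * N⌋₊| ≤ C * ((1 + α * N) / (2 * Real.sqrt N) + Real.sqrt N / 2) := by
  have hl : 0 ≤ α * N := mul_nonneg hα (Nat.cast_nonneg _)
  have hsq : 0 < Real.sqrt N := Real.sqrt_pos.2 (by exact_mod_cast hN)
  refine le_of_tendsto ((tendsto_binE_div hl (hF.growth N)).sub_const _).abs ?_
  filter_upwards [eventually_ge_atTop (⌈α * N⌉₊ + 1)] with M hM
  have hle : α * N ≤ M := (Nat.le_ceil _).trans (by exact_mod_cast (by omega : ⌈α * N⌉₊ ≤ M))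
  have hM0 : (0 : ℝ) < M := by exact_mod_cast (by omega : 0 < M)
  have h0 : 0 ≤ α * N / M := div_nonneg hl hM0.le
  have h1 : α * N / M ≤ 1 := (div_le_one hM0).2 hle
  have hb : |binE M (α * N / M) (F N) - F N ⌊α * N⌋₊| ≤
      C * binE M (α * N / M) (fun k => |(k : ℝ) - (⌊α * N⌋₊ : ℝ)|) := by
    rw [_root_.abs_le]
    have hsub : binE M (α * N / M) (F N) - F N ⌊α * N⌋₊ =
        binE M (α * N / M) (fun k => F N k - F N ⌊α * N⌋₊) := by
      rw [binE_sub, binE_const]
    rw [hsub]
    constructor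
    · rw [← neg_mul, ← binE_const_mul]
      exact binE_mono h0 h1 M fun k _ => by
        have := (_root_.abs_le.1 (hF.lip N k ⌊α * N⌋₊)).1
        linarith
    · rw [← binE_const_mul]
      exact binE_mono h0 h1 M fun k _ => (_root_.abs_le.1 (hF.lip N k ⌊α * N⌋₊)).2
  refine hb.trans (mul_le_mul_of_nonneg_left ?_ hF.C_nonneg)
  refine (binE_abs_le h0 h1 M _ hsq).trans ?_
  rw [show (M : ℝ) * (α * N / M) = α * N by field_simp]
  refine add_le_add (div_le_div_of_nonneg_right ?_ (by positivity)) le_rfl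
  have f1 := Nat.floor_le hl
  have f2 := Nat.lt_floor_add_one (α * (N : ℝ))
  nlinarith

lemma tendsto_near (hα : 0 ≤ α) :
    Tendsto (fun N : ℕ => F N ⌊α * N⌋₊ / N - poiE (α * N) (F N) / N) atTop (𝓝 0) := by
  refine squeeze_zero_norm' (a := fun N : ℕ => C * (1 + α) / (Real.sqrt N)) ?_ ?_
  · filter_upwards [eventually_ge_atTop 1] with N hN
    have hN0 : (0 : ℝ) < N := by exact_mod_cast hN
    have hN1 : (1 : ℝ) ≤ N := by exact_mod_cast hN
    have hsq : 0 < Real.sqrt N := Real.sqrt_pos.2 hN0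
    have hss : Real.sqrt N * Real.sqrt N = N := Real.mul_self_sqrt hN0.le
    rw [← sub_div, Real.norm_eq_abs, abs_div, abs_of_pos hN0, div_le_iff₀ hN0, abs_sub_comm]
    refine (hF.near_poiE hα hN).trans ?_
    have e1 : C * (1 + α) / Real.sqrt N * N = C * ((1 + α) * Real.sqrt N) := by
      field_simp
      rw [sq, hss]
    rw [e1]
    refine mul_le_mul_of_nonneg_left ?_ hF.C_nonneg
    rw [div_add_div _ _ (by positivity) two_ne_zero, div_le_iff₀ (by positivity)]
    nlinarith
  · have h := (tendsto_inv_atTop_zero.comp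
      (Real.tendsto_sqrt_atTop.comp (tendsto_natCast_atTop_atTop (R := ℝ)))).const_mul (C * (1 + α))
    simpa [Function.comp, div_eq_mul_inv] using h

/-- The supremum of the Poisson pressures. -/
noncomputable def limit (_hF : SuperAdd F C) (α : ℝ) : ℝ :=
  ⨆ m : ℕ, poiE (α * ((m : ℝ) + 1)) (F (m + 1)) / ((m : ℝ) + 1)

lemma bddAbove (hα : 0 ≤ α) :
    BddAbove (Set.range fun m : ℕ => poiE (α * ((m : ℝ) + 1)) (F (m + 1)) / ((m : ℝ) + 1)) := by
  refine ⟨C * α, ?_⟩
  rintro _ ⟨m, rfl⟩
  have hm : (0 : ℝ) < (m : ℝ) + 1 := by positivity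
  rw [div_le_iff₀ hm]
  have := (_root_.abs_le.1 (hF.abs_poiE_le (mul_nonneg hα hm.le) (m + 1))).2
  linarith

lemma poiE_le_limit (hα : 0 ≤ α) {N : ℕ} (hN : 1 ≤ N) :
    poiE (α * N) (F N) / N ≤ hF.limit α := by
  have h := le_ciSup (hF.bddAbove hα) (N - 1)
  have e : ((N - 1 : ℕ) : ℝ) + 1 = N := by rw [Nat.cast_sub hN]; simp
  rw [e, Nat.sub_add_cancel hN] at h
  exact h

/-- Existence of the limit. -/
theorem tendsto_limit (hα : 0 < α) :
    Tendsto (fun N : ℕ => F N ⌊α * N⌋₊ / N) atTop (𝓝 (hF.limit α)) := by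
  refine tendsto_order.2 ⟨fun l hl => ?_, fun u hu => ?_⟩
  · obtain ⟨m, hm⟩ := exists_lt_of_lt_ciSup hl
    set m' := m + 1 with hm'
    have hmc : ((m' : ℕ) : ℝ) = (m : ℝ) + 1 := by rw [hm']; push_cast; ring
    have hm0 : (0 : ℝ) < (m' : ℝ) := by rw [hmc]; positivity
    have hbin : Tendsto (fun N : ℕ => binE ⌊α * N⌋₊ ((m' : ℝ) / N) (F m')) atTop
        (𝓝 (poiE (α * m') (F m'))) := by
      refine tendsto_binE ?_ ?_ ?_ (by positivity) (hF.growth m')
      · exact tendsto_nat_floor_atTop.comp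
          ((tendsto_natCast_atTop_atTop (R := ℝ)).const_mul_atTop hα)
      · filter_upwards [eventually_ge_atTop m'] with N hN
        have hN' : (m' : ℝ) ≤ N := by exact_mod_cast hN
        exact ⟨by positivity, (div_le_one (hm0.trans_le hN')).2 hN'⟩
      · have h := ((tendsto_nat_floor_mul_div_atTop hα.le).comp
          (tendsto_natCast_atTop_atTop (R := ℝ))).mul_const (m' : ℝ)
        refine h.congr fun N => ?_
        simp only [Function.comp]
        rw [div_mul_eq_mul_div, mul_div_assoc]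
    have hlow : Tendsto (fun N : ℕ => ((((N - 1) / m' : ℕ) : ℝ) / N) *
        binE ⌊α * N⌋₊ ((m' : ℝ) / N) (F m') - C * (α * m') / N) atTop
        (𝓝 (1 / (m' : ℝ) * poiE (α * m') (F m') - 0)) := by
      refine (Tendsto.mul ?_ hbin).sub (tendsto_const_div_atTop_nhds_zero_nat _)
      have h1 : Tendsto (fun N : ℕ => (1 - (((N - 1) % m' + 1 : ℕ) : ℝ) / N) / (m' : ℝ)) atTop
          (𝓝 ((1 - 0) / (m' : ℝ))) := by
        refine (tendsto_const_nhds.sub (squeeze_zero (g := fun N : ℕ => (m' : ℝ) / N)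
          (fun N => by positivity) (fun N => ?_) (tendsto_const_div_atTop_nhds_zero_nat _))).div_const _
        refine div_le_div_of_nonneg_right ?_ (Nat.cast_nonneg N)
        exact_mod_cast Nat.mod_lt _ (by omega : m' > 0)
      rw [sub_zero] at h1
      refine h1.congr' ?_
      filter_upwards [eventually_ge_atTop 1] with N hN
      have hN0 : (0 : ℝ) < N := by exact_mod_cast hN
      have hdm := Nat.div_add_mod (N - 1) m'
      have hkey : ((N - 1) / m') * m' + ((N - 1) % m' + 1) = N := by
        rw [mul_comm]; omega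
      have hkey' : ((((N - 1) / m' : ℕ) : ℝ)) * m' + (((N - 1) % m' + 1 : ℕ) : ℝ) = N := by
        exact_mod_cast hkey
      generalize (((N - 1) % m' + 1 : ℕ) : ℝ) = r at hkey'
      field_simp
      linarith
    rw [sub_zero, one_div_mul_eq_div] at hlow
    have hl' : l < poiE (α * m') (F m') / (m' : ℝ) := by rw [hmc]; exact hm
    filter_upwards [hlow.eventually (Ioi_mem_nhds hl'), eventually_ge_atTop 1] with N hN1 hN
    refine lt_of_lt_of_le hN1 ?_
    have hN0 : (0 : ℝ) < N := by exact_mod_cast hN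
    set q := (N - 1) / m' with hq
    set r := (N - 1) % m' + 1 with hr
    have hkey : q * m' + r = N := by
      have := Nat.div_add_mod (N - 1) m'
      rw [hq, hr, mul_comm]; omega
    have h := hF.split (Option (Fin q)) (fun j => Option.elim j r fun _ => m') N
      (fun j => by cases j <;> simp [hr, hm'])
      (by simp [Fintype.sum_option, Option.elim]; omega) hN ⌊α * N⌋₊
    simp only [Fintype.sum_option, Option.elim, Finset.sum_const, Finset.card_univ, Fintype.card_fin,
      nsmul_eq_mul] at h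
    have hrN : r ≤ N := by omega
    have hr0 : (0 : ℝ) ≤ (r : ℝ) / N := by positivity
    have hr1 : (r : ℝ) / N ≤ 1 := (div_le_one hN0).2 (by exact_mod_cast hrN)
    have hrest : -(C * (α * m')) ≤ binE ⌊α * N⌋₊ ((r : ℝ) / N) (F r) := by
      refine le_trans (neg_le_neg ?_) (_root_.abs_le.1 (hF.abs_binE_le hr0 hr1 r ⌊α * N⌋₊)).1
      refine mul_le_mul_of_nonneg_left ?_ hF.C_nonneg
      have hfl := Nat.floor_le (mul_nonneg hα.le hN0.le)
      have hrm : (r : ℝ) ≤ m' := by
        have : r ≤ m' := by rw [hr]; exact Nat.mod_lt _ (by omega : m' > 0)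
        exact_mod_cast this
      calc (⌊α * N⌋₊ : ℝ) * ((r : ℝ) / N) ≤ α * N * ((r : ℝ) / N) :=
            mul_le_mul_of_nonneg_right hfl hr0
        _ = α * r := by field_simp
        _ ≤ α * m' := mul_le_mul_of_nonneg_left hrm hα.le
    rw [le_div_iff₀ hN0, sub_mul, div_mul_cancel₀ _ hN0.ne', div_mul_eq_mul_div,
      div_mul_cancel₀ _ hN0.ne']
    linarith
  · have h := (hF.tendsto_near hα.le).eventually (Iio_mem_nhds (sub_pos.2 hu))
    filter_upwards [h, eventually_ge_atTop 1] with N hN hN1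
    have := hF.poiE_le_limit hα.le hN1
    linarith

lemma tendsto_poiE (hα : 0 < α) :
    Tendsto (fun N : ℕ => poiE (α * N) (F N) / N) atTop (𝓝 (hF.limit α)) := by
  have h := (hF.tendsto_limit hα).sub (hF.tendsto_near hα.le)
  simpa using h

end SuperAdd

end Vale.Agent.P157
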